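import Mathlib
import Vale.Agent.P158.V4.Mu
import Vale.Agent.P158.V4.Defs

/-!
P158 facets: coordinates at a corner of the limit shape, and the minimal mean beyond a level.
-/

namespace Vale.Agent.P158.Facet

open MeasureTheory Filter Topology Vale.Agent.P158.V4

/-- The scalar product. -/
def dot (p z : ℝ × ℝ) : ℝ := p.1 * z.1 + p.2 * z.2

theorem dot_add (p z z' : ℝ × ℝ) : dot p (z + z') = dot p z + dot p z' := by
  simp only [dot, Prod.fst_add, Prod.snd_add]; ring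

theorem dot_sub (p z z' : ℝ × ℝ) : dot p (z - z') = dot p z - dot p z' := by
  simp only [dot, Prod.fst_sub, Prod.snd_sub]; ring

theorem dot_smul (p z : ℝ × ℝ) (a : ℝ) : dot p (a • z) = a * dot p z := by
  simp only [dot, Prod.smul_fst, Prod.smul_snd, smul_eq_mul]; ring

theorem abs_dot_le (p z : ℝ × ℝ) : |dot p z| ≤ (|p.1| + |p.2|) * (|z.1| + |z.2|) := by
  refine (abs_add_le _ _).trans ?_
  rw [abs_mul, abs_mul]
  nlinarith [abs_nonneg p.1, abs_nonneg p.2, abs_nonneg z.1, abs_nonneg z.2]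

theorem rvec_sub (y z : ℤ × ℤ) : rvec (y - z) = rvec y - rvec z := by
  ext <;> simp [rvec]

theorem rvec_add (y z : ℤ × ℤ) : rvec (y + z) = rvec y + rvec z := by
  ext <;> simp [rvec]

theorem rvec_zero : rvec ((0 : ℤ), (0 : ℤ)) = 0 := by
  ext <;> simp [rvec]

theorem l1_fl_le (y : ℤ × ℤ) (p : ℝ × ℝ) :
    (l1 y (fl p) : ℝ) ≤ |(rvec y).1 - p.1| + |(rvec y).2 - p.2| + 2 := by
  rw [l1_cast]
  have h : ∀ a x : ℝ, |a - (⌊x⌋ : ℤ)| ≤ |a - x| + 1 := fun a x => by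
    refine (abs_sub_le a x _).trans (add_le_add le_rfl ?_)
    rw [Int.self_sub_floor, Int.abs_fract]
    exact (Int.fract_lt_one _).le
  have := h y.1 p.1
  have := h y.2 p.2
  simp only [rvec, fl]
  linarith

/-- A corner `v` of the unit ball of `μ`, with two supporting functionals and a transversal `w`. -/
structure Frame (μ : ℝ × ℝ → ℝ) where
  v : ℝ × ℝ
  w : ℝ × ℝ
  ρ : ℝ × ℝ
  σ : ℝ × ℝ
  ρv : dot ρ v = 1
  σv : dot σ v = 1
  ρw : dot ρ w = 1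
  σw : dot σ w = -1
  leρ : ∀ z, dot ρ z ≤ μ z
  leσ : ∀ z, dot σ z ≤ μ z
  μv : μ v = 1

namespace Frame

variable {μ : ℝ × ℝ → ℝ} (F : Frame μ)

/-- The coordinate along the corner. -/
noncomputable def x (z : ℤ × ℤ) : ℝ := (dot F.ρ (rvec z) + dot F.σ (rvec z)) / 2

/-- The coordinate across the corner. -/
noncomputable def h (z : ℤ × ℤ) : ℝ := (dot F.ρ (rvec z) - dot F.σ (rvec z)) / 2

/-- Bound of the coordinates of a unit step. -/
noncomputable def K : ℝ := |F.ρ.1| + |F.ρ.2| + |F.σ.1| + |F.σ.2| + 1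

/-- Bound of the lattice length of the unit vectors. -/
noncomputable def L : ℝ := |F.v.1| + |F.v.2| + |F.w.1| + |F.w.2| + 1

theorem one_le_K : 1 ≤ F.K := by
  unfold K
  linarith [abs_nonneg F.ρ.1, abs_nonneg F.ρ.2, abs_nonneg F.σ.1, abs_nonneg F.σ.2]

theorem one_le_L : 1 ≤ F.L := by
  unfold L
  linarith [abs_nonneg F.v.1, abs_nonneg F.v.2, abs_nonneg F.w.1, abs_nonneg F.w.2]

theorem x_add (y z : ℤ × ℤ) : F.x (y + z) = F.x y + F.x z := by
  simp only [x, rvec_add, dot_add]; ring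

theorem x_sub (y z : ℤ × ℤ) : F.x (y - z) = F.x y - F.x z := by
  simp only [x, rvec_sub, dot_sub]; ring

theorem h_add (y z : ℤ × ℤ) : F.h (y + z) = F.h y + F.h z := by
  simp only [h, rvec_add, dot_add]; ring

theorem h_sub (y z : ℤ × ℤ) : F.h (y - z) = F.h y - F.h z := by
  simp only [h, rvec_sub, dot_sub]; ring

theorem x_zero : F.x (0, 0) = 0 := by simp [x, dot, rvec]

theorem h_zero : F.h (0, 0) = 0 := by simp [h, dot, rvec]

theorem coord_zero : F.x 0 = 0 ∧ F.h 0 = 0 := ⟨F.x_zero, F.h_zero⟩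

theorem abs_x_le (y z : ℤ × ℤ) : |F.x y - F.x z| ≤ F.K * l1 y z ∧ |F.h y - F.h z| ≤ F.K * l1 y z := by
  have hd : (l1 y z : ℝ) = |(rvec y - rvec z).1| + |(rvec y - rvec z).2| := by rw [l1_cast]; simp [rvec]
  have h1 := abs_dot_le F.ρ (rvec y - rvec z)
  have h2 := abs_dot_le F.σ (rvec y - rvec z)
  rw [← hd, dot_sub] at h1 h2
  have e : (|F.ρ.1| + |F.ρ.2|) * (l1 y z : ℝ) + (|F.σ.1| + |F.σ.2|) * (l1 y z : ℝ) ≤ 2 * (F.K * l1 y z) := by
    unfold K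
    nlinarith [Nat.cast_nonneg (α := ℝ) (l1 y z), abs_nonneg F.ρ.1, abs_nonneg F.ρ.2, abs_nonneg F.σ.1, abs_nonneg F.σ.2]
  rw [abs_le] at h1 h2
  constructor <;> rw [abs_le] <;> simp only [x, h] <;> constructor <;> linarith

theorem det_ne : F.ρ.1 * F.σ.2 - F.ρ.2 * F.σ.1 ≠ 0 := fun h0 => by
  have e1 := F.ρv; have e2 := F.σv; have e3 := F.ρw; have e4 := F.σw
  simp only [dot] at e1 e2 e3 e4
  have : (F.ρ.1 * F.σ.2 - F.ρ.2 * F.σ.1) * (F.v.1 * F.w.2 - F.v.2 * F.w.1) = -2 := by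
    calc _ = (F.ρ.1 * F.v.1 + F.ρ.2 * F.v.2) * (F.σ.1 * F.w.1 + F.σ.2 * F.w.2) -
          (F.ρ.1 * F.w.1 + F.ρ.2 * F.w.2) * (F.σ.1 * F.v.1 + F.σ.2 * F.v.2) := by ring
      _ = -2 := by rw [e1, e2, e3, e4]; norm_num
  rw [h0] at this
  norm_num at this

theorem rvec_eq (z : ℤ × ℤ) : rvec z = F.x z • F.v + F.h z • F.w := by
  set d := rvec z - (F.x z • F.v + F.h z • F.w) with hd
  have h1 : dot F.ρ d = 0 := by
    rw [hd, dot_sub, dot_add, dot_smul, dot_smul, F.ρv, F.ρw]; simp only [x, h]; ring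
  have h2 : dot F.σ d = 0 := by
    rw [hd, dot_sub, dot_add, dot_smul, dot_smul, F.σv, F.σw]; simp only [x, h]; ring
  have hD := F.det_ne
  simp only [dot] at h1 h2
  have d1 : (F.ρ.1 * F.σ.2 - F.ρ.2 * F.σ.1) * d.1 = 0 := by linear_combination F.σ.2 * h1 - F.ρ.2 * h2
  have d2 : (F.ρ.1 * F.σ.2 - F.ρ.2 * F.σ.1) * d.2 = 0 := by linear_combination F.ρ.1 * h2 - F.σ.1 * h1
  have : d = 0 := Prod.ext ((mul_eq_zero.1 d1).resolve_left hD) ((mul_eq_zero.1 d2).resolve_left hD)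
  exact sub_eq_zero.1 this

/-- A site is close to the lattice point below given coordinates. -/
theorem l1_le (y a : ℤ × ℤ) (p q : ℝ) :
    (l1 y (fl (rvec a + p • F.v + q • F.w)) : ℝ) ≤
      F.L * (|F.x (y - a) - p| + |F.h (y - a) - q|) + 2 := by
  refine (l1_fl_le _ _).trans (add_le_add ?_ le_rfl)
  have hy : rvec y = rvec a + (F.x (y - a) • F.v + F.h (y - a) • F.w) := by
    rw [← F.rvec_eq, rvec_sub]; abel
  rw [hy]
  set P := F.x (y - a) - p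
  set Q := F.h (y - a) - q
  simp only [Prod.fst_add, Prod.snd_add, Prod.smul_fst, Prod.smul_snd, smul_eq_mul]
  have e1 : (rvec a).1 + (F.x (y - a) * F.v.1 + F.h (y - a) * F.w.1) - ((rvec a).1 + p * F.v.1 + q * F.w.1) =
      P * F.v.1 + Q * F.w.1 := by ring
  have e2 : (rvec a).2 + (F.x (y - a) * F.v.2 + F.h (y - a) * F.w.2) - ((rvec a).2 + p * F.v.2 + q * F.w.2) =
      P * F.v.2 + Q * F.w.2 := by ring
  rw [e1, e2]
  have a1 := abs_add_le (P * F.v.1) (Q * F.w.1)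
  have a2 := abs_add_le (P * F.v.2) (Q * F.w.2)
  simp only [abs_mul] at a1 a2
  unfold L
  nlinarith [abs_nonneg P, abs_nonneg Q, abs_nonneg F.v.1, abs_nonneg F.v.2, abs_nonneg F.w.1, abs_nonneg F.w.2]

theorem x_fl (p q : ℝ) : |F.x (fl (p • F.v + q • F.w)) - p| ≤ 2 * F.K ∧
    |F.h (fl (p • F.v + q • F.w)) - q| ≤ 2 * F.K := by
  set z := p • F.v + q • F.w with hz
  have h0 := l1_fl_le (fl z) z
  have hd : |(rvec (fl z) - z).1| + |(rvec (fl z) - z).2| ≤ 2 := by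
    have h : ∀ t : ℝ, |((⌊t⌋ : ℤ) : ℝ) - t| ≤ 1 := fun t => by
      rw [abs_sub_comm, Int.self_sub_floor, Int.abs_fract]
      exact (Int.fract_lt_one _).le
    have := h z.1
    have := h z.2
    simp only [rvec, fl, Prod.fst_sub, Prod.snd_sub]
    linarith
  have h1 := (abs_dot_le F.ρ (rvec (fl z) - z)).trans (mul_le_mul_of_nonneg_left hd (by positivity))
  have h2 := (abs_dot_le F.σ (rvec (fl z) - z)).trans (mul_le_mul_of_nonneg_left hd (by positivity))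
  rw [dot_sub, hz, dot_add, dot_smul, dot_smul, F.ρv, F.ρw, ← hz, abs_le] at h1
  rw [dot_sub, hz, dot_add, dot_smul, dot_smul, F.σv, F.σw, ← hz, abs_le] at h2
  have hK : |F.ρ.1| + |F.ρ.2| + (|F.σ.1| + |F.σ.2|) ≤ F.K := by unfold K; linarith
  constructor <;> rw [abs_le] <;> simp only [x, h] <;> constructor <;> linarith

theorem abs_le_mu (z : ℤ × ℤ) : F.x z + |F.h z| ≤ μ (rvec z) := by
  have h1 := F.leρ (rvec z)
  have h2 := F.leσ (rvec z)
  rcases abs_choice (F.h z) with e | e <;> rw [e] <;> simp only [x, h] <;> linarith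

end Frame

theorem exists_frame {μ : ℝ × ℝ → ℝ} (hhom : ∀ a : ℝ, 0 ≤ a → ∀ z, μ (a • z) = a * μ z)
    {v ρ σ : ℝ × ℝ} (hv : 0 < μ v) (hρ : Supports μ v ρ) (hσ : Supports μ v σ) (hne : ρ ≠ σ) :
    ∃ F : Frame μ, F.v = (μ v)⁻¹ • v := by
  have eρ : dot ρ v = μ v := hρ.2
  have eσ : dot σ v = μ v := hσ.2
  have hD : ρ.1 * σ.2 - ρ.2 * σ.1 ≠ 0 := fun h0 => by
    simp only [dot] at eρ eσ
    have c2 : (ρ.2 - σ.2) * μ v = 0 := by linear_combination σ.2 * eρ - ρ.2 * eσ - v.1 * h0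
    have c1 : (ρ.1 - σ.1) * μ v = 0 := by linear_combination σ.1 * eρ - ρ.1 * eσ + v.2 * h0
    exact hne (Prod.ext (sub_eq_zero.1 ((mul_eq_zero.1 c1).resolve_right hv.ne'))
      (sub_eq_zero.1 ((mul_eq_zero.1 c2).resolve_right hv.ne')))
  refine ⟨⟨(μ v)⁻¹ • v, ((σ.2 + ρ.2) / (ρ.1 * σ.2 - ρ.2 * σ.1), -(ρ.1 + σ.1) / (ρ.1 * σ.2 - ρ.2 * σ.1)), ρ, σ,
    by rw [dot_smul, eρ, inv_mul_cancel₀ hv.ne'], by rw [dot_smul, eσ, inv_mul_cancel₀ hv.ne'], ?_, ?_,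
    hρ.1, hσ.1, by rw [hhom _ (inv_nonneg.2 hv.le), inv_mul_cancel₀ hv.ne']⟩, rfl⟩
  · simp only [dot, mul_div_assoc', ← add_div]
    rw [div_eq_one_iff_eq hD]
    ring
  · simp only [dot, mul_div_assoc', ← add_div]
    rw [div_eq_iff hD]
    ring

variable (G : Measure ℝ) [IsProbabilityMeasure G] {b : ℝ}

theorem mu_hom (hG : ∀ᵐ t ∂G, 0 < t ∧ t ≤ b) (a : ℝ) (ha : 0 ≤ a) (z : ℝ × ℝ) :
    mu G (a • z) = a * mu G z := mu_smul G hG ha z

namespace Frame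

variable {G} (F : Frame (mu G))

theorem le_mean (hG : ∀ᵐ t ∂G, 0 < t ∧ t ≤ b) (z : ℤ × ℤ) : F.x z + |F.h z| ≤ mean G z :=
  (F.abs_le_mu z).trans (mu_le_mean G hG z)

theorem mean_fl_le (hG : ∀ᵐ t ∂G, 0 < t ∧ t ≤ b) (r : ℝ) :
    mean G (fl (r • F.v)) ≤ b * (F.L * |r| + 2) := by
  have h := (le_abs_self _).trans (abs_mean_sub_le G hG (fl (r • F.v)) (0, 0))
  rw [mean_zero G hG, sub_zero] at h
  refine h.trans ?_
  rw [mul_comm]
  refine mul_le_mul_of_nonneg_left ?_ (b_nonneg G hG)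
  have h' := F.l1_le (0, 0) (0, 0) r 0
  rw [show l1 (fl (r • F.v)) (0, 0) = l1 (0, 0) (fl (r • F.v)) by simp [l1]]
  simp only [rvec_zero, zero_add, zero_smul, add_zero, sub_self, F.coord_zero.1, F.coord_zero.2, zero_sub,
    abs_neg, abs_zero] at h'
  exact h'

/-- The least mean passage time beyond a level. -/
noncomputable def m (t : ℝ) : ℝ := sInf (mean G '' {z | t ≤ F.x z})

/-- Its excess over the linear value. -/
noncomputable def e (t : ℝ) : ℝ := F.m t - t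

omit [IsProbabilityMeasure G] in
theorem beyond_fl (t r : ℝ) (hr : t + 2 * F.K ≤ r) : t ≤ F.x (fl (r • F.v)) := by
  have h := (abs_le.1 (F.x_fl r 0).1).1
  simp only [zero_smul, add_zero] at h
  linarith

theorem m_le (hG : ∀ᵐ t ∂G, 0 < t ∧ t ≤ b) {t : ℝ} {z : ℤ × ℤ} (h : t ≤ F.x z) : F.m t ≤ mean G z :=
  csInf_le ⟨0, by rintro _ ⟨y, -, rfl⟩; exact mean_nonneg G hG y⟩ ⟨z, h, rfl⟩

theorem le_m (hG : ∀ᵐ t ∂G, 0 < t ∧ t ≤ b) (t : ℝ) : t ≤ F.m t := by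
  refine le_csInf ⟨_, _, F.beyond_fl t _ le_rfl, rfl⟩ ?_
  rintro _ ⟨y, hy, rfl⟩
  exact le_trans hy ((le_add_of_nonneg_right (abs_nonneg _)).trans (F.le_mean hG y))

theorem e_nonneg (hG : ∀ᵐ t ∂G, 0 < t ∧ t ≤ b) (t : ℝ) : 0 ≤ F.e t := sub_nonneg.2 (F.le_m hG t)

/-- A near minimiser beyond a level. -/
theorem exists_near (hG : ∀ᵐ t ∂G, 0 < t ∧ t ≤ b) (t : ℝ) :
    ∃ z, t ≤ F.x z ∧ mean G z ≤ F.m t + 1 ∧ F.x z - t + |F.h z| ≤ F.e t + 1 := by
  obtain ⟨_, ⟨z, hz, rfl⟩, hlt⟩ := exists_lt_of_csInf_lt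
    (s := mean G '' {z | t ≤ F.x z}) ⟨_, _, F.beyond_fl t _ le_rfl, rfl⟩ (lt_add_one (F.m t))
  refine ⟨z, hz, hlt.le, ?_⟩
  have := F.le_mean hG z
  unfold e
  linarith

theorem e_le_linear (hG : ∀ᵐ t ∂G, 0 < t ∧ t ≤ b) (t : ℝ) (ht : 0 ≤ t) :
    F.e t ≤ b * F.L * t + b * (2 * F.K * F.L + 2) := by
  have h := (F.m_le hG (F.beyond_fl t _ le_rfl)).trans (F.mean_fl_le hG (t + 2 * F.K))
  rw [abs_of_nonneg (by linarith [F.one_le_K])] at h
  unfold e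
  linarith

/-- Levels at a bounded distance have comparable minimal means. -/
theorem m_shift (hG : ∀ᵐ t ∂G, 0 < t ∧ t ≤ b) (t s : ℝ) :
    F.m t ≤ F.m s + b * (F.L * (|t - s| + 2 * F.K) + 2) := by
  rw [← sub_le_iff_le_add]
  refine le_csInf ⟨_, _, F.beyond_fl s _ le_rfl, rfl⟩ ?_
  rintro _ ⟨y, hy, rfl⟩
  rw [sub_le_iff_le_add]
  set r := |t - s| + 2 * F.K with hr
  have hx : t ≤ F.x (y + fl (r • F.v)) := by
    rw [F.x_add]
    have := F.beyond_fl (|t - s|) r le_rfl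
    have := le_abs_self (t - s)
    simp only [Set.mem_ofPred_eq] at hy
    linarith
  refine (F.m_le hG hx).trans ((mean_add_le G hG _ _).trans (add_le_add le_rfl ?_))
  refine (F.mean_fl_le hG r).trans_eq ?_
  rw [abs_of_nonneg (by rw [hr]; linarith [abs_nonneg (t - s), F.one_le_K])]

/-- The excess is sublinear. -/
theorem e_sublinear (hG : ∀ᵐ t ∂G, 0 < t ∧ t ≤ b) {ε : ℝ} (hε : 0 < ε) :
    ∀ᶠ t : ℝ in atTop, F.e t ≤ ε * t := by
  set C := b * (F.L * (1 + 4 * F.K) + 2) + 2 * F.K + 1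
  have h := tendsto_mean G hG (z := F.v) (y := fun n : ℕ => fl ((n : ℝ) * F.v.1, (n : ℝ) * F.v.2))
    (tendsto_floor_div _) (tendsto_floor_div _)
  rw [F.μv] at h
  have h' : ∀ᶠ n : ℕ in atTop, mean G (fl ((n : ℝ) • F.v)) ≤ (1 + ε / 2) * n := by
    filter_upwards [h.eventually_le_const (show (1 : ℝ) < 1 + ε / 2 by linarith), eventually_gt_atTop 0]
      with n hn hn0
    rw [div_le_iff₀ (by exact_mod_cast hn0)] at hn
    exact hn
  filter_upwards [tendsto_nat_floor_atTop.eventually h', eventually_ge_atTop (0 : ℝ),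
    eventually_ge_atTop (C / (ε / 2))] with t hn ht0 htC
  set n := ⌊t⌋₊
  have h1 : (n : ℝ) ≤ t := Nat.floor_le ht0
  have h2 : t ≤ n + 1 := (Nat.lt_floor_add_one t).le
  have h3 := F.m_le hG (F.beyond_fl ((n : ℝ) - 2 * F.K) n (by linarith))
  have h4 := F.m_shift hG t ((n : ℝ) - 2 * F.K)
  have h5 : |t - ((n : ℝ) - 2 * F.K)| + 2 * F.K ≤ 1 + 4 * F.K := by
    rw [abs_of_nonneg (by linarith [F.one_le_K])]; linarith
  have h6 := mul_le_mul_of_nonneg_left (add_le_add (mul_le_mul_of_nonneg_left h5 (zero_le_one.trans F.one_le_L))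
    (le_refl (2 : ℝ))) (b_nonneg G hG)
  rw [div_le_iff₀ (by positivity)] at htC
  unfold e
  nlinarith [F.one_le_K]

/-- A near minimiser is near the axis. -/
theorem mean_axis_le (hG : ∀ᵐ t ∂G, 0 < t ∧ t ≤ b) (t : ℝ) :
    mean G (fl (t • F.v)) ≤ t + F.e t + 1 + b * (F.L * (F.e t + 1) + 2) := by
  obtain ⟨z, h1, h2, h3⟩ := F.exists_near hG t
  have h4 := (abs_le.1 (abs_mean_sub_le G hG z (fl (t • F.v)))).1
  have h5 := F.l1_le z (0, 0) t 0
  simp only [rvec_zero, zero_add, zero_smul, add_zero, sub_zero, F.h_sub, F.x_sub, F.x_zero, F.h_zero] at h5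
  rw [abs_of_nonneg (sub_nonneg.2 h1)] at h5
  have h6 : F.L * (F.x z - t + |F.h z|) ≤ F.L * (F.e t + 1) :=
    mul_le_mul_of_nonneg_left h3 (zero_le_one.trans F.one_le_L)
  have h7 := mul_le_mul_of_nonneg_right (h5.trans (add_le_add h6 le_rfl)) (b_nonneg G hG)
  unfold e at *
  linarith

end Frame

/-- A walk to beyond a level has a first site beyond it. -/
theorem exists_crossing {μ : ℝ × ℝ → ℝ} (F : Frame μ) {ω : Sym2 (ℤ × ℤ) → ℝ} (hω : ∀ e, 0 ≤ ω e) {t : ℝ}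
    {u z : ℤ × ℤ} (p : grid.Walk u z) (hu : F.x u < t) (hz : t ≤ F.x z) :
    ∃ y, t ≤ F.x y ∧ F.x y ≤ t + F.K ∧ tt ω u y + tt ω y z ≤ wt ω p := by
  induction p with
  | nil => exact absurd hz (not_le.2 hu)
  | @cons u w z hadj p ih =>
    have he : wt ω (SimpleGraph.Walk.cons hadj p) = ω s(u, w) + wt ω p := by simp [wt]
    have h1 : tt ω u w ≤ ω s(u, w) :=
      (tt_le hω (SimpleGraph.Walk.cons hadj SimpleGraph.Walk.nil)).trans_eq (by simp [wt])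
    rcases lt_or_ge (F.x w) t with hw | hw
    · obtain ⟨y, a, c, d⟩ := ih hw hz
      exact ⟨y, a, c, by linarith [tt_triangle hω u w y]⟩
    · refine ⟨w, hw, ?_, by linarith [tt_le hω p]⟩
      have hK := (F.abs_x_le w u).1
      have hl : l1 w u = 1 := by
        rw [grid_adj_iff, abs_eq_max_neg, abs_eq_max_neg] at hadj
        unfold l1
        omega
      rw [hl, Nat.cast_one, mul_one] at hK
      linarith [(abs_le.1 hK).2]

end Vale.Agent.P158.Facet
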