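import Mathlib
import Vale.Agent.P158.Facet.Frame

/-!
P158 facets: deviations, uniformly exc all sites seen from an anchor across a corner, and the cost
of a detour. Everything rests on a variance of smaller order than the distance.
-/

namespace Vale.Agent.P158.Facet

open MeasureTheory Filter Topology Vale.Agent.P158.V4

variable (G : Measure ℝ) [IsProbabilityMeasure G] {b : ℝ}

/-- The variance of passage times is of smaller order than the distance. -/
def SmallVar : Prop :=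
  ∀ ε > 0, ∃ N : ℕ, ∀ n ≥ N, ∀ u v : ℤ × ℤ, l1 u v ≤ n →
    ∫ ω, (tt ω u v - mean G (v - u)) ^ 2 ∂law G ≤ ε * n

/-- The excess of a deviation exc a threshold. -/
noncomputable def exc (θ : ℝ) (u v : ℤ × ℤ) (ω : Sym2 (ℤ × ℤ) → ℝ) : ℝ :=
  max 0 (|tt ω u v - mean G (v - u)| - θ)

omit [IsProbabilityMeasure G] in
theorem exc_nonneg (θ : ℝ) (u v : ℤ × ℤ) (ω : Sym2 (ℤ × ℤ) → ℝ) : 0 ≤ exc G θ u v ω :=
  le_max_left _ _

theorem exc_integrable (hG : ∀ᵐ t ∂G, 0 < t ∧ t ≤ b) (θ : ℝ) (u v : ℤ × ℤ) :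
    Integrable (exc G θ u v) (law G) :=
  (integrable_const (0 : ℝ)).sup (((tt_integrable G hG u v).sub' (integrable_const _)).abs.sub' (integrable_const θ))

theorem integral_exc_le (hG : ∀ᵐ t ∂G, 0 < t ∧ t ≤ b) {θ : ℝ} (hθ : 0 < θ) (u v : ℤ × ℤ) :
    ∫ ω, exc G θ u v ω ∂law G ≤ (∫ ω, (tt ω u v - mean G (v - u)) ^ 2 ∂law G) / (4 * θ) := by
  rw [← integral_div]
  refine integral_mono (exc_integrable G hG θ u v) ((Integrable.of_bound
    (((measurable_tt u v).sub measurable_const).pow_const 2).aestronglyMeasurable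
    ((l1 u v * b + |mean G (v - u)|) ^ 2) ?_).div_const _) fun ω => ?_
  · filter_upwards [good_ae G hG] with ω hω
    rw [Real.norm_eq_abs, abs_pow]
    refine pow_le_pow_left₀ (abs_nonneg _) ((abs_sub _ _).trans (add_le_add ?_ le_rfl)) 2
    rw [abs_of_nonneg (tt_nonneg fun e => (hω e).1.le)]
    exact tt_le_l1 (fun e => (hω e).1.le) (fun e => (hω e).2) u v
  · refine max_le (by positivity) ?_
    rw [le_div_iff₀ (by positivity), ← sq_abs]
    nlinarith [sq_nonneg (|tt ω u v - mean G (v - u)| - 2 * θ)]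

theorem exists_exc (hG : ∀ᵐ t ∂G, 0 < t ∧ t ≤ b) {ι : Type*} (R : Finset ι) (r : ι → ℤ × ℤ) (u : ℤ × ℤ)
    (θ V : ι → ℝ) (hθ : ∀ i ∈ R, 0 < θ i)
    (hV : ∀ i ∈ R, ∫ ω, (tt ω u (r i) - mean G (r i - u)) ^ 2 ∂law G ≤ V i) :
    ∃ S : (Sym2 (ℤ × ℤ) → ℝ) → ℝ, (∀ ω, 0 ≤ S ω) ∧ Integrable S (law G) ∧
      ∫ ω, S ω ∂law G ≤ ∑ i ∈ R, V i / (4 * θ i) ∧
      ∀ ω, ∀ i ∈ R, |tt ω u (r i) - mean G (r i - u)| ≤ θ i + S ω := by
  refine ⟨fun ω => ∑ i ∈ R, exc G (θ i) u (r i) ω, fun ω => Finset.sum_nonneg fun i _ => exc_nonneg G _ _ _ _,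
    integrable_finsetSum _ fun i _ => exc_integrable G hG _ _ _, ?_, fun ω i hi => ?_⟩
  · rw [integral_finsetSum _ fun i _ => exc_integrable G hG _ _ _]
    refine Finset.sum_le_sum fun i hi => (integral_exc_le G hG (hθ i hi) _ _).trans ?_
    exact div_le_div_of_nonneg_right (hV i hi) (by linarith [hθ i hi])
  · have h : exc G (θ i) u (r i) ω ≤ ∑ j ∈ R, exc G (θ j) u (r j) ω :=
      Finset.single_le_sum (fun j _ => exc_nonneg G _ _ _ _) hi
    have := le_max_right (0 : ℝ) (|tt ω u (r i) - mean G (r i - u)| - θ i)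
    simp only [exc] at h ⊢
    linarith

theorem abs_dev_le (hG : ∀ᵐ t ∂G, 0 < t ∧ t ≤ b) {ω : Sym2 (ℤ × ℤ) → ℝ} (hω : ∀ e, 0 < ω e ∧ ω e ≤ b)
    (u y r : ℤ × ℤ) :
    |tt ω u y - mean G (y - u)| ≤ |tt ω u r - mean G (r - u)| + 2 * b * l1 y r := by
  have h1 := abs_le.1 (abs_tt_sub_le (fun e => (hω e).1.le) (fun e => (hω e).2) u y r)
  have h2 := abs_le.1 (abs_mean_sub_le G hG (y - u) (r - u))
  rw [show l1 (y - u) (r - u) = l1 y r by simp [l1]] at h2
  have h3 := abs_le.1 (le_refl |tt ω u r - mean G (r - u)|)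
  rw [abs_le]
  constructor <;> linarith

theorem l1_symm (u v : ℤ × ℤ) : l1 u v = l1 v u := by
  simp only [l1]; omega

/-- A point of a bounded window is close to a grid point. -/
theorem exists_grid {s q A : ℝ} (hs : 0 < s) (hq : |q| ≤ A * s) :
    ⌊q / s⌋ ∈ Finset.Icc (-((⌈A⌉₊ + 1 : ℕ) : ℤ)) (⌈A⌉₊ + 1 : ℕ) ∧ |q - ⌊q / s⌋ * s| ≤ s := by
  have h1 : |q / s| ≤ A := by rw [abs_div, abs_of_pos hs, div_le_iff₀ hs]; exact hq
  have h3 := Nat.le_ceil A
  have h4 := Int.floor_le (q / s)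
  have h5 := Int.lt_floor_add_one (q / s)
  rw [abs_le] at h1
  refine ⟨Finset.mem_Icc.2 ⟨?_, ?_⟩, ?_⟩
  · rw [Int.le_floor]; push_cast; linarith
  · exact_mod_cast (show ((⌊q / s⌋ : ℤ) : ℝ) ≤ ((⌈A⌉₊ + 1 : ℕ) : ℝ) by push_cast; linarith)
  · rw [show q - (⌊q / s⌋ : ℤ) * s = (q / s - ⌊q / s⌋) * s by rw [sub_mul, div_mul_cancel₀ _ hs.ne'],
      abs_mul, abs_of_pos hs]
    refine mul_le_of_le_one_left hs.le ?_
    rw [abs_of_nonneg (by linarith)]; linarith

theorem exists_level {H X : ℝ} (hH : 0 < H) (hX : H ≤ X) :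
    ∃ J : ℕ, X ≤ 2 ^ J * H ∧ ∀ j ≤ J, 2 ^ j * H ≤ 2 * X := by
  classical
  obtain ⟨k, hk⟩ := pow_unbounded_of_one_lt (X / H) (one_lt_two : (1 : ℝ) < 2)
  have hex : ∃ j : ℕ, X ≤ 2 ^ j * H := ⟨k, by rw [div_lt_iff₀ hH] at hk; exact hk.le⟩
  refine ⟨Nat.find hex, Nat.find_spec hex, fun j hj => ?_⟩
  rcases Nat.eq_zero_or_pos j with rfl | h0
  · simp only [pow_zero, one_mul]; linarith
  · have h := Nat.find_min hex (show j - 1 < Nat.find hex by omega)
    rw [show j = j - 1 + 1 by omega, pow_succ]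
    nlinarith [not_le.1 h]

/-- The grid point with index `i` in the window around level `t` seen from `u`. -/
noncomputable def rep {μ : ℝ × ℝ → ℝ} (F : Frame μ) (u : ℤ × ℤ) (t H κ : ℝ) (i : ℕ × ℤ × ℤ) : ℤ × ℤ :=
  fl (rvec u + (t + i.2.1 * (κ * (2 ^ i.1 * H))) • F.v + ((i.2.2 : ℝ) * (κ * (2 ^ i.1 * H))) • F.w)

/-- The grid stays within a linear distance. -/
theorem rep_far {μ : ℝ × ℝ → ℝ} (F : Frame μ) (u : ℤ × ℤ) {t H κ C : ℝ} (hκ : 0 < κ) (hH : 0 < H) {n M A J : ℕ}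
    (hn0 : (1 : ℝ) ≤ n) (ht : |t| ≤ C * n) (hA : F.L * (C + 4 * M * κ * C) + 2 ≤ A)
    (hJ2 : ∀ j ≤ J, 2 ^ j * H ≤ 2 * (C * n)) {i : ℕ × ℤ × ℤ}
    (hi : i ∈ Finset.range (J + 1) ×ˢ Finset.Icc (-(M : ℤ)) M ×ˢ Finset.Icc (-(M : ℤ)) M) :
    l1 u (rep F u t H κ i) ≤ A * n := by
  have hL := F.one_le_L
  simp only [Finset.mem_product, Finset.mem_range, Finset.mem_Icc] at hi
  have hj := hJ2 i.1 (by omega)
  have hb1 : |(i.2.1 : ℝ)| ≤ M := abs_le.2 ⟨by exact_mod_cast hi.2.1.1, by exact_mod_cast hi.2.1.2⟩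
  have hb2 : |(i.2.2 : ℝ)| ≤ M := abs_le.2 ⟨by exact_mod_cast hi.2.2.1, by exact_mod_cast hi.2.2.2⟩
  set s := κ * (2 ^ i.1 * H) with hs
  have hs0 : 0 ≤ s := by positivity
  have hs1 : (M : ℝ) * s ≤ 2 * M * κ * C * n := by
    rw [hs]
    calc (M : ℝ) * (κ * (2 ^ i.1 * H)) ≤ M * (κ * (2 * (C * n))) := by gcongr
      _ = _ := by ring
  have h := F.l1_le u u (t + i.2.1 * s) (i.2.2 * s)
  simp only [sub_self, F.coord_zero.1, F.coord_zero.2, zero_sub, abs_neg] at h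
  have h1 : |t + i.2.1 * s| ≤ C * n + M * s := by
    refine (abs_add_le _ _).trans (add_le_add ht ?_)
    rw [abs_mul, abs_of_nonneg hs0]; gcongr
  have h2 : |(i.2.2 : ℝ) * s| ≤ M * s := by
    rw [abs_mul, abs_of_nonneg hs0]; gcongr
  have : (l1 u (rep F u t H κ i) : ℝ) ≤ ((A * n : ℕ) : ℝ) := by
    refine le_trans h ?_
    push_cast
    nlinarith [mul_le_mul_of_nonneg_left (add_le_add h1 h2) (zero_le_one.trans hL)]
  exact_mod_cast this

/-- A deviation bound on the grid spreads to the whole window. -/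
theorem dev_of_rep (hG : ∀ᵐ t ∂G, 0 < t ∧ t ≤ b) (F : Frame (mu G)) {ω : Sym2 (ℤ × ℤ) → ℝ}
    (hω : ∀ e, 0 < ω e ∧ ω e ≤ b) (u y : ℤ × ℤ) {t H κ C η S : ℝ} (hκ : 0 < κ) (hH0 : 0 < H) (hC : 1 ≤ C)
    (hη : 0 < η) (hκb : 4 * b * F.L * κ ≤ η / 8) (hnb : 32 * b ≤ η * H) {J : ℕ} {X : ℝ} (hJ : X ≤ 2 ^ J * H)
    (hyx : |F.x (y - u) - t| ≤ C * (H + |F.h (y - u)|)) (hyh : |F.h (y - u)| ≤ X)
    (hS : ∀ i ∈ Finset.range (J + 1) ×ˢ Finset.Icc (-((⌈2 * C / κ⌉₊ + 1 : ℕ) : ℤ)) (⌈2 * C / κ⌉₊ + 1 : ℕ) ×ˢ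
        Finset.Icc (-((⌈2 * C / κ⌉₊ + 1 : ℕ) : ℤ)) (⌈2 * C / κ⌉₊ + 1 : ℕ),
      |tt ω u (rep F u t H κ i) - mean G (rep F u t H κ i - u)| ≤ η * (2 ^ i.1 * H) / 4 + S) :
    |tt ω u y - mean G (y - u)| ≤ η * (|F.h (y - u)| + H) + S := by
  have hb : 0 ≤ b := b_nonneg G hG
  have hL := F.one_le_L
  classical
  have hex : ∃ j : ℕ, |F.h (y - u)| ≤ 2 ^ j * H := ⟨J, hyh.trans hJ⟩
  set j := Nat.find hex with hj
  have hjh : |F.h (y - u)| ≤ 2 ^ j * H := Nat.find_spec hex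
  have hjJ : j ≤ J := Nat.find_le (hyh.trans hJ)
  have hj1 : (1 : ℝ) ≤ 2 ^ j := one_le_pow₀ one_le_two
  have hjle : 2 ^ j * H ≤ 2 * (|F.h (y - u)| + H) := by
    rcases Nat.eq_zero_or_pos j with h | h
    · rw [h, pow_zero, one_mul]; linarith [abs_nonneg (F.h (y - u))]
    · have := Nat.find_min hex (show j - 1 < Nat.find hex by omega)
      rw [show j = j - 1 + 1 by omega, pow_succ]
      linarith [not_le.1 this]
  set s := κ * (2 ^ j * H) with hs
  have hs0 : 0 < s := by positivity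
  have hxs : |F.x (y - u) - t| ≤ 2 * C / κ * s := by
    rw [hs, div_mul_eq_mul_div, le_div_iff₀ hκ]
    have : H + |F.h (y - u)| ≤ 2 * (2 ^ j * H) := by nlinarith
    nlinarith [mul_le_mul_of_nonneg_left this (zero_le_one.trans hC)]
  have hhs : |F.h (y - u)| ≤ 2 * C / κ * s := by
    rw [hs, div_mul_eq_mul_div, le_div_iff₀ hκ]
    nlinarith [mul_le_mul_of_nonneg_right hjh hκ.le, mul_nonneg (pow_nonneg zero_le_two j) hH0.le]
  obtain ⟨hi1, he1⟩ := exists_grid hs0 hxs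
  obtain ⟨hi2, he2⟩ := exists_grid hs0 hhs
  set i : ℕ × ℤ × ℤ := (j, ⌊(F.x (y - u) - t) / s⌋, ⌊F.h (y - u) / s⌋) with hi
  have hl : (l1 y (rep F u t H κ i) : ℝ) ≤ F.L * (2 * s) + 2 := by
    refine (show (l1 y (rep F u t H κ i) : ℝ) ≤ _ from F.l1_le y u _ _).trans (add_le_add (mul_le_mul_of_nonneg_left ?_ (zero_le_one.trans hL)) le_rfl)
    simp only [hi, ← hs]
    rw [two_mul]
    refine add_le_add (le_of_eq_of_le ?_ he1) he2
    congr 1; ring
  have h := (abs_dev_le G hG hω u y (rep F u t H κ i)).trans (add_le_add (hS i (Finset.mem_product.2 ⟨Finset.mem_range.2 (by simp only [hi]; omega),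
    Finset.mem_product.2 ⟨hi1, hi2⟩⟩)) le_rfl)
  refine h.trans ?_
  have h2 := mul_le_mul_of_nonneg_left hl (by positivity : 0 ≤ 2 * b)
  have h3 : 4 * b * F.L * s ≤ η / 8 * (2 ^ j * H) := by
    rw [hs, ← mul_assoc]
    gcongr
  have h4 : 32 * b ≤ η * (2 ^ j * H) := by
    nlinarith [le_mul_of_one_le_left hH0.le hj1]
  simp only [hi]
  nlinarith [mul_le_mul_of_nonneg_left hjle hη.le]

/-- Deviations at all scales beyond `H` are small, up to an error of small mean. -/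
theorem far_dev (hG : ∀ᵐ t ∂G, 0 < t ∧ t ≤ b) (hV : SmallVar G) (F : Frame (mu G)) {C : ℝ} (hC : 1 ≤ C)
    {η : ℝ} (hη : 0 < η) {ε : ℝ} (hε : 0 < ε) :
    ∀ᶠ n : ℕ in atTop, ∀ (u : ℤ × ℤ) (t H : ℝ), |t| ≤ C * n → √(n : ℝ) ≤ H → H ≤ C * n →
      ∃ S : (Sym2 (ℤ × ℤ) → ℝ) → ℝ, (∀ ω, 0 ≤ S ω) ∧ Integrable S (law G) ∧
        ∫ ω, S ω ∂law G ≤ ε * √(n : ℝ) ∧
        ∀ᵐ ω ∂law G, ∀ y, |F.x (y - u) - t| ≤ C * (H + |F.h (y - u)|) → |F.h (y - u)| ≤ C * n →
          |tt ω u y - mean G (y - u)| ≤ η * (|F.h (y - u)| + H) + S ω := by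
  have hb := b_nonneg G hG
  have hL := F.one_le_L
  set κ := η / (32 * (b * F.L + 1)) with hκdef
  have hκ : 0 < κ := by positivity
  have hκb : 4 * b * F.L * κ ≤ η / 8 := by
    have : κ * (32 * (b * F.L + 1)) = η := by rw [hκdef]; field_simp
    nlinarith
  set M := ⌈2 * C / κ⌉₊ + 1 with hM
  obtain ⟨A, hA⟩ := exists_nat_ge (F.L * (C + 4 * M * κ * C) + 2)
  have hA0 : (0 : ℝ) < A := lt_of_lt_of_le (by positivity) hA
  set D := ((2 * M + 1 : ℕ) : ℝ) ^ 2 with hD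
  set ε' := ε * η / (2 * D * A) with hε'
  have hD0 : 0 < D := by positivity
  obtain ⟨N, hN⟩ := hV ε' (by positivity)
  filter_upwards [eventually_ge_atTop N, eventually_ge_atTop 1,
    (Real.tendsto_sqrt_atTop.comp tendsto_natCast_atTop_atTop).eventually_ge_atTop (32 * b / η)]
    with n hn hn1 hnb u t H ht hH1 hH2
  simp only [Function.comp_apply] at hnb
  rw [div_le_iff₀ hη] at hnb
  have hn0 : (1 : ℝ) ≤ n := by exact_mod_cast hn1
  have hH0 : 0 < H := lt_of_lt_of_le (Real.sqrt_pos.2 (by linarith)) hH1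
  obtain ⟨J, hJ, hJ2⟩ := exists_level hH0 hH2
  set R : Finset (ℕ × ℤ × ℤ) := Finset.range (J + 1) ×ˢ Finset.Icc (-(M : ℤ)) M ×ˢ Finset.Icc (-(M : ℤ)) M with hR
  set r : ℕ × ℤ × ℤ → ℤ × ℤ := rep F u t H κ
  obtain ⟨S, hS0, hSi, hSm, hSb⟩ := exists_exc G hG R r u (fun i => η * (2 ^ i.1 * H) / 4)
    (fun _ => ε' * ((A * n : ℕ) : ℝ)) (fun i _ => by positivity) fun i hi => by
      refine hN (A * n) (le_trans hn (Nat.le_mul_of_pos_left n (by exact_mod_cast hA0))) u (r i) ?_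
      exact rep_far F u hκ hH0 hn0 ht hA hJ2 hi
  refine ⟨S, hS0, hSi, hSm.trans ?_, ?_⟩
  · rw [hR, Finset.sum_product]
    simp only [Finset.sum_const, Finset.card_product, Int.card_Icc, nsmul_eq_mul]
    rw [show ((M : ℤ) + 1 - -(M : ℤ)).toNat = 2 * M + 1 by omega]
    have hgeo : ∑ j ∈ Finset.range (J + 1), (1 / (2 : ℝ) ^ j) ≤ 2 := by
      simpa [div_pow] using sum_geometric_two_le (J + 1)
    calc ∑ j ∈ Finset.range (J + 1), (((2 * M + 1) * (2 * M + 1) : ℕ) : ℝ) *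
          (ε' * ((A * n : ℕ) : ℝ) / (4 * (η * (2 ^ j * H) / 4)))
        = (∑ j ∈ Finset.range (J + 1), (1 / (2 : ℝ) ^ j)) * (D * ε' * A * n / (η * H)) := by
          rw [Finset.sum_mul]
          refine Finset.sum_congr rfl fun j _ => ?_
          rw [hD]
          push_cast
          field_simp
      _ ≤ 2 * (D * ε' * A * n / (η * H)) := mul_le_mul_of_nonneg_right hgeo (by positivity)
      _ = ε * (n / H) := by rw [hε']; field_simp
      _ ≤ ε * √(n : ℝ) := by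
          refine mul_le_mul_of_nonneg_left ?_ hε.le
          rw [div_le_iff₀ hH0]
          calc (n : ℝ) = √(n : ℝ) * √(n : ℝ) := (Real.mul_self_sqrt (by linarith)).symm
            _ ≤ √(n : ℝ) * H := mul_le_mul_of_nonneg_left hH1 (Real.sqrt_nonneg _)
  · filter_upwards [good_ae G hG] with ω hω y hyx hyh
    refine dev_of_rep G hG F hω u y hκ hH0 hC hη hκb ?_ hJ hyx hyh fun i hi => hSb ω i hi
    exact (le_trans hnb (by gcongr)).trans_eq (mul_comm _ _)

/-- Outside a rare event, far sites are expensive. -/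
theorem tt_ge_of_not_cheap {ω : Sym2 (ℤ × ℤ) → ℝ} (hω : ∀ e, 0 ≤ ω e) {u : ℤ × ℤ} {N : ℕ} {c : ℝ} (hc : 0 ≤ c)
    (hu : ω ∉ Cheap u N c) (y : ℤ × ℤ) (hy : N ≤ l1 u y) : c * l1 u y ≤ tt ω u y := by
  refine le_tt fun p => ?_
  have hl := l1_le_length p.bypass
  exact (mul_le_mul_of_nonneg_left (by exact_mod_cast hl) hc).trans
    ((not_cheap hu _ p.bypass_isPath (hy.trans hl)).le.trans (wt_bypass_le hω p))

/-- The cost of a detour from `a` to `z` through a site. -/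
theorem detour (hG : ∀ᵐ t ∂G, 0 < t ∧ t ≤ b) (hV : SmallVar G) (F : Frame (mu G)) {C : ℝ} (hC : 1 ≤ C)
    {η : ℝ} (hη : 0 < η) {ε : ℝ} (hε : 0 < ε) :
    ∀ᶠ n : ℕ in atTop, ∀ (a z : ℤ × ℤ) (t H : ℝ), |t| ≤ C * n → |F.x (z - a)| ≤ C * n →
      √(n : ℝ) ≤ H → H ≤ C * n → |F.h (z - a)| ≤ H →
      ∃ S : (Sym2 (ℤ × ℤ) → ℝ) → ℝ, (∀ ω, 0 ≤ S ω) ∧ Integrable S (law G) ∧
        ∫ ω, S ω ∂law G ≤ ε * √(n : ℝ) ∧
        ∀ᵐ ω ∂law G, ∀ y, |F.x (y - a) - t| ≤ C * (H + |F.h (y - a)|) →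
          min (F.x (z - a) + (1 - η) * (mean G (y - a) + mean G (z - y) - F.x (z - a)) - 2 * η * H) (C * n) -
            S ω ≤ tt ω a y + tt ω y z := by
  obtain ⟨c, hc, hrate⟩ := exists_cheap_rate G (hG.mono fun t ht => ht.1)
  have hK := F.one_le_K
  set C' := F.K + C * F.K / c with hC'
  have hC'0 : 0 ≤ C * F.K / c := by positivity
  set C'' := C' + 2 * C with hC''
  have hsmall : ∀ᶠ n : ℕ in atTop, (n : ℝ) * (1 / 4) ^ n ≤ ε / 4 / (2 * C) :=
    (tendsto_self_mul_const_pow_of_lt_one (by norm_num) (by norm_num)).eventually_le_const (by positivity)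
  filter_upwards [far_dev G hG hV F (C := C'') (by linarith) hη (show 0 < ε / 4 by positivity), hsmall,
    eventually_ge_atTop 1] with n hn hsm hn1 a z t H ht hz hH1 hH2 hh
  have hn0 : (1 : ℝ) ≤ n := by exact_mod_cast hn1
  have hH00 : 0 ≤ H := (Real.sqrt_nonneg _).trans hH1
  have hHC : H ≤ C'' * n := hH2.trans (by gcongr; linarith)
  obtain ⟨S1, p1, i1, m1, b1⟩ := hn a t H (ht.trans (by gcongr; linarith)) hH1 hHC
  obtain ⟨S2, p2, i2, m2, b2⟩ := hn z (t - F.x (z - a)) H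
    ((abs_sub _ _).trans ((add_le_add ht hz).trans (by rw [← add_mul]; gcongr; linarith))) hH1 hHC
  have hmc := measurableSet_cheap a n c
  refine ⟨fun ω => S1 ω + S2 ω + (Cheap a n c).indicator (fun _ => C * n) ω, fun ω =>
    add_nonneg (add_nonneg (p1 ω) (p2 ω)) (Set.indicator_nonneg (fun _ _ => by positivity) _),
    (i1.add i2).add ((integrable_const _).indicator hmc), ?_, ?_⟩
  · rw [integral_add (i1.fun_add i2) ((integrable_const _).indicator hmc), integral_add i1 i2,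
      integral_indicator hmc, setIntegral_const, smul_eq_mul]
    have hP : (law G).real (Cheap a n c) ≤ 2 * (1 / 4) ^ n :=
      ENNReal.toReal_le_of_le_ofReal (by positivity) (hrate _ _)
    have h3 := mul_le_mul_of_nonneg_right hP (show 0 ≤ C * n by positivity)
    rw [le_div_iff₀ (by positivity)] at hsm
    have h4 : ε / 4 ≤ ε / 4 * √(n : ℝ) := le_mul_of_one_le_right (by positivity) (Real.one_le_sqrt.2 hn0)
    nlinarith
  · filter_upwards [good_ae G hG, b1, b2] with ω hω e1 e2 y hy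
    have hω0 : ∀ e, 0 ≤ ω e := fun e => (hω e).1.le
    have ht1 := tt_nonneg (u := a) (v := y) hω0
    have ht2 := tt_nonneg (u := y) (v := z) hω0
    by_cases hch : ω ∈ Cheap a n c
    · rw [Set.indicator_of_mem hch]
      linarith [p1 ω, p2 ω, min_le_right (F.x (z - a) + (1 - η) * (mean G (y - a) + mean G (z - y) - F.x (z - a)) -
        2 * η * H) (C * n)]
    rw [Set.indicator_of_notMem hch, add_zero]
    rcases le_or_gt |F.h (y - a)| (C' * n) with hnear | hfar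
    · have hh2 : F.h (y - z) = F.h (y - a) - F.h (z - a) := by simp only [F.h_sub]; ring
      have hx2 : F.x (y - z) - (t - F.x (z - a)) = F.x (y - a) - t := by simp only [F.x_sub]; ring
      have e1' := e1 y (hy.trans (by gcongr; linarith)) (hnear.trans (by gcongr; linarith))
      have hb : |F.h (y - a)| ≤ |F.h (y - z)| + H := by
        rw [hh2]
        have := abs_sub_abs_le_abs_sub (F.h (y - a)) (F.h (z - a))
        linarith
      have hb' : |F.h (y - z)| ≤ C'' * n := by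
        rw [hh2]
        refine (abs_sub _ _).trans ((add_le_add hnear (hh.trans hH2)).trans ?_)
        rw [← add_mul]; gcongr; linarith
      have e2' := e2 y (by
        rw [hx2]
        refine hy.trans ?_
        calc C * (H + |F.h (y - a)|) ≤ C * (2 * (H + |F.h (y - z)|)) := by
              gcongr; linarith [abs_nonneg (F.h (y - z))]
          _ ≤ C'' * (H + |F.h (y - z)|) := by
              rw [← mul_assoc]; gcongr; linarith) hb'
      rw [tt_comm hω0 z y, show mean G (y - z) = mean G (z - y) by rw [← mean_neg G hG, neg_sub]] at e2'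
      have l1' := F.le_mean hG (y - a)
      have l2' := F.le_mean hG (z - y)
      rw [show |F.h (z - y)| = |F.h (y - z)| by rw [F.h_sub, F.h_sub, abs_sub_comm]] at l2'
      have hx3 : F.x (z - a) = F.x (y - a) + F.x (z - y) := by simp only [F.x_sub]; ring
      have hL : |F.h (y - a)| + |F.h (y - z)| ≤ mean G (y - a) + mean G (z - y) - F.x (z - a) := by linarith
      have hmin := min_le_left (F.x (z - a) + (1 - η) * (mean G (y - a) + mean G (z - y) - F.x (z - a)) -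
        2 * η * H) (C * n)
      rw [abs_le] at e1' e2'
      nlinarith [mul_le_mul_of_nonneg_left hL hη.le]
    · have h1 := (F.abs_x_le y a).2
      rw [← F.h_sub, l1_symm] at h1
      have h2 : C' * n < F.K * l1 a y := hfar.trans_le h1
      have h3 : n ≤ l1 a y := by
        have : F.K * n ≤ F.K * l1 a y :=
          le_trans (by gcongr; linarith) h2.le
        exact_mod_cast le_of_mul_le_mul_left this (zero_lt_one.trans_le hK)
      have h4 := tt_ge_of_not_cheap hω0 hc.le hch y h3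
      have h5 : C * n ≤ c * l1 a y := by
        have h6 : C * F.K / c * n ≤ F.K * l1 a y := le_trans (by gcongr; linarith) h2.le
        rw [div_mul_eq_mul_div, div_le_iff₀ hc] at h6
        refine le_of_mul_le_mul_left ?_ (zero_lt_one.trans_le hK)
        linarith
      linarith [p1 ω, p2 ω, min_le_right (F.x (z - a) + (1 - η) * (mean G (y - a) + mean G (z - y) - F.x (z - a)) -
        2 * η * H) (C * n)]

end Vale.Agent.P158.Facet
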