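import Mathlib
import Vale.Agent.P158.Facet.Dev

/-!
P158 facets: at a corner with small variance the mean passage time along the corner exceeds its linear
value by less than the square root of the distance.
-/

namespace Vale.Agent.P158.Facet

open MeasureTheory Filter Topology Vale.Agent.P158.V4

theorem l1_triangle (u v z : ℤ × ℤ) : l1 u z ≤ l1 u v + l1 v z := by
  simp only [l1]; omega

theorem Frame.l1_origin {μ : ℝ × ℝ → ℝ} (F : Frame μ) (z : ℤ × ℤ) :
    (l1 (0, 0) z : ℝ) ≤ F.L * (|F.x z| + |F.h z|) + 2 := by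
  have h := F.l1_le z (0, 0) 0 0
  rw [show fl (rvec ((0 : ℤ), (0 : ℤ)) + (0 : ℝ) • F.v + (0 : ℝ) • F.w) = ((0 : ℤ), (0 : ℤ)) by
    simp [fl, rvec_zero], l1_symm, show z - ((0 : ℤ), (0 : ℤ)) = z by simp, sub_zero, sub_zero] at h
  exact h

variable (G : Measure ℝ) [IsProbabilityMeasure G] {b : ℝ}

/-- Every walk passes the slab, so a bound on all detours through it bounds the mean. -/
theorem le_mean_of_slab (hG : ∀ᵐ t ∂G, 0 < t ∧ t ≤ b) (F : Frame (mu G)) {t X : ℝ} (ht : 0 < t) {z : ℤ × ℤ}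
    (hz : t ≤ F.x z) {S : (Sym2 (ℤ × ℤ) → ℝ) → ℝ} (hS : Integrable S (law G))
    (h : ∀ᵐ ω ∂law G, ∀ y, t ≤ F.x y → F.x y ≤ t + F.K → X - S ω ≤ tt ω (0, 0) y + tt ω y z) :
    X - ∫ ω, S ω ∂law G ≤ mean G z := by
  have h' : ∀ᵐ ω ∂law G, X - S ω ≤ tt ω (0, 0) z := by
    filter_upwards [h, good_ae G hG] with ω hω hg
    refine le_tt fun p => ?_
    obtain ⟨y, h1, h2, h3⟩ := exists_crossing F (fun e => (hg e).1.le) p (by rwa [F.x_zero]) hz
    exact (hω y h1 h2).trans h3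
  have := integral_mono_ae ((integrable_const X).sub' hS) (tt_integrable G hG _ _) h'
  rw [integral_sub (integrable_const X) hS] at this
  simpa [mean] using this

/-- The means through the slab are at least twice the minimal mean. -/
theorem two_m_le (hG : ∀ᵐ t ∂G, 0 < t ∧ t ≤ b) (F : Frame (mu G)) {t : ℝ} {y z : ℤ × ℤ} (h1 : t ≤ F.x y)
    (h2 : F.x y ≤ t + F.K) (hz : 2 * t ≤ F.x z) :
    2 * F.m t - b * (F.L * (3 * F.K) + 2) ≤ mean G y + mean G (z - y) := by
  have a := F.m_le hG h1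
  have c := F.m_le hG (t := t - F.K) (z := z - y) (by rw [F.x_sub]; linarith)
  have d := F.m_shift hG t (t - F.K)
  rw [show |t - (t - F.K)| + 2 * F.K = 3 * F.K by rw [sub_sub_cancel, abs_of_nonneg (zero_le_one.trans F.one_le_K)]; ring] at d
  linarith

/-- Deviations over a whole line across the corner are at most of the order of the three-quarter power. -/
theorem line_dev (hG : ∀ᵐ t ∂G, 0 < t ∧ t ≤ b) (hV : SmallVar G) (F : Frame (mu G)) (C : ℕ) :
    ∃ B : ℝ, 0 ≤ B ∧ ∀ᶠ n : ℕ in atTop, ∀ (u : ℤ × ℤ) (t : ℝ), |t| ≤ C * n → (l1 (0, 0) u : ℝ) ≤ C * n →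
      ∃ S : (Sym2 (ℤ × ℤ) → ℝ) → ℝ, Integrable S (law G) ∧
        ∫ ω, S ω ∂law G ≤ B * (√(n : ℝ) * √√(n : ℝ)) ∧ (∀ ω, 0 ≤ S ω) ∧
        ∀ᵐ ω ∂law G, ∀ y, |F.x y - t| ≤ F.K → |F.h y| ≤ C * n →
          |tt ω u y - mean G (y - u)| ≤ B * (√(n : ℝ) * √√(n : ℝ)) + S ω := by
  have hb := b_nonneg G hG
  have hL := F.one_le_L
  have hK := F.one_le_K
  obtain ⟨A, hA⟩ := exists_nat_ge ((C : ℝ) + F.L * (C + (C + 2)) + 2)
  obtain ⟨N, hN⟩ := hV 1 one_pos
  refine ⟨(1 + 2 * b * (F.L * (F.K + 1) + 2)) + ((2 * C + 5) * A / 4 : ℝ), by positivity, ?_⟩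
  filter_upwards [eventually_ge_atTop N, eventually_ge_atTop 1] with n hn hn1 u t ht hu
  have hn0 : (1 : ℝ) ≤ n := by exact_mod_cast hn1
  set r := √(n : ℝ) with hr
  set q := √r with hq
  have hr1 : 1 ≤ r := Real.one_le_sqrt.2 hn0
  have hq1 : 1 ≤ q := Real.one_le_sqrt.2 hr1
  have hrn : r * r = n := Real.mul_self_sqrt (by linarith)
  have hqr : q * q = r := Real.mul_self_sqrt (by linarith)
  set M := ⌈(C : ℝ) * r⌉₊ + 1 with hM
  have hM2 : (M : ℝ) ≤ (C + 2) * r := by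
    rw [hM]; push_cast
    linarith [Nat.ceil_lt_add_one (show (0 : ℝ) ≤ C * r by positivity)]
  have hA1 : (1 : ℝ) ≤ A := le_trans (by
    have : 0 ≤ (C : ℝ) + F.L * (C + (C + 2)) := by positivity
    linarith) hA
  obtain ⟨S, hS0, hSi, hSm, hSb⟩ := exists_exc G hG (Finset.Icc (-(M : ℤ)) M)
    (fun i => fl (t • F.v + ((i : ℝ) * r) • F.w)) u (fun _ => r * q) (fun _ => ((A * n : ℕ) : ℝ))
    (fun i _ => by positivity) fun i hi => by
      refine (hN (A * n) (le_trans hn (Nat.le_mul_of_pos_left n (by exact_mod_cast lt_of_lt_of_le one_pos hA1)))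
        u _ ?_).trans_eq (one_mul _)
      rw [Finset.mem_Icc] at hi
      have h := F.l1_le (0, 0) (0, 0) t ((i : ℝ) * r)
      simp only [rvec_zero, zero_add, sub_self, F.coord_zero.1, F.coord_zero.2, zero_sub, abs_neg] at h
      have hi' : |(i : ℝ) * r| ≤ (C + 2) * n := by
        rw [abs_mul, abs_of_pos (by linarith : 0 < r)]
        calc |(i : ℝ)| * r ≤ M * r := by
              gcongr; exact abs_le.2 ⟨by exact_mod_cast hi.1, by exact_mod_cast hi.2⟩
          _ ≤ (C + 2) * r * r := by gcongr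
          _ = (C + 2) * n := by rw [mul_assoc, hrn]
      have h3 : (l1 u (fl (t • F.v + ((i : ℝ) * r) • F.w)) : ℝ) ≤ ((A * n : ℕ) : ℝ) := by
        have h2 : (l1 u (fl (t • F.v + ((i : ℝ) * r) • F.w)) : ℝ) ≤
            l1 (0, 0) u + l1 (0, 0) (fl (t • F.v + ((i : ℝ) * r) • F.w)) := by
          have := l1_triangle u (0, 0) (fl (t • F.v + ((i : ℝ) * r) • F.w))
          rw [l1_symm u (0, 0)] at this
          exact_mod_cast this
        push_cast
        nlinarith [mul_le_mul_of_nonneg_left (add_le_add ht hi') (zero_le_one.trans hL)]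
      exact_mod_cast h3
  refine ⟨S, hSi, hSm.trans ?_, hS0, ?_⟩
  · simp only [Finset.sum_const, Int.card_Icc, nsmul_eq_mul]
    rw [show ((M : ℤ) + 1 - -(M : ℤ)).toNat = 2 * M + 1 by omega]
    push_cast
    calc (2 * (M : ℝ) + 1) * (A * n / (4 * (r * q))) ≤ ((2 * C + 5) * r) * (A * n / (4 * (r * q))) := by
          gcongr; linarith
      _ = (2 * C + 5) * A / 4 * (r * q) := by
          rw [← hrn]
          field_simp
          rw [← hqr]
          ring
      _ ≤ _ := by gcongr; exact le_add_of_nonneg_left (by positivity)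
  · filter_upwards [good_ae G hG] with ω hω y hyx hyh
    have hyh' : |F.h y| ≤ (C : ℝ) * r * r := by rw [mul_assoc, hrn]; exact hyh
    obtain ⟨hi, he⟩ := exists_grid (by linarith : 0 < r) hyh'
    have hl := F.l1_le y (0, 0) t ((⌊F.h y / r⌋ : ℤ) * r)
    simp only [rvec_zero, zero_add, show y - ((0 : ℤ), (0 : ℤ)) = y by simp] at hl
    have h := (abs_dev_le G hG hω u y (fl (t • F.v + ((⌊F.h y / r⌋ : ℤ) * r) • F.w))).trans
      (add_le_add (hSb ω _ hi) le_rfl)
    refine h.trans ?_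
    have h1 : r ≤ r * q := le_mul_of_one_le_right (by linarith) hq1
    have h2 := mul_le_mul_of_nonneg_left (hl.trans (add_le_add
      (mul_le_mul_of_nonneg_left (add_le_add hyx he) (zero_le_one.trans hL)) le_rfl)) (by positivity : 0 ≤ 2 * b)
    have h3 : F.L * (F.K + r) + 2 ≤ (F.L * (F.K + 1) + 2) * (r * q) := by
      nlinarith [mul_le_mul_of_nonneg_left h1 (zero_le_one.trans hL), mul_nonneg (zero_le_one.trans hL)
        (sub_nonneg.2 (hr1.trans h1))]
    have h4 := mul_le_mul_of_nonneg_left h3 (by positivity : 0 ≤ 2 * b)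
    nlinarith [show 0 ≤ (2 * (C : ℝ) + 5) * A / 4 * (r * q) by positivity]

/-- A bound on the excess linear in the level. -/
theorem exists_linear (hG : ∀ᵐ t ∂G, 0 < t ∧ t ≤ b) (F : Frame (mu G)) :
    ∃ E : ℝ, 1 ≤ E ∧ ∀ t : ℝ, 1 ≤ t → F.e t ≤ E * t := by
  have hb := b_nonneg G hG
  have hL := F.one_le_L
  have hK := F.one_le_K
  have h1 : 0 ≤ b * F.L := by positivity
  have h2 : 0 ≤ b * (2 * F.K * F.L + 2) := by positivity
  refine ⟨b * F.L + b * (2 * F.K * F.L + 2) + 1, by linarith, fun t ht => ?_⟩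
  have := F.e_le_linear hG t (by linarith)
  have := mul_le_mul_of_nonneg_left ht h2
  rw [mul_one] at this
  linarith

omit [IsProbabilityMeasure G] in
/-- Sites far across the corner are expensive. -/
theorem far_cost (F : Frame (mu G)) {ω : Sym2 (ℤ × ℤ) → ℝ} (hω : ∀ e, 0 ≤ ω e) {c C T : ℝ} (hc : 0 ≤ c)
    {n : ℕ} (hch : ω ∉ Cheap ((0 : ℤ), (0 : ℤ)) n c) (hC : F.K ≤ C) (hT : F.K * T ≤ c * (C * n)) {y : ℤ × ℤ}
    (hy : C * n < |F.h y|) : T ≤ tt ω (0, 0) y := by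
  have hK : 0 < F.K := zero_lt_one.trans_le F.one_le_K
  have h1 := (F.abs_x_le y (0, 0)).2
  rw [F.h_zero, sub_zero, l1_symm] at h1
  have h2 : C * n < F.K * l1 (0, 0) y := hy.trans_le h1
  have h3 : n ≤ l1 (0, 0) y := by
    have : F.K * n ≤ F.K * l1 (0, 0) y := (mul_le_mul_of_nonneg_right hC (Nat.cast_nonneg n)).trans h2.le
    exact_mod_cast le_of_mul_le_mul_left this hK
  refine le_trans ?_ (tt_ge_of_not_cheap hω hc hch y h3)
  refine le_of_mul_le_mul_left (hT.trans ((mul_le_mul_of_nonneg_left h2.le hc).trans_eq ?_)) hK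
  ring

theorem scale_le {n t : ℝ} (hn : n ≤ 2 * t) : √n * √√n ≤ 2 * (√t * √√t) := by
  have h1 : √n ≤ √2 * √t := by rw [← Real.sqrt_mul zero_le_two]; exact Real.sqrt_le_sqrt hn
  have h2 : √√n ≤ √√2 * √√t := by
    rw [← Real.sqrt_mul (Real.sqrt_nonneg _)]; exact Real.sqrt_le_sqrt h1
  have h3 : √2 * √√2 ≤ 2 := by
    have : √√2 ≤ √2 := Real.sqrt_le_sqrt (Real.sqrt_le_left zero_le_two |>.2 (by norm_num))
    nlinarith [Real.mul_self_sqrt (zero_le_two (α := ℝ)), Real.sqrt_nonneg 2]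
  calc √n * √√n ≤ (√2 * √t) * (√√2 * √√t) := mul_le_mul h1 h2 (Real.sqrt_nonneg _) (by positivity)
    _ = √2 * √√2 * (√t * √√t) := by ring
    _ ≤ _ := mul_le_mul_of_nonneg_right h3 (by positivity)

/-- The pointwise bound behind the rough recursion. -/
theorem rough_pointwise (hG : ∀ᵐ t ∂G, 0 < t ∧ t ≤ b) (F : Frame (mu G)) {t c C T D : ℝ} {n : ℕ} {z : ℤ × ℤ}
    (hz : 2 * t ≤ F.x z) (hc : 0 ≤ c) (hC : F.K ≤ C) (hT : F.K * T ≤ c * (C * n)) (_ : 0 ≤ T)
    (hXT : 2 * F.m t - b * (F.L * (3 * F.K) + 2) - 2 * D ≤ T) {S1 S2 : (Sym2 (ℤ × ℤ) → ℝ) → ℝ}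
    (p1 : ∀ ω, 0 ≤ S1 ω) (p2 : ∀ ω, 0 ≤ S2 ω)
    (b1 : ∀ᵐ ω ∂law G, ∀ y, |F.x y - t| ≤ F.K → |F.h y| ≤ C * n →
      |tt ω (0, 0) y - mean G (y - (0, 0))| ≤ D + S1 ω)
    (b2 : ∀ᵐ ω ∂law G, ∀ y, |F.x y - t| ≤ F.K → |F.h y| ≤ C * n → |tt ω z y - mean G (y - z)| ≤ D + S2 ω) :
    ∀ᵐ ω ∂law G, ∀ y, t ≤ F.x y → F.x y ≤ t + F.K →
      (2 * F.m t - b * (F.L * (3 * F.K) + 2) - 2 * D) -
        (S1 ω + S2 ω + (Cheap ((0 : ℤ), (0 : ℤ)) n c).indicator (fun _ => T) ω) ≤
        tt ω (0, 0) y + tt ω y z := by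
  filter_upwards [good_ae G hG, b1, b2] with ω hω e1 e2 y hy1 hy2
  have hω0 : ∀ e, 0 ≤ ω e := fun e => (hω e).1.le
  have t1 := tt_nonneg (u := ((0 : ℤ), (0 : ℤ))) (v := y) hω0
  have t2 := tt_nonneg (u := y) (v := z) hω0
  by_cases hch : ω ∈ Cheap ((0 : ℤ), (0 : ℤ)) n c
  · rw [Set.indicator_of_mem hch]
    linarith [p1 ω, p2 ω]
  rw [Set.indicator_of_notMem hch, add_zero]
  rcases le_or_gt |F.h y| (C * n) with hnear | hfar
  · have hxy : |F.x y - t| ≤ F.K := abs_le.2 ⟨by linarith [F.one_le_K], by linarith⟩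
    have d1 := (abs_le.1 (e1 y hxy hnear)).1
    have d2 := (abs_le.1 (e2 y hxy hnear)).1
    rw [tt_comm hω0 z y, show mean G (y - z) = mean G (z - y) by rw [← mean_neg G hG, neg_sub]] at d2
    rw [show y - ((0 : ℤ), (0 : ℤ)) = y by simp] at d1
    have d3 := two_m_le G hG F hy1 hy2 hz
    linarith
  · linarith [far_cost G F hω0 hc hch hC hT hfar, p1 ω, p2 ω]

theorem mul_pow_quarter_le (n : ℕ) : (n : ℝ) * (1 / 4) ^ n ≤ 1 := by
  have h2 : (n : ℝ) ≤ 4 ^ n := by exact_mod_cast (Nat.lt_pow_self (by norm_num : 1 < 4)).le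
  rw [div_pow, one_pow, mul_one_div, div_le_one (by positivity)]
  exact h2

/-- The rough recursion. -/
theorem rough (hG : ∀ᵐ t ∂G, 0 < t ∧ t ≤ b) (hV : SmallVar G) (F : Frame (mu G)) :
    ∃ B : ℝ, 0 ≤ B ∧ ∀ᶠ t : ℝ in atTop, 2 * F.e t - B * (√t * √√t) ≤ F.e (2 * t) := by
  obtain ⟨c, hc, hrate⟩ := exists_cheap_rate G (hG.mono fun t ht => ht.1)
  obtain ⟨E, hE1, hE⟩ := exists_linear G hG F
  have hb := b_nonneg G hG
  have hL := F.one_le_L
  have hK := F.one_le_K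
  have hCa : 0 ≤ F.K * (4 * E + 4) / c := by positivity
  have hCb : 0 ≤ F.L * (4 * E + 2) + 2 := by positivity
  obtain ⟨C, hC⟩ := exists_nat_ge (F.K + F.K * (4 * E + 4) / c + (F.L * (4 * E + 2) + 2))
  obtain ⟨B, hB0, hB⟩ := line_dev G hG hV F C
  set C0 := b * (F.L * (3 * F.K) + 2)
  have hC00 : 0 ≤ C0 := by positivity
  set D0 := C0 + 2 + 2 * (4 * E + 4) with hD0
  refine ⟨8 * B + D0, by positivity, ?_⟩
  filter_upwards [tendsto_nat_ceil_atTop.eventually hB, eventually_ge_atTop (1 : ℝ)] with t ht ht1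
  set n := ⌈t⌉₊ with hn
  have hn1 : t ≤ n := Nat.le_ceil t
  have hn2 : (n : ℝ) ≤ 2 * t := by linarith [Nat.ceil_lt_add_one (show 0 ≤ t by linarith)]
  obtain ⟨z, hz1, hz2, hz3⟩ := F.exists_near hG (2 * t)
  have e20 := F.e_nonneg hG (2 * t)
  have hEt := hE t ht1
  have hEt2 := hE (2 * t) (by linarith)
  have hzx : |F.x z| + |F.h z| ≤ (4 * E + 2) * t := by
    rw [abs_of_nonneg (by linarith : 0 ≤ F.x z)]
    nlinarith
  have hzl : (l1 (0, 0) z : ℝ) ≤ C * n := by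
    refine (F.l1_origin z).trans ?_
    calc F.L * (|F.x z| + |F.h z|) + 2 ≤ F.L * ((4 * E + 2) * t) + 2 * t := by gcongr; linarith
      _ = (F.L * (4 * E + 2) + 2) * t := by ring
      _ ≤ C * n := mul_le_mul (by linarith) hn1 (by linarith) (Nat.cast_nonneg C)
  have htC : |t| ≤ (C : ℝ) * n := by
    rw [abs_of_nonneg (by linarith)]
    exact hn1.trans (le_mul_of_one_le_left (Nat.cast_nonneg n) (by linarith))
  obtain ⟨S1, i1, m1, p1, b1⟩ := ht (0, 0) t htC (by rw [show l1 ((0 : ℤ), (0 : ℤ)) (0, 0) = 0 from rfl, Nat.cast_zero]; positivity)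
  obtain ⟨S2, i2, m2, p2, b2⟩ := ht z t htC hzl
  set g := √(n : ℝ) * √√(n : ℝ) with hg
  set T := (4 * E + 4) * t with hT
  have hKT : F.K * T ≤ c * ((C : ℝ) * n) := by
    have h5 : F.K * (4 * E + 4) / c * t ≤ C * n := mul_le_mul (by linarith) hn1 (by linarith) (Nat.cast_nonneg C)
    rw [div_mul_eq_mul_div, div_le_iff₀ hc] at h5
    rw [hT]
    linarith
  have hg0 : 0 ≤ B * g := by positivity
  have hXT : 2 * F.m t - C0 - 2 * (B * g) ≤ T := by
    have : F.m t = t + F.e t := by simp [Frame.e]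
    rw [this, hT]
    linarith
  have hmc := measurableSet_cheap ((0 : ℤ), (0 : ℤ)) n c
  have key := le_mean_of_slab G hG F (t := t) (X := 2 * F.m t - C0 - 2 * (B * g)) (by linarith) (z := z) (by linarith)
    (S := fun ω => S1 ω + S2 ω + (Cheap ((0 : ℤ), (0 : ℤ)) n c).indicator (fun _ => T) ω)
    ((i1.add i2).add ((integrable_const _).indicator hmc))
    (rough_pointwise G hG F hz1 hc.le (by linarith) hKT (by positivity) hXT p1 p2 b1 b2)
  rw [integral_add (i1.fun_add i2) ((integrable_const _).indicator hmc), integral_add i1 i2,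
    integral_indicator hmc, setIntegral_const, smul_eq_mul] at key
  have hP : (law G).real (Cheap ((0 : ℤ), (0 : ℤ)) n c) ≤ 2 * (1 / 4) ^ n :=
    ENNReal.toReal_le_of_le_ofReal (by positivity) (hrate _ _)
  have hPT : (law G).real (Cheap ((0 : ℤ), (0 : ℤ)) n c) * T ≤ 2 * (4 * E + 4) := by
    calc _ ≤ 2 * (1 / 4) ^ n * ((4 * E + 4) * n) := mul_le_mul hP (by rw [hT]; gcongr) (by positivity) (by positivity)
      _ = 2 * (4 * E + 4) * ((n : ℝ) * (1 / 4) ^ n) := by ring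
      _ ≤ _ := mul_le_of_le_one_right (by positivity) (mul_pow_quarter_le n)
  have hBq : B * g ≤ B * (2 * (√t * √√t)) := mul_le_mul_of_nonneg_left (scale_le hn2) hB0
  have hD : D0 ≤ D0 * (√t * √√t) := le_mul_of_one_le_right (by positivity)
    (one_le_mul_of_one_le_of_one_le (Real.one_le_sqrt.2 ht1) (Real.one_le_sqrt.2 (Real.one_le_sqrt.2 ht1)))
  have hm : F.m t = t + F.e t := by simp [Frame.e]
  have hm2 : F.m (2 * t) = 2 * t + F.e (2 * t) := by simp [Frame.e]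
  linarith

theorem sharp_algebra {t e e2 η θ r xz C0 s : ℝ} (he : 0 ≤ e) (he2 : 0 ≤ e2) (hη0 : 0 ≤ η) (hη : η ≤ 1 / 64)
    (hr : η * r ≤ θ / 32 * (2 * s)) (hC0 : 0 ≤ C0) (hs : C0 + 3 ≤ θ / 4 * s) (hxz : 2 * t ≤ xz) (_ : 0 ≤ θ * s)
    (h : xz + (1 - η) * (2 * (t + e) - C0 - xz) - 2 * η * (r + e2 + 1) ≤ 2 * t + e2 + 1 + θ / 16 * s) :
    7 / 4 * e - θ * s ≤ e2 := by
  have h1 := mul_nonneg hη0 (sub_nonneg.2 hxz)
  have h2 := mul_le_mul_of_nonneg_right hη he
  have h3 := mul_le_mul_of_nonneg_right hη he2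
  have h4 := mul_nonneg hη0 hC0
  nlinarith

/-- The sharp recursion. -/
theorem sharp (hG : ∀ᵐ t ∂G, 0 < t ∧ t ≤ b) (hV : SmallVar G) (F : Frame (mu G)) {θ : ℝ} (hθ : 0 < θ) :
    ∀ᶠ t : ℝ in atTop, 7 / 4 * F.e t - θ * √t ≤ F.e (2 * t) := by
  have hb := b_nonneg G hG
  have hL := F.one_le_L
  have hK := F.one_le_K
  obtain ⟨E, hE1, hE⟩ := exists_linear G hG F
  set η := min (1 / 64) (θ / 32) with hη
  have hη0 : 0 < η := lt_min (by norm_num) (by linarith)
  have hη1 : η ≤ 1 / 64 := min_le_left _ _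
  have hη2 : η ≤ θ / 32 := min_le_right _ _
  set C := 6 * E + 6 + F.K + 2 with hC
  set C0 := b * (F.L * (3 * F.K) + 2) with hC0
  have hd := detour G hG hV F (C := C) (by linarith) hη0 (show 0 < θ / 32 by positivity)
  filter_upwards [tendsto_nat_ceil_atTop.eventually hd, eventually_ge_atTop (1 : ℝ),
    Real.tendsto_sqrt_atTop.eventually_ge_atTop ((C0 + 3) / (θ / 4)),
    eventually_ge_atTop (θ ^ 2)] with t ht ht1 ht2 htθ
  set n := ⌈t⌉₊ with hn
  have hn1 : t ≤ n := Nat.le_ceil t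
  have hn2 : (n : ℝ) ≤ 2 * t := by linarith [Nat.ceil_lt_add_one (show 0 ≤ t by linarith)]
  obtain ⟨z, hz1, hz2, hz3⟩ := F.exists_near hG (2 * t)
  have e0 := F.e_nonneg hG t
  have e20 := F.e_nonneg hG (2 * t)
  have hE2 := hE (2 * t) (by linarith)
  set H := √(n : ℝ) + F.e (2 * t) + 1 with hH
  have hsn : √(n : ℝ) ≤ 2 * √t := by
    rw [show (2 : ℝ) * √t = √4 * √t by rw [show (4 : ℝ) = 2 ^ 2 by norm_num, Real.sqrt_sq zero_le_two],
      ← Real.sqrt_mul (by norm_num)]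
    exact Real.sqrt_le_sqrt (by linarith)
  have hst : √t ≤ t := by
    calc √t = √t * 1 := (mul_one _).symm
      _ ≤ √t * √t := mul_le_mul_of_nonneg_left (Real.one_le_sqrt.2 ht1) (Real.sqrt_nonneg _)
      _ = t := Real.mul_self_sqrt (by linarith)
  have hθt : θ / 16 * √t ≤ t := by
    calc θ / 16 * √t ≤ √t * √t := by gcongr; linarith [Real.le_sqrt_of_sq_le htθ]
      _ = t := Real.mul_self_sqrt (by linarith)
  have hCn : C * t ≤ C * n := mul_le_mul_of_nonneg_left hn1 (by linarith)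
  have hsn0 : 0 ≤ √(n : ℝ) := Real.sqrt_nonneg _
  have hEt : E * t ≥ t := le_mul_of_one_le_left (by linarith) hE1
  have hKt : 0 ≤ (F.K + 2) * t := by positivity
  have hz0 : z - ((0 : ℤ), (0 : ℤ)) = z := by simp
  have h0 := abs_nonneg (F.h z)
  have hCt : C * t = 6 * (E * t) + 6 * t + (F.K + 2) * t := by rw [hC]; ring
  obtain ⟨S, -, i, mS, bS⟩ := ht (0, 0) z t H
    (by rw [abs_of_nonneg (by linarith : 0 ≤ t)]; linarith)
    (by rw [hz0, abs_of_nonneg (by linarith)]; linarith)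
    (by linarith) (by linarith) (by rw [hz0]; linarith)
  have key := le_mean_of_slab G hG F (t := t) (z := z) (by linarith) (by linarith) i
    (X := min (F.x z + (1 - η) * (2 * F.m t - C0 - F.x z) - 2 * η * H) (C * n)) (by
      filter_upwards [bS] with ω hω y hy1 hy2
      have hy0 : y - ((0 : ℤ), (0 : ℤ)) = y := by simp
      have h := hω y (by
        rw [hy0, abs_of_nonneg (by linarith)]
        calc F.x y - t ≤ 1 * F.K := by linarith
          _ ≤ C * 1 := by linarith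
          _ ≤ C * (H + |F.h y|) := by gcongr; linarith [abs_nonneg (F.h y)])
      rw [hy0, hz0] at h
      refine le_trans (sub_le_sub_right (min_le_min ?_ le_rfl) _) h
      gcongr
      · linarith
      · exact two_m_le G hG F hy1 hy2 hz1)
  have hm : F.m t = t + F.e t := by simp [Frame.e]
  have hm2 : F.m (2 * t) = 2 * t + F.e (2 * t) := by simp [Frame.e]
  have hεs : θ / 32 * √(n : ℝ) ≤ θ / 32 * (2 * √t) := mul_le_mul_of_nonneg_left hsn (by linarith)
  have hkey : min (F.x z + (1 - η) * (2 * (t + F.e t) - C0 - F.x z) - 2 * η * H) (C * n) ≤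
      2 * t + F.e (2 * t) + 1 + θ / 16 * √t := by
    rw [← hm]
    linarith
  rw [div_le_iff₀ (by positivity)] at ht2
  rcases min_le_iff.1 hkey with h | h
  · exact sharp_algebra e0 e20 hη0.le hη1 (mul_le_mul hη2 hsn hsn0 (by positivity)) (by positivity)
      (by linarith) hz1 (by positivity) h
  · exfalso
    linarith

/-- A superadditive recursion gives an upper bound. -/
theorem le_of_doubling {e g : ℝ → ℝ} {γ r T : ℝ} {t : ℝ} (ht : T ≤ t) (ht0 : 0 ≤ t) (hγ : r < γ) (hγ0 : 0 < γ)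
    (hrec : ∀ s, T ≤ s → γ * e s - g s ≤ e (2 * s)) (hg : ∀ s, 0 ≤ s → g (2 * s) = r * g s)
    (hlim : Tendsto (fun k : ℕ => e (2 ^ k * t) / γ ^ k) atTop (𝓝 0)) (hr : 0 ≤ r) (hg0 : 0 ≤ g t) :
    e t ≤ g t / (γ - r) := by
  set A := g t / (γ - r) with hA
  have hA0 : 0 ≤ A := div_nonneg hg0 (by linarith)
  have hgk : ∀ k : ℕ, g (2 ^ k * t) = r ^ k * g t := by
    intro k
    induction k with
    | zero => simp
    | succ k ih => rw [pow_succ', mul_assoc, hg _ (by positivity), ih]; ring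
  have hk : ∀ k : ℕ, γ ^ k * (e t - A) + A * r ^ k ≤ e (2 ^ k * t) := by
    intro k
    induction k with
    | zero => simp
    | succ k ih =>
      have h1 : T ≤ 2 ^ k * t := ht.trans (le_mul_of_one_le_left ht0 (one_le_pow₀ one_le_two))
      have h2 := hrec _ h1
      rw [hgk, ← mul_assoc, ← pow_succ'] at h2
      have h3 : g t = A * (γ - r) := by rw [hA, div_mul_cancel₀ _ (by linarith)]
      have h4 := mul_le_mul_of_nonneg_left ih hγ0.le
      rw [h3] at h2
      rw [pow_succ' γ, pow_succ' r]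
      linarith
  by_contra hcon
  push Not at hcon
  obtain ⟨k, hk'⟩ := (hlim.eventually (gt_mem_nhds (sub_pos.2 hcon))).exists
  rw [div_lt_iff₀ (by positivity)] at hk'
  have : 0 ≤ A * r ^ k := by positivity
  linarith [hk k]

/-- The excess is of smaller order than the square root. -/
theorem rate (hG : ∀ᵐ t ∂G, 0 < t ∧ t ≤ b) (hV : SmallVar G) (F : Frame (mu G)) {θ : ℝ} (hθ : 0 < θ) :
    ∀ᶠ t : ℝ in atTop, F.e t ≤ θ * √t := by
  obtain ⟨B, hB0, hB⟩ := rough G hG hV F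
  obtain ⟨T1, hT1⟩ := eventually_atTop.1 hB
  set r1 := √2 * √√2 with hr1
  have hr1' : r1 < 7 / 4 := by
    have h1 : √2 < 1.4143 := by rw [Real.sqrt_lt' (by norm_num)]; norm_num
    have h2 : √√2 < 1.19 := by rw [Real.sqrt_lt' (by norm_num)]; linarith
    nlinarith [Real.sqrt_nonneg 2, Real.sqrt_nonneg (√2)]
  have hq : ∀ s : ℝ, 0 ≤ s → √(2 * s) * √√(2 * s) = r1 * (√s * √√s) := fun s _ => by
    rw [Real.sqrt_mul zero_le_two, Real.sqrt_mul (Real.sqrt_nonneg 2), hr1]; ring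
  set B1 := B / (2 - r1) with hB1
  have hlim1 : ∀ t : ℝ, 0 < t → Tendsto (fun k : ℕ => F.e (2 ^ k * t) / 2 ^ k) atTop (𝓝 0) := by
    intro t ht
    rw [Metric.tendsto_atTop]
    intro ε hε
    obtain ⟨T, hT⟩ := eventually_atTop.1 (F.e_sublinear hG (show 0 < ε / (2 * t) by positivity))
    obtain ⟨k0, hk0⟩ := pow_unbounded_of_one_lt (T / t) (one_lt_two : (1 : ℝ) < 2)
    refine ⟨k0, fun k hk => ?_⟩
    rw [div_lt_iff₀ ht] at hk0
    have h2 : (2 : ℝ) ^ k0 ≤ 2 ^ k := pow_le_pow_right₀ one_le_two hk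
    have := hT (2 ^ k * t) (by nlinarith)
    rw [dist_zero_right, Real.norm_eq_abs, abs_of_nonneg (div_nonneg (F.e_nonneg hG _) (by positivity)),
      div_lt_iff₀ (by positivity)]
    refine this.trans_lt ?_
    field_simp
    nlinarith [pow_pos (two_pos : (0 : ℝ) < 2) k]
  have pass1 : ∀ t, max T1 1 ≤ t → F.e t ≤ B1 * (√t * √√t) := fun t ht => by
    have ht0 : 0 < t := lt_of_lt_of_le one_pos ((le_max_right _ _).trans ht)
    refine (le_of_doubling (g := fun s => B * (√s * √√s)) (r := r1) ht ht0.le (by linarith) two_pos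
      (fun s hs => hT1 s ((le_max_left _ _).trans hs)) (fun s hs => by simp only [hq s hs]; ring)
      (hlim1 t ht0) (by positivity) (by positivity)).trans_eq ?_
    rw [hB1]; ring
  have hθ' : 0 < θ * (7 / 4 - √2) := by
    have : √2 < 1.5 := by rw [Real.sqrt_lt' (by norm_num)]; norm_num
    exact mul_pos hθ (by linarith)
  obtain ⟨T2, hT2⟩ := eventually_atTop.1 (sharp G hG hV F hθ')
  filter_upwards [eventually_ge_atTop (max (max T1 1) T2)] with t ht
  have ht1 : max T1 1 ≤ t := (le_max_left _ _).trans ht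
  have ht0 : 0 < t := lt_of_lt_of_le one_pos ((le_max_right _ _).trans ht1)
  refine (le_of_doubling (g := fun s => θ * (7 / 4 - √2) * √s) (r := √2) ((le_max_right _ _).trans ht) ht0.le
    (by nlinarith [Real.sqrt_nonneg 2, Real.mul_self_sqrt (zero_le_two (α := ℝ))]) (by norm_num)
    hT2 (fun s _ => by rw [Real.sqrt_mul zero_le_two]; ring) ?_ (Real.sqrt_nonneg 2) (by positivity)).trans_eq ?_
  · refine squeeze_zero (g := fun k : ℕ => B1 * (√t * √√t) * (r1 / (7 / 4)) ^ k)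
      (fun k => div_nonneg (F.e_nonneg hG _) (by positivity)) (fun k => ?_) ?_
    · have hk : ∀ j : ℕ, √(2 ^ j * t) * √√(2 ^ j * t) = r1 ^ j * (√t * √√t) := by
        intro j
        induction j with
        | zero => simp
        | succ j ih => rw [pow_succ', mul_assoc, hq _ (by positivity), ih]; ring
      rw [div_le_iff₀ (by positivity), mul_assoc, ← mul_pow, div_mul_cancel₀ _ (by norm_num)]
      refine (pass1 _ (ht1.trans (le_mul_of_one_le_left ht0.le (one_le_pow₀ one_le_two)))).trans_eq ?_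
      rw [hk]; ring
    · simpa using (tendsto_pow_atTop_nhds_zero_of_lt_one (by positivity)
        (by rw [div_lt_one (by norm_num)]; exact hr1')).const_mul (B1 * (√t * √√t))
  · have hne : (7 / 4 : ℝ) - √2 ≠ 0 := (pos_of_mul_pos_right hθ' hθ.le).ne'
    rw [mul_right_comm, mul_div_cancel_right₀ _ hne]

/-- Along the corner the mean exceeds the linear value by little, at all distances. -/
theorem axis_rate (hG : ∀ᵐ t ∂G, 0 < t ∧ t ≤ b) (hV : SmallVar G) (F : Frame (mu G)) {θ : ℝ} (hθ : 0 < θ) :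
    ∃ B : ℝ, ∀ t : ℝ, 0 ≤ t → mean G (fl (t • F.v)) ≤ t + θ * √t + B := by
  have hb := b_nonneg G hG
  have hL := F.one_le_L
  have hpos : 0 < 1 + b * F.L := by positivity
  obtain ⟨T, hT⟩ := eventually_atTop.1 (rate G hG hV F (div_pos hθ hpos))
  refine ⟨b * (F.L * |T| + 2) + (1 + b * (F.L + 2)), fun t ht => ?_⟩
  have h0 : 0 ≤ θ * √t := by positivity
  have h1 : 0 ≤ b * (F.L * |T| + 2) := by positivity
  have h2 : 0 ≤ 1 + b * (F.L + 2) := by positivity
  rcases le_or_gt T t with h | h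
  · have h3 := F.mean_axis_le hG t
    have h4 := hT t h
    rw [div_mul_eq_mul_div, le_div_iff₀ hpos] at h4
    linarith
  · have h5 := F.mean_fl_le hG t
    rw [abs_of_nonneg ht] at h5
    have : b * (F.L * t + 2) ≤ b * (F.L * |T| + 2) := by gcongr; exact h.le.trans (le_abs_self T)
    linarith

end Vale.Agent.P158.Facet
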