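import Mathlib
import Vale.Agent.P158.Facet.Frame

/-!
P158 facets: oblique axes, defects of walks towards a far target, and the events of one cell.
-/

namespace Vale.Agent.P158.Facet

open MeasureTheory Vale.Agent.P158.V4

/-- Two independent directions. -/
structure Axes where
  v : ℝ × ℝ
  w : ℝ × ℝ
  indep : v.1 * w.2 - v.2 * w.1 ≠ 0

namespace Axes

variable (ax : Axes)

/-- The coordinate along the first axis. -/
noncomputable def a (z : ℤ × ℤ) : ℝ :=
  (z.1 * ax.w.2 - z.2 * ax.w.1) / (ax.v.1 * ax.w.2 - ax.v.2 * ax.w.1)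

/-- The coordinate along the second axis. -/
noncomputable def c (z : ℤ × ℤ) : ℝ :=
  (ax.v.1 * z.2 - ax.v.2 * z.1) / (ax.v.1 * ax.w.2 - ax.v.2 * ax.w.1)

/-- The axes in the other order. -/
def swap : Axes where
  v := ax.w
  w := ax.v
  indep h := ax.indep (by linarith)

/-- Bound of the coordinates of a unit step. -/
noncomputable def K : ℝ :=
  (|ax.v.1| + |ax.v.2| + |ax.w.1| + |ax.w.2|) / |ax.v.1 * ax.w.2 - ax.v.2 * ax.w.1| + 1

theorem swap_a (z : ℤ × ℤ) : ax.swap.a z = ax.c z := by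
  have h := ax.indep
  have h' : ax.w.1 * ax.v.2 - ax.w.2 * ax.v.1 ≠ 0 := fun e => h (by linarith)
  simp only [a, c, swap]
  rw [div_eq_div_iff h' h]
  ring

theorem swap_c (z : ℤ × ℤ) : ax.swap.c z = ax.a z := by
  have h := ax.indep
  have h' : ax.w.1 * ax.v.2 - ax.w.2 * ax.v.1 ≠ 0 := fun e => h (by linarith)
  simp only [a, c, swap]
  rw [div_eq_div_iff h' h]
  ring

theorem swap_K : ax.swap.K = ax.K := by
  simp only [K, swap]
  rw [show ax.w.1 * ax.v.2 - ax.w.2 * ax.v.1 = -(ax.v.1 * ax.w.2 - ax.v.2 * ax.w.1) by ring, abs_neg]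
  ring

theorem one_le_K : 1 ≤ ax.K := by
  unfold K
  have : 0 ≤ (|ax.v.1| + |ax.v.2| + |ax.w.1| + |ax.w.2|) / |ax.v.1 * ax.w.2 - ax.v.2 * ax.w.1| := by positivity
  linarith

theorem rvec_eq (z : ℤ × ℤ) : rvec z = ax.a z • ax.v + ax.c z • ax.w := by
  have h := ax.indep
  ext <;> simp only [rvec, Prod.fst_add, Prod.snd_add, Prod.smul_fst, Prod.smul_snd, smul_eq_mul, a, c] <;>
    rw [div_mul_eq_mul_div, div_mul_eq_mul_div, ← add_div, eq_div_iff h] <;> ring

theorem a_sub (y z : ℤ × ℤ) : ax.a (y - z) = ax.a y - ax.a z := by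
  simp only [a, Prod.fst_sub, Prod.snd_sub, Int.cast_sub]; ring

theorem c_sub (y z : ℤ × ℤ) : ax.c (y - z) = ax.c y - ax.c z := by
  simp only [c, Prod.fst_sub, Prod.snd_sub, Int.cast_sub]; ring

theorem abs_sub_le (y z : ℤ × ℤ) :
    |ax.a y - ax.a z| ≤ ax.K * l1 y z ∧ |ax.c y - ax.c z| ≤ ax.K * l1 y z := by
  set D := ax.v.1 * ax.w.2 - ax.v.2 * ax.w.1 with hD
  have hD0 : 0 < |D| := abs_pos.2 ax.indep
  have hl : (l1 y z : ℝ) = |(y.1 : ℝ) - z.1| + |(y.2 : ℝ) - z.2| := l1_cast y z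
  set p := (y.1 : ℝ) - z.1
  set q := (y.2 : ℝ) - z.2
  have key : ∀ s t : ℝ, |s| + |t| ≤ |ax.v.1| + |ax.v.2| + |ax.w.1| + |ax.w.2| →
      |(p * s - q * t) / D| ≤ ax.K * (|p| + |q|) := by
    intro s t hst
    rw [abs_div, div_le_iff₀ hD0, K, ← hD, mul_right_comm, add_mul, div_mul_cancel₀ _ hD0.ne']
    have h := abs_sub (p * s) (q * t)
    rw [abs_mul, abs_mul] at h
    nlinarith [abs_nonneg p, abs_nonneg q, abs_nonneg s, abs_nonneg t, hD0.le]
  rw [hl]
  constructor
  · have e : ax.a y - ax.a z = (p * ax.w.2 - q * ax.w.1) / D := by simp only [a, p, q, D]; ring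
    rw [e]
    exact key _ _ (by linarith [abs_nonneg ax.v.1, abs_nonneg ax.v.2])
  · have e : ax.c y - ax.c z = (p * (-ax.v.2) - q * (-ax.v.1)) / D := by simp only [c, p, q, D]; ring
    rw [e]
    exact key _ _ (by simp only [abs_neg]; linarith [abs_nonneg ax.w.1, abs_nonneg ax.w.2])

theorem adj_le {y z : ℤ × ℤ} (h : grid.Adj y z) : |ax.a y - ax.a z| ≤ ax.K ∧ |ax.c y - ax.c z| ≤ ax.K := by
  have hl : l1 y z = 1 := by
    rw [grid_adj_iff, abs_eq_max_neg, abs_eq_max_neg] at h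
    unfold l1
    omega
  simpa [hl] using ax.abs_sub_le y z

/-- The box of a cell: half-length `D` along the first axis, half-width `W` along the second. -/
def Box (A C W D : ℝ) (z : ℤ × ℤ) : Prop := |ax.c z - C| ≤ W ∧ |ax.a z - A| ≤ D + ax.K

/-- The part of the box beyond the crossing band of the other direction. -/
def Right (A C W D : ℝ) (z : ℤ × ℤ) : Prop := ax.Box A C W D z ∧ A + 2 * W - ax.K ≤ ax.a z

end Axes

/-- The defect of a walk with respect to the passage times to `P`. -/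
noncomputable def defect (ω : Sym2 (ℤ × ℤ) → ℝ) (P : ℤ × ℤ) {u z : ℤ × ℤ} (p : grid.Walk u z) : ℝ :=
  wt ω p + tt ω z P - tt ω u P

theorem defect_nonneg {ω : Sym2 (ℤ × ℤ) → ℝ} (hω : ∀ e, 0 ≤ ω e) (P : ℤ × ℤ) {u z : ℤ × ℤ}
    (p : grid.Walk u z) : 0 ≤ defect ω P p := by
  have := tt_triangle hω u z P
  have := tt_le hω p
  unfold defect
  linarith

theorem defect_append {ω : Sym2 (ℤ × ℤ) → ℝ} (P : ℤ × ℤ) {u y z : ℤ × ℤ} (p : grid.Walk u y)
    (q : grid.Walk y z) : defect ω P (p.append q) = defect ω P p + defect ω P q := by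
  simp only [defect, wt_append]; ring

/-- Some walk crosses the box with defect less than `g`. -/
def Cross (ax : Axes) (A C W D g : ℝ) (P : ℤ × ℤ) : Set (Sym2 (ℤ × ℤ) → ℝ) :=
  {ω | ∃ (u z : ℤ × ℤ) (p : grid.Walk u z), ax.a u ≤ A - D + ax.K ∧ A + D - ax.K ≤ ax.a z ∧
    (∀ y ∈ p.support, ax.Box A C W D y) ∧ defect ω P p < g}

/-- Some site in the far end of the band of the second direction has an almost optimal route to the
target through the right part of the box. -/
def Slip (ax : Axes) (A C W D : ℝ) (P : ℤ × ℤ) : Set (Sym2 (ℤ × ℤ) → ℝ) :=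
  {ω | ∃ u y : ℤ × ℤ, |ax.a u - A| ≤ W ∧ |ax.c u - (C + D)| ≤ ax.K ∧ ax.Right A C W D y ∧
    tt ω u y + tt ω y P ≤ tt ω u P + 1}

/-- Some site outside the band and level with the cell has an almost optimal route between the ends. -/
def Stray (ax : Axes) (A C W D : ℝ) (a z : ℤ × ℤ) : Set (Sym2 (ℤ × ℤ) → ℝ) :=
  {ω | ∃ y : ℤ × ℤ, |ax.a y - A| ≤ D + ax.K ∧ W < |ax.c y - C| ∧ tt ω a y + tt ω y z ≤ tt ω a z + 1}

theorem measurable_defect (P : ℤ × ℤ) {u z : ℤ × ℤ} (p : grid.Walk u z) :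
    Measurable fun ω : Sym2 (ℤ × ℤ) → ℝ => defect ω P p :=
  ((measurable_wt p).add (measurable_tt _ _)).sub (measurable_tt _ _)

theorem measurableSet_cross (ax : Axes) (A C W D g : ℝ) (P : ℤ × ℤ) :
    MeasurableSet (Cross ax A C W D g P) := by
  simp only [Cross, Set.ofPred_exists]
  exact MeasurableSet.iUnion fun u => MeasurableSet.iUnion fun z => MeasurableSet.iUnion fun p =>
    (MeasurableSet.const _).inter ((MeasurableSet.const _).inter ((MeasurableSet.const _).inter
      (measurableSet_lt (measurable_defect P p) measurable_const)))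

theorem measurableSet_slip (ax : Axes) (A C W D : ℝ) (P : ℤ × ℤ) : MeasurableSet (Slip ax A C W D P) := by
  simp only [Slip, Set.ofPred_exists]
  exact MeasurableSet.iUnion fun u => MeasurableSet.iUnion fun y =>
    (MeasurableSet.const _).inter ((MeasurableSet.const _).inter ((MeasurableSet.const _).inter
      (measurableSet_le ((measurable_tt _ _).add (measurable_tt _ _)) ((measurable_tt _ _).add measurable_const))))

theorem measurableSet_stray (ax : Axes) (A C W D : ℝ) (a z : ℤ × ℤ) :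
    MeasurableSet (Stray ax A C W D a z) := by
  simp only [Stray, Set.ofPred_exists]
  exact MeasurableSet.iUnion fun y => (MeasurableSet.const _).inter ((MeasurableSet.const _).inter
    (measurableSet_le ((measurable_tt _ _).add (measurable_tt _ _)) ((measurable_tt _ _).add measurable_const)))

end Vale.Agent.P158.Facet
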