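import Mathlib
import Vale.Agent.P158.Facet.Rate
import Vale.Agent.P158.Facet.Basic

/-!
P158 facets: two corners on one facet; means between them and the distances in oblique axes.
-/

namespace Vale.Agent.P158.Facet

open MeasureTheory Filter Topology Vale.Agent.P158.V4

variable {G : Measure ℝ} [IsProbabilityMeasure G] {b : ℝ}

/-- Two corners of the unit ball joined by a segment of its boundary. -/
structure Pair (μ : ℝ × ℝ → ℝ) where
  F : Frame μ
  F' : Frame μ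
  sum : μ (F.v + F'.v) = 2
  indep : F.v.1 * F'.v.2 - F.v.2 * F'.v.1 ≠ 0

namespace Pair

variable {μ : ℝ × ℝ → ℝ} (p : Pair μ)

/-- The axes through the two corners. -/
def ax : Axes where
  v := p.F.v
  w := p.F'.v
  indep := p.indep

/-- The pair in the other order. -/
def swap : Pair μ where
  F := p.F'
  F' := p.F
  sum := by rw [add_comm]; exact p.sum
  indep h := p.indep (by linarith)

theorem swap_ax : p.swap.ax = p.ax.swap := rfl

/-- The first corner's abscissa of the second corner. -/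
noncomputable def xw : ℝ := (dot p.F.ρ p.F'.v + dot p.F.σ p.F'.v) / 2

/-- The first corner's transversal coordinate of the second corner. -/
noncomputable def hw : ℝ := (dot p.F.ρ p.F'.v - dot p.F.σ p.F'.v) / 2

theorem x_eq (z : ℤ × ℤ) : p.F.x z = p.ax.a z + p.ax.c z * p.xw := by
  have e := p.ax.rvec_eq z
  simp only [Frame.x, xw, e, dot_add, dot_smul]
  rw [show p.ax.v = p.F.v from rfl, show p.ax.w = p.F'.v from rfl, p.F.ρv, p.F.σv]
  ring

theorem h_eq (z : ℤ × ℤ) : p.F.h z = p.ax.c z * p.hw := by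
  have e := p.ax.rvec_eq z
  simp only [Frame.h, hw, e, dot_add, dot_smul]
  rw [show p.ax.v = p.F.v from rfl, show p.ax.w = p.F'.v from rfl, p.F.ρv, p.F.σv]
  ring

theorem dot_ne : dot p.F.ρ p.F'.v ≠ dot p.F.σ p.F'.v := fun h => by
  have h1 := p.F.ρv
  have h2 := p.F.σv
  simp only [dot] at h h1 h2
  have e1 : (p.F.ρ.1 - p.F.σ.1) * (p.F.v.1 * p.F'.v.2 - p.F.v.2 * p.F'.v.1) = 0 := by
    linear_combination p.F'.v.2 * h1 - p.F'.v.2 * h2 - p.F.v.2 * h
  have e2 : (p.F.ρ.2 - p.F.σ.2) * (p.F.v.1 * p.F'.v.2 - p.F.v.2 * p.F'.v.1) = 0 := by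
    linear_combination p.F.v.1 * h - p.F'.v.1 * h1 + p.F'.v.1 * h2
  refine p.F.det_ne ?_
  rw [sub_eq_zero.1 ((mul_eq_zero.1 e1).resolve_right p.indep),
    sub_eq_zero.1 ((mul_eq_zero.1 e2).resolve_right p.indep)]
  ring

theorem hw_ne : p.hw ≠ 0 := div_ne_zero (sub_ne_zero.2 p.dot_ne) two_ne_zero

/-- The least value at the second corner of a supporting functional at the first. -/
noncomputable def γ : ℝ := min (dot p.F.ρ p.F'.v) (dot p.F.σ p.F'.v)

theorem γ_lt : p.γ < 1 := by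
  have h1 : dot p.F.ρ p.F'.v ≤ 1 := (p.F.leρ _).trans_eq p.F'.μv
  have h2 : dot p.F.σ p.F'.v ≤ 1 := (p.F.leσ _).trans_eq p.F'.μv
  rcases lt_or_gt_of_ne p.dot_ne with h | h
  · exact lt_of_le_of_lt (min_le_left _ _) (h.trans_le h2)
  · exact lt_of_le_of_lt (min_le_right _ _) (h.trans_le h1)

/-- Going backwards along the second axis costs more than linearly. -/
theorem mean_ge_back (p : Pair (mu G)) (hG : ∀ᵐ t ∂G, 0 < t ∧ t ≤ b) (z : ℤ × ℤ) :
    p.ax.a z + p.γ * p.ax.c z ≤ mean G z := by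
  refine le_trans ?_ (mu_le_mean G hG z)
  have e := p.ax.rvec_eq z
  have hv : p.ax.v = p.F.v := rfl
  have hw : p.ax.w = p.F'.v := rfl
  rcases min_choice (dot p.F.ρ p.F'.v) (dot p.F.σ p.F'.v) with h | h
  · refine le_trans (le_of_eq ?_) (p.F.leρ (rvec z))
    rw [e, dot_add, dot_smul, dot_smul, hv, hw, p.F.ρv, γ, h]; ring
  · refine le_trans (le_of_eq ?_) (p.F.leσ (rvec z))
    rw [e, dot_add, dot_smul, dot_smul, hv, hw, p.F.σv, γ, h]; ring

/-- On the facet the time constant is linear. -/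
theorem mean_ge (p : Pair (mu G)) (hG : ∀ᵐ t ∂G, 0 < t ∧ t ≤ b) (z : ℤ × ℤ) (ha : 0 ≤ p.ax.a z) (hc : 0 ≤ p.ax.c z) :
    p.ax.a z + p.ax.c z ≤ mean G z := by
  refine le_trans ?_ (mu_le_mean G hG z)
  set α := p.ax.a z
  set β := p.ax.c z
  rw [p.ax.rvec_eq z, show p.ax.v = p.F.v from rfl, show p.ax.w = p.F'.v from rfl]
  rcases le_total β α with h | h
  · have h1 := mu_add_le G hG (α • p.F.v + β • p.F'.v) ((α - β) • p.F'.v)
    rw [show α • p.F.v + β • p.F'.v + (α - β) • p.F'.v = α • (p.F.v + p.F'.v) by module,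
      mu_hom G hG α ha, mu_hom G hG (α - β) (by linarith), p.sum, p.F'.μv] at h1
    linarith
  · have h1 := mu_add_le G hG (α • p.F.v + β • p.F'.v) ((β - α) • p.F.v)
    rw [show α • p.F.v + β • p.F'.v + (β - α) • p.F.v = β • (p.F.v + p.F'.v) by module,
      mu_hom G hG β hc, mu_hom G hG (β - α) (by linarith), p.sum, p.F.μv] at h1
    linarith

/-- Between the corners the mean exceeds the linear value by little. -/
theorem mean_le (p : Pair (mu G)) (hG : ∀ᵐ t ∂G, 0 < t ∧ t ≤ b) (hV : SmallVar G) {θ : ℝ} (hθ : 0 < θ) :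
    ∃ B : ℝ, 0 ≤ B ∧ ∀ z : ℤ × ℤ, -(4 * p.ax.K) ≤ p.ax.a z → -(4 * p.ax.K) ≤ p.ax.c z →
      mean G z ≤ p.ax.a z + p.ax.c z + θ * (√(|p.ax.a z|) + √(|p.ax.c z|)) + B := by
  obtain ⟨B1, h1⟩ := axis_rate G hG hV p.F hθ
  obtain ⟨B2, h2⟩ := axis_rate G hG hV p.F' hθ
  set E := |p.F.v.1| + |p.F.v.2| + |p.F'.v.1| + |p.F'.v.2|
  refine ⟨|B1| + |B2| + b * (8 * p.ax.K * E + 4) + 16 * p.ax.K,
    by have := b_nonneg G hG; have := p.ax.one_le_K; positivity, fun z ha hc => ?_⟩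
  have hK := p.ax.one_le_K
  set α := max (p.ax.a z) 0 with hα
  set β := max (p.ax.c z) 0 with hβ
  have hα1 : |α - p.ax.a z| ≤ 4 * p.ax.K := by
    rcases le_total (p.ax.a z) 0 with h | h
    · rw [hα, max_eq_right h, zero_sub, abs_neg, abs_of_nonpos h]; linarith
    · rw [hα, max_eq_left h, sub_self, abs_zero]; linarith
  have hβ1 : |β - p.ax.c z| ≤ 4 * p.ax.K := by
    rcases le_total (p.ax.c z) 0 with h | h
    · rw [hβ, max_eq_right h, zero_sub, abs_neg, abs_of_nonpos h]; linarith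
    · rw [hβ, max_eq_left h, sub_self, abs_zero]; linarith
  have hsa : √α ≤ √(|p.ax.a z|) := Real.sqrt_le_sqrt (max_le (le_abs_self _) (abs_nonneg _))
  have hsc : √β ≤ √(|p.ax.c z|) := Real.sqrt_le_sqrt (max_le (le_abs_self _) (abs_nonneg _))
  set w := fl (α • p.F.v) + fl (β • p.F'.v) with hw
  have hmw : mean G w ≤ α + β + θ * (√α + √β) + (B1 + B2) := by
    refine (mean_add_le G hG _ _).trans ?_
    linarith [h1 α (le_max_right _ _), h2 β (le_max_right _ _)]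
  have hl : (l1 z w : ℝ) ≤ 8 * p.ax.K * E + 4 := by
    rw [l1_cast]
    have e1 := congrArg Prod.fst (p.ax.rvec_eq z)
    have e2 := congrArg Prod.snd (p.ax.rvec_eq z)
    simp only [rvec, Prod.fst_add, Prod.snd_add, Prod.smul_fst, Prod.smul_snd, smul_eq_mul,
      show p.ax.v = p.F.v from rfl, show p.ax.w = p.F'.v from rfl] at e1 e2
    have k : ∀ (zi : ℤ) (s t : ℝ), (zi : ℝ) = p.ax.a z * s + p.ax.c z * t →
        |(zi : ℝ) - ((⌊α * s⌋ + ⌊β * t⌋ : ℤ) : ℝ)| ≤ 4 * p.ax.K * (|s| + |t|) + 2 := by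
      intro zi s t e
      have g1 := Int.floor_le (α * s); have g2 := Int.sub_one_lt_floor (α * s)
      have g3 := Int.floor_le (β * t); have g4 := Int.sub_one_lt_floor (β * t)
      have g5 := mul_le_mul_of_nonneg_right hα1 (abs_nonneg s)
      have g6 := mul_le_mul_of_nonneg_right hβ1 (abs_nonneg t)
      rw [← abs_mul, abs_le] at g5 g6
      rw [abs_le]
      push_cast
      constructor <;> nlinarith
    have k1 := k z.1 _ _ e1
    have k2 := k z.2 _ _ e2
    simp only [hw, fl, Prod.fst_add, Prod.snd_add, Prod.smul_fst, Prod.smul_snd, smul_eq_mul]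
    have e : 4 * p.ax.K * (|p.F.v.1| + |p.F'.v.1|) + 4 * p.ax.K * (|p.F.v.2| + |p.F'.v.2|) ≤ 8 * p.ax.K * E := by
      simp only [E]
      nlinarith [abs_nonneg p.F.v.1, abs_nonneg p.F.v.2, abs_nonneg p.F'.v.1, abs_nonneg p.F'.v.2]
    linarith
  have hz := (abs_le.1 (abs_mean_sub_le G hG z w)).2
  have hlb := mul_le_mul_of_nonneg_right hl (b_nonneg G hG)
  have := mul_le_mul_of_nonneg_left (add_le_add hsa hsc) hθ.le
  rw [abs_le] at hα1 hβ1
  linarith [le_abs_self B1, le_abs_self B2]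

theorem near_fl (s t : ℝ) : |p.ax.a (fl (s • p.F.v + t • p.F'.v)) - s| ≤ 2 * p.ax.K ∧
    |p.ax.c (fl (s • p.F.v + t • p.F'.v)) - t| ≤ 2 * p.ax.K := by
  set D := p.F.v.1 * p.F'.v.2 - p.F.v.2 * p.F'.v.1 with hD
  have hD0 : 0 < |D| := abs_pos.2 p.indep
  set x := s • p.F.v + t • p.F'.v with hx
  set z := fl x
  have hr : |(z.1 : ℝ) - x.1| ≤ 1 ∧ |(z.2 : ℝ) - x.2| ≤ 1 := by
    have h : ∀ y : ℝ, |((⌊y⌋ : ℤ) : ℝ) - y| ≤ 1 := fun y => by
      rw [abs_sub_comm, Int.self_sub_floor, Int.abs_fract]; exact (Int.fract_lt_one _).le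
    exact ⟨h _, h _⟩
  have key : ∀ p' q' : ℝ, |p'| + |q'| ≤ |p.F.v.1| + |p.F.v.2| + |p.F'.v.1| + |p.F'.v.2| →
      |(((z.1 : ℝ) - x.1) * p' + ((z.2 : ℝ) - x.2) * q') / D| ≤ 2 * p.ax.K := by
    intro p' q' h
    rw [abs_div, div_le_iff₀ hD0]
    have h' := abs_add_le (((z.1 : ℝ) - x.1) * p') (((z.2 : ℝ) - x.2) * q')
    rw [abs_mul, abs_mul] at h'
    have hK : p.ax.K * |D| = (|p.F.v.1| + |p.F.v.2| + |p.F'.v.1| + |p.F'.v.2|) + |D| := by
      simp only [Axes.K, ax, ← hD]; rw [add_mul, div_mul_cancel₀ _ hD0.ne', one_mul]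
    nlinarith [mul_le_mul_of_nonneg_right hr.1 (abs_nonneg p'), mul_le_mul_of_nonneg_right hr.2 (abs_nonneg q'),
      abs_nonneg p', abs_nonneg q']
  constructor
  · refine le_of_eq_of_le (congrArg abs ?_) (key p.F'.v.2 (-p.F'.v.1)
      (by rw [abs_neg]; linarith [abs_nonneg p.F.v.1, abs_nonneg p.F.v.2]))
    simp only [Axes.a, ax, ← hD, hx, Prod.fst_add, Prod.snd_add, Prod.smul_fst, Prod.smul_snd, smul_eq_mul]
    rw [eq_div_iff p.indep, sub_mul, div_mul_cancel₀ _ p.indep]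
    ring
  · refine le_of_eq_of_le (congrArg abs ?_) (key (-p.F.v.2) p.F.v.1
      (by rw [abs_neg]; linarith [abs_nonneg p.F'.v.1, abs_nonneg p.F'.v.2]))
    simp only [Axes.c, ax, ← hD, hx, Prod.fst_add, Prod.snd_add, Prod.smul_fst, Prod.smul_snd, smul_eq_mul]
    rw [eq_div_iff p.indep, sub_mul, div_mul_cancel₀ _ p.indep]
    ring

end Pair

end Vale.Agent.P158.Facet
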