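import Mathlib
import Vale.Agent.P158.Facet.Basic
import Vale.Agent.P158.V4.Crossing

/-!
P158 facets, cell: a walk across a box along one axis meets a walk across it along the other.

Both walks are prolonged vertically from their ends, away from the band of the other one.
-/

namespace Vale.Agent.P158.Facet

open Vale.Agent.P158.V4

theorem exists_above {A B : ℤ × ℤ} (p : grid.Walk A B) : ∃ L : ℤ, ∀ P ∈ p.support, |P.2| ≤ L := by
  induction p with
  | @nil A => exact ⟨|A.2|, by simp⟩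
  | @cons A A' B h p ih =>
    obtain ⟨L, hL⟩ := ih
    refine ⟨max L |A.2|, fun P hP => ?_⟩
    rw [SimpleGraph.Walk.support_cons, List.mem_cons] at hP
    rcases hP with rfl | hP
    · exact le_max_right _ _
    · exact (hL P hP).trans (le_max_left _ _)

/-- The side is constant along a vertical segment that misses the walk. -/
theorem side_column {A B : ℤ × ℤ} (p : grid.Walk A B) (x y : ℤ) :
    ∀ n : ℕ, (∀ P ∈ p.support, ¬ (P.1 = x ∧ y < P.2 ∧ P.2 ≤ y + n)) →
      side p (x, y + n) = side p (x, y) := by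
  intro n
  induction n with
  | zero => intro _; simp
  | succ n ih =>
    intro h
    have h' : ((x, y + n).1, (x, y + n).2 + 1) ∉ p.support := fun hm =>
      h _ hm ⟨rfl, by dsimp only; omega, by dsimp only; omega⟩
    have e : ((x, y + ((n + 1 : ℕ) : ℤ)) : ℤ × ℤ) = ((x, y + n).1, (x, y + n).2 + 1) :=
      Prod.ext rfl (by dsimp only; push_cast; omega)
    rw [e, side_up p h']
    exact ih fun P hP ⟨h1, h2, h3⟩ => h P hP ⟨h1, h2, by omega⟩

theorem side_walk' {A B : ℤ × ℤ} (p : grid.Walk A B) {C D : ℤ × ℤ} (q : grid.Walk C D) :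
    (∀ P ∈ q.support, P ∉ p.support ∧ ¬ (P.1 = B.1 ∧ B.2 ≤ P.2) ∧ ¬ (P.1 = A.1 ∧ P.2 < A.2)) →
      side p C = side p D := by
  induction q with
  | nil => intro _; rfl
  | @cons C C' D hadj q ih =>
    intro h
    obtain ⟨hz, hB, hA⟩ := h C (by simp)
    obtain ⟨hz', hB', hA'⟩ := h C' (by simp)
    have key : side p C = side p C' := by
      rcases step_cases hadj with ⟨h1, h2 | h2⟩ | ⟨h1, h2 | h2⟩
      · have e : C' = (C.1, C.2 + 1) := Prod.ext h1.symm h2
        rw [e] at hz' ⊢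
        rw [side_up p hz']
      · have e : C = (C'.1, C'.2 + 1) := Prod.ext h1 h2
        rw [e] at hz ⊢
        rw [side_up p hz]
      · have e : C' = (C.1 + 1, C.2) := Prod.ext h2 h1.symm
        rw [e, side_right p hz hB hA]
      · have e : C = (C'.1 + 1, C'.2) := Prod.ext h2 h1
        rw [e, side_right p hz' hB' hA']
    rw [key]
    exact ih fun P hP => h P (by simp [hP])

/-- Two walks meet if their vertical prolongations avoid them and their ends are in opposite
orders. -/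
theorem meet_of_sides {A B C D : ℤ × ℤ} (p : grid.Walk A B) (q : grid.Walk C D)
    (hA : ∀ P ∈ q.support, ¬ (P.1 = A.1 ∧ P.2 < A.2))
    (hB : ∀ P ∈ q.support, ¬ (P.1 = B.1 ∧ B.2 < P.2))
    (hC : ∀ P ∈ p.support, ¬ (P.1 = C.1 ∧ P.2 < C.2))
    (hD : ∀ P ∈ p.support, ¬ (P.1 = D.1 ∧ D.2 < P.2))
    (h1 : A.1 < C.1) (h2 : D.1 < B.1) : ∃ P, P ∈ p.support ∧ P ∈ q.support := by
  by_contra hne
  push Not at hne
  have hCp : C ∉ p.support := fun h => hne C h q.start_mem_support
  have hBq : B ∉ q.support := hne B p.end_mem_support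
  have hs : side p C = side p D := side_walk' p q fun P hP => by
    refine ⟨fun h => hne P h hP, fun h => ?_, hA P hP⟩
    rcases h.2.lt_or_eq with h' | h'
    · exact hB P hP ⟨h.1, h'⟩
    · exact hBq ((show P = B from Prod.ext h.1 h'.symm) ▸ hP)
  obtain ⟨L, hL⟩ := exists_above p
  have hAL := abs_le.1 (hL A p.start_mem_support)
  have hBL := abs_le.1 (hL B p.end_mem_support)
  set M := max L (max |C.2| |D.2|) + 1 with hM
  have hLM : L < M := by have := le_max_left L (max |C.2| |D.2|); omega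
  have hCM : |C.2| < M := by
    have := le_max_right L (max |C.2| |D.2|); have := le_max_left |C.2| |D.2|; omega
  have hDM : |D.2| < M := by
    have := le_max_right L (max |C.2| |D.2|); have := le_max_right |C.2| |D.2|; omega
  rw [abs_lt] at hCM hDM
  obtain ⟨n, hn⟩ : ∃ n : ℕ, -M + n = C.2 := ⟨(C.2 + M).toNat, by omega⟩
  obtain ⟨k, hk⟩ : ∃ k : ℕ, D.2 + k = M := ⟨(M - D.2).toNat, by omega⟩
  have low : side p C = side p (C.1, -M) := by
    have h := side_column p C.1 (-M) n fun P hP ⟨e, _, h'⟩ => by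
      rcases lt_or_eq_of_le (h'.trans_eq hn) with h'' | h''
      · exact hC P hP ⟨e, h''⟩
      · exact hCp ((show P = C from Prod.ext e h'') ▸ hP)
    rwa [hn] at h
  have high : side p (D.1, M) = side p D := by
    have h := side_column p D.1 D.2 k fun P hP ⟨e, h', _⟩ => hD P hP ⟨e, h'⟩
    rwa [hk] at h
  have e1 : side p (C.1, -M) = 1 := by
    unfold side
    rw [cut_eq_zero p (Or.inr fun P hP => by have := abs_le.1 (hL P hP); dsimp only; omega)]
    unfold ind
    dsimp only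
    rw [if_neg (by omega), if_pos (by omega), zero_add, zero_add]
  have e2 : side p (D.1, M) = 0 := by
    unfold side
    rw [cut_eq_zero p (Or.inl fun P hP => by have := abs_le.1 (hL P hP); dsimp only; omega)]
    unfold ind
    dsimp only
    rw [if_neg (by omega), if_neg (by omega), zero_add, zero_add]
  rw [low, e1, ← high, e2] at hs
  exact one_ne_zero hs

namespace Axes

variable (ax : Axes) {A₀ C₀ W D : ℝ}

theorem coord_fst (y z : ℤ × ℤ) :
    (y.1 : ℝ) - z.1 = (ax.a y - ax.a z) * ax.v.1 + (ax.c y - ax.c z) * ax.w.1 := by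
  have h1 := congrArg Prod.fst (ax.rvec_eq y)
  have h2 := congrArg Prod.fst (ax.rvec_eq z)
  simp only [rvec, Prod.fst_add, Prod.smul_fst, smul_eq_mul] at h1 h2
  linarith

theorem vert_eq {y z : ℤ × ℤ} (h : y.1 = z.1) :
    ax.a y - ax.a z = -((y.2 : ℝ) - z.2) * (ax.w.1 / (ax.v.1 * ax.w.2 - ax.v.2 * ax.w.1)) ∧
    ax.c y - ax.c z = ((y.2 : ℝ) - z.2) * (ax.v.1 / (ax.v.1 * ax.w.2 - ax.v.2 * ax.w.1)) := by
  simp only [a, c, h]
  constructor <;> ring

/-- The meeting, for a given choice of the lower end of each walk. -/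
theorem meet_signed {A B C E : ℤ × ℤ} (p : grid.Walk A B) (q : grid.Walk C E) {σ τ : ℝ}
    (hσ : σ = 1 ∨ σ = -1) (hτ : τ = 1 ∨ τ = -1)
    (hσw : σ * (ax.w.1 / (ax.v.1 * ax.w.2 - ax.v.2 * ax.w.1)) ≤ 0)
    (hτv : 0 ≤ τ * (ax.v.1 / (ax.v.1 * ax.w.2 - ax.v.2 * ax.w.1)))
    (hA : σ * (ax.a A - A₀) ≤ -(D - ax.K)) (hB : D - ax.K ≤ σ * (ax.a B - A₀))
    (hC : τ * (ax.c C - C₀) ≤ -(D - ax.K)) (hE : D - ax.K ≤ τ * (ax.c E - C₀))
    (hp : ∀ P ∈ p.support, ax.Box A₀ C₀ W D P) (hq : ∀ P ∈ q.support, ax.swap.Box C₀ A₀ W D P)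
    (hD : W + ax.K < D) : ∃ P, P ∈ p.support ∧ P ∈ q.support := by
  have hq' : ∀ P ∈ q.support, |ax.a P - A₀| ≤ W ∧ |ax.c P - C₀| ≤ D + ax.K := fun P hP => by
    obtain ⟨h1, h2⟩ := hq P hP
    rw [ax.swap_c] at h1
    rw [ax.swap_a, ax.swap_K] at h2
    exact ⟨h1, h2⟩
  set ρ := ax.v.1 * ax.w.2 - ax.v.2 * ax.w.1 with hρ
  have sgn : ∀ {s x r : ℝ}, s = 1 ∨ s = -1 → |x| ≤ r → |s * x| ≤ r := fun {s x r} hs hx => by
    rcases hs with rfl | rfl <;> simpa using hx
  have hAb := abs_le.1 (sgn hσ (hp A p.start_mem_support).2)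
  have hBb := abs_le.1 (sgn hσ (hp B p.end_mem_support).2)
  have hCb := abs_le.1 (sgn hτ (hq' C q.start_mem_support).2)
  have hEb := abs_le.1 (sgn hτ (hq' E q.end_mem_support).2)
  have hA' : ∀ P ∈ q.support, ¬ (P.1 = A.1 ∧ P.2 < A.2) := fun P hP ⟨e, h'⟩ => by
    have h1 := (ax.vert_eq e).1
    have h2 := abs_le.1 (sgn hσ (hq' P hP).1)
    have : (P.2 : ℝ) - A.2 ≤ 0 := by
      have : (P.2 : ℝ) ≤ A.2 := by exact_mod_cast h'.le
      linarith
    have := mul_nonneg_of_nonpos_of_nonpos this hσw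
    have : σ * (ax.a P - A₀) = σ * (ax.a A - A₀) + σ * (ax.a P - ax.a A) := by ring
    rw [h1] at this
    linarith
  have hB' : ∀ P ∈ q.support, ¬ (P.1 = B.1 ∧ B.2 < P.2) := fun P hP ⟨e, h'⟩ => by
    have h1 := (ax.vert_eq e).1
    have h2 := abs_le.1 (sgn hσ (hq' P hP).1)
    have : 0 ≤ (P.2 : ℝ) - B.2 := by
      have : (B.2 : ℝ) ≤ P.2 := by exact_mod_cast h'.le
      linarith
    have := mul_nonpos_of_nonneg_of_nonpos this hσw
    have : σ * (ax.a P - A₀) = σ * (ax.a B - A₀) + σ * (ax.a P - ax.a B) := by ring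
    rw [h1] at this
    linarith
  have hC' : ∀ P ∈ p.support, ¬ (P.1 = C.1 ∧ P.2 < C.2) := fun P hP ⟨e, h'⟩ => by
    have h1 := (ax.vert_eq e).2
    have h2 := abs_le.1 (sgn hτ (hp P hP).1)
    have : (P.2 : ℝ) - C.2 ≤ 0 := by
      have : (P.2 : ℝ) ≤ C.2 := by exact_mod_cast h'.le
      linarith
    have := mul_nonpos_of_nonpos_of_nonneg this hτv
    have : τ * (ax.c P - C₀) = τ * (ax.c C - C₀) + τ * (ax.c P - ax.c C) := by ring
    rw [h1] at this
    linarith
  have hE' : ∀ P ∈ p.support, ¬ (P.1 = E.1 ∧ E.2 < P.2) := fun P hP ⟨e, h'⟩ => by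
    have h1 := (ax.vert_eq e).2
    have h2 := abs_le.1 (sgn hτ (hp P hP).1)
    have : 0 ≤ (P.2 : ℝ) - E.2 := by
      have : (E.2 : ℝ) ≤ P.2 := by exact_mod_cast h'.le
      linarith
    have := mul_nonneg this hτv
    have : τ * (ax.c P - C₀) = τ * (ax.c E - C₀) + τ * (ax.c P - ax.c E) := by ring
    rw [h1] at this
    linarith
  set κ := -σ * ax.v.1 + τ * ax.w.1 with hκ
  have hsame : -σ * ax.v.1 * (τ * ax.w.1) ≥ 0 := by
    have hne : 0 < ρ ^ 2 := by have := ax.indep; positivity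
    have h1 := mul_nonpos_of_nonpos_of_nonneg hσw hτv
    have h2 : σ * (ax.w.1 / ρ) * (τ * (ax.v.1 / ρ)) * ρ ^ 2 = σ * ax.w.1 * (τ * ax.v.1) := by
      have hr0 : ρ ≠ 0 := ax.indep
      field_simp
    have h3 := mul_nonpos_of_nonpos_of_nonneg h1 hne.le
    rw [h2] at h3
    linarith
  have hκabs : |κ| = |ax.v.1| + |ax.w.1| := by
    rw [hκ, (abs_add_eq_add_abs_iff _ _).2 (mul_nonneg_iff.1 hsame)]
    rcases hσ with rfl | rfl <;> rcases hτ with rfl | rfl <;> simp
  have hκ0 : 0 < |ax.v.1| + |ax.w.1| := by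
    by_contra h0
    have hv0 : ax.v.1 = 0 := abs_eq_zero.1 (le_antisymm (by linarith [abs_nonneg ax.w.1]) (abs_nonneg _))
    have hw0 : ax.w.1 = 0 := abs_eq_zero.1 (le_antisymm (by linarith [abs_nonneg ax.v.1]) (abs_nonneg _))
    exact ax.indep (by rw [hv0, hw0]; ring)
  have gap : ∀ {α γ α₀ γ₀ : ℝ}, |α - α₀| ≤ W + ax.K → |γ - γ₀| ≤ W + ax.K →
      |(α - α₀) * ax.v.1 + (γ - γ₀) * ax.w.1| < D * (|ax.v.1| + |ax.w.1|) := by
    intro α γ α₀ γ₀ h1 h2
    refine (abs_add_le _ _).trans_lt ?_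
    rw [abs_mul, abs_mul]
    have := mul_le_mul_of_nonneg_right h1 (abs_nonneg ax.v.1)
    have := mul_le_mul_of_nonneg_right h2 (abs_nonneg ax.w.1)
    have := mul_lt_mul_of_pos_right hD hκ0
    linarith
  obtain ⟨qC1, qC2⟩ := hq' C q.start_mem_support
  obtain ⟨qE1, qE2⟩ := hq' E q.end_mem_support
  rw [abs_le] at qC1 qE1
  obtain ⟨pA1, pA2⟩ := hp A p.start_mem_support
  obtain ⟨pB1, pB2⟩ := hp B p.end_mem_support
  rw [abs_le] at pA1 pB1
  have low : |(A.1 : ℝ) - C.1 - D * κ| < D * |κ| := by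
    rw [ax.coord_fst, hκabs, show (ax.a A - ax.a C) * ax.v.1 + (ax.c A - ax.c C) * ax.w.1 - D * κ =
      ((ax.a A - ax.a C) - -σ * D) * ax.v.1 + ((ax.c A - ax.c C) - τ * D) * ax.w.1 by rw [hκ]; ring]
    refine gap ?_ ?_ <;> rw [abs_le]
    · rcases hσ with rfl | rfl <;> constructor <;> linarith
    · rcases hτ with rfl | rfl <;> constructor <;> linarith
  have high : |(B.1 : ℝ) - E.1 + D * κ| < D * |κ| := by
    rw [ax.coord_fst, hκabs, show (ax.a B - ax.a E) * ax.v.1 + (ax.c B - ax.c E) * ax.w.1 + D * κ =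
      ((ax.a B - ax.a E) - σ * D) * ax.v.1 + ((ax.c B - ax.c E) - -τ * D) * ax.w.1 by rw [hκ]; ring]
    refine gap ?_ ?_ <;> rw [abs_le]
    · rcases hσ with rfl | rfl <;> constructor <;> linarith
    · rcases hτ with rfl | rfl <;> constructor <;> linarith
  rw [abs_lt] at low high
  rcases le_or_gt 0 κ with h0 | h0
  all_goals
    first | rw [abs_of_nonneg h0] at low high | rw [abs_of_neg h0] at low high
    first
      | exact meet_of_sides p q hA' hB' hC' hE' (by exact_mod_cast (show (A.1 : ℝ) < C.1 by linarith))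
          (by exact_mod_cast (show (E.1 : ℝ) < B.1 by linarith))
      | obtain ⟨P, h1, h2⟩ := meet_of_sides q p hC' hE' hA' hB'
          (by exact_mod_cast (show (C.1 : ℝ) < A.1 by linarith))
          (by exact_mod_cast (show (B.1 : ℝ) < E.1 by linarith))
        exact ⟨P, h2, h1⟩

/-- A crossing of the box along the first axis meets a crossing along the second. -/
theorem meet {u r u' r' : ℤ × ℤ} (p : grid.Walk u r) (q : grid.Walk u' r')
    (hu : ax.a u ≤ A₀ - D + ax.K) (hr : A₀ + D - ax.K ≤ ax.a r)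
    (hu' : ax.c u' ≤ C₀ - D + ax.K) (hr' : C₀ + D - ax.K ≤ ax.c r')
    (hp : ∀ P ∈ p.support, ax.Box A₀ C₀ W D P) (hq : ∀ P ∈ q.support, ax.swap.Box C₀ A₀ W D P)
    (hD : W + ax.K < D) : ∃ P, P ∈ p.support ∧ P ∈ q.support := by
  set ρ := ax.v.1 * ax.w.2 - ax.v.2 * ax.w.1
  rcases le_total (ax.w.1 / ρ) 0 with h1 | h1 <;> rcases le_total 0 (ax.v.1 / ρ) with h2 | h2
  · exact ax.meet_signed p q (σ := 1) (τ := 1) (Or.inl rfl) (Or.inl rfl) (by linarith) (by linarith)
      (by linarith) (by linarith) (by linarith) (by linarith) hp hq hD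
  · obtain ⟨P, a, b⟩ := ax.meet_signed p q.reverse (σ := 1) (τ := -1) (Or.inl rfl) (Or.inr rfl)
      (by linarith) (by linarith) (by linarith) (by linarith) (by linarith) (by linarith) hp
      (fun P hP => hq P (by simpa using hP)) hD
    exact ⟨P, a, by simpa using b⟩
  · obtain ⟨P, a, b⟩ := ax.meet_signed p.reverse q (σ := -1) (τ := 1) (Or.inr rfl) (Or.inl rfl)
      (by linarith) (by linarith) (by linarith) (by linarith) (by linarith) (by linarith)
      (fun P hP => hp P (by simpa using hP)) hq hD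
    exact ⟨P, by simpa using a, b⟩
  · obtain ⟨P, a, b⟩ := ax.meet_signed p.reverse q.reverse (σ := -1) (τ := -1) (Or.inr rfl) (Or.inr rfl)
      (by linarith) (by linarith) (by linarith) (by linarith) (by linarith) (by linarith)
      (fun P hP => hp P (by simpa using hP)) (fun P hP => hq P (by simpa using hP)) hD
    exact ⟨P, by simpa using a, by simpa using b⟩

end Axes

end Vale.Agent.P158.Facet
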