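import Mathlib
import Vale.Agent.P158.Facet.Basic
import Vale.Agent.P158.V4.TiltGain

/-!
P158 facets, cell: the tilt of the marks on finitely many edges, and the edges of a box that may
gain from it.
-/

namespace Vale.Agent.P158.Facet

open MeasureTheory Vale.Agent.P158.V4 Filter Topology
open scoped ENNReal Classical

theorem qf_nonneg {G : Measure ℝ} [IsProbabilityMeasure G] (hG : ∀ᵐ t ∂G, 0 < t) (x : ℝ) :
    0 ≤ qf G x := by
  by_cases hx : x ∈ Set.Ioo (0 : ℝ) 1
  · exact (qf_pos hG hx).le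
  · by_cases h1 : x = 1
    · subst h1
      rw [qf_eq_sInf]
      refine Real.sInf_nonneg fun t ht => not_lt.1 fun hlt => ?_
      have h0 : ProbabilityTheory.cdf G t = 0 := by
        rw [ProbabilityTheory.cdf_eq_real, measureReal_eq_zero_iff]
        refine measure_mono_null (fun s hs => ?_) hG
        exact not_lt.2 ((Set.mem_Iic.1 hs).trans hlt.le)
      simp only [Set.mem_ofPred_eq, h0] at ht
      linarith
    · exact (qf_of_notMem hx h1).ge

/-- The tilt by `δ` on the edges of `R`. -/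
noncomputable def lowerOn (q δ : ℝ) (R : Finset (Sym2 Pt)) (s : Marks) : Marks :=
  fun e => lower1 q (if e ∈ R then δ else 0) (s e)

variable {q δ : ℝ}

theorem ite_mem_half (hδ : δ ∈ Set.Icc (0 : ℝ) (1 / 2)) (R : Finset (Sym2 Pt)) (e : Sym2 Pt) :
    (if e ∈ R then δ else 0) ∈ Set.Icc (0 : ℝ) (1 / 2) := by
  split_ifs
  · exact hδ
  · constructor <;> norm_num

theorem measurable_lowerOn (R : Finset (Sym2 Pt)) : Measurable (lowerOn q δ R) :=
  measurable_pi_lambda _ fun e => (measurable_lower1 q _).comp (measurable_pi_apply e)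

/-- The tilted field is comparable with the field. -/
theorem sq_le_lowerOn (hq : q ∈ Set.Ioo (0 : ℝ) (1 / 4)) (hδ : δ ∈ Set.Icc (0 : ℝ) (1 / 2))
    (R : Finset (Sym2 Pt)) {X : Set Marks} (hX : MeasurableSet X) :
    markLaw.real (lowerOn q δ R ⁻¹' X) ^ 2 ≤
      Real.exp (densC q * (R.card * δ ^ 2)) * markLaw.real X := by
  set d : Sym2 Pt → ℝ := fun e => if e ∈ R then δ else 0 with hddef
  have hd : ∀ e, d e ∈ Set.Icc (0 : ℝ) (1 / 2) := ite_mem_half hδ R
  have : ∀ e, IsProbabilityMeasure (unitSquare.withDensity (dens0 q (d e))) := fun e => by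
    rw [← map_lower1_eq hq (hd e)]
    exact Measure.isProbabilityMeasure_map (measurable_lower1 q _).aemeasurable
  have hoff : ∀ e ∉ R, unitSquare.withDensity (dens0 q (d e)) = unitSquare := fun e he => by
    rw [show d e = 0 from if_neg he, show dens0 q 0 = fun _ : ℝ × ℝ => (1 : ℝ≥0∞) by
      funext y; simp [dens0]]
    exact withDensity_one
  have hmap : markLaw.map (lowerOn q δ R) =
      Measure.infinitePi fun e => unitSquare.withDensity (dens0 q (d e)) := by
    have h : ∀ e, unitSquare.withDensity (dens0 q (d e)) = unitSquare.map (lower1 q (d e)) := fun e =>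
      (map_lower1_eq hq (hd e)).symm
    simp only [h]
    exact Measure.infinitePi_map_pi _ fun e => measurable_lower1 q _
  have h := tilt_measure_le unitSquare R (fun e => dens0 q (d e)) (fun e => measurable_dens0 q _)
    (fun e => unitSquare.withDensity (dens0 q (d e))) (fun e _ => rfl) hoff
    Real.HolderConjugate.two_two X hX
  rw [← hmap, Measure.map_apply (measurable_lowerOn R) hX] at h
  have hprod : ∏ e ∈ R, ∫⁻ y, dens0 q (d e) y ^ (2 : ℝ) ∂unitSquare ≤
      ENNReal.ofReal (Real.exp (densC q * (R.card * δ ^ 2))) := by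
    refine (Finset.prod_le_prod' fun e _ => lintegral_dens0_sq hq (hd e)).trans ?_
    rw [← ENNReal.ofReal_prod_of_nonneg fun e _ => (Real.exp_pos _).le, ← Real.exp_sum]
    refine ENNReal.ofReal_le_ofReal (Real.exp_le_exp.2 (le_of_eq ?_))
    rw [Finset.sum_congr rfl fun e he => show densC q * d e ^ 2 = densC q * δ ^ 2 by
      simp [hddef, he], Finset.sum_const, nsmul_eq_mul]
    ring
  have h2 := h.trans (mul_le_mul' (ENNReal.rpow_le_rpow hprod (by norm_num)) le_rfl)
  rw [← ENNReal.mul_rpow_of_nonneg _ _ (by norm_num : (0 : ℝ) ≤ 1 / 2), one_div,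
    ENNReal.le_rpow_inv_iff two_pos] at h2
  have h3 := ENNReal.toReal_mono (ENNReal.mul_ne_top ENNReal.ofReal_ne_top (measure_ne_top _ _)) h2
  rw [ENNReal.toReal_mul, ENNReal.toReal_ofReal (Real.exp_pos _).le, ← ENNReal.toReal_rpow,
    show ((2 : ℝ)) = ((2 : ℕ) : ℝ) by norm_num, Real.rpow_natCast] at h3
  exact h3

/-- A mark low on some edge of a large set, unless with probability at most an eighth. -/
theorem none_low_le {T : Finset (Sym2 Pt)} (hδ : δ ∈ Set.Icc (0 : ℝ) 1) (hT : 30 ≤ T.card * δ) :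
    law unif {w | ∀ e ∈ T, δ ≤ w e} ≤ ENNReal.ofReal (1 / 8) := by
  refine (measure_mono fun w hw => ?_).trans ((few_marks (S := T) (δ := fun _ => δ)
    fun _ _ => hδ).trans (ENNReal.ofReal_le_ofReal ?_))
  · simp only [Set.mem_ofPred_eq, Finset.sum_const, nsmul_eq_mul]
    rw [Finset.sum_eq_zero fun e he => if_neg (not_lt.2 (hw e he))]
    linarith
  · simp only [Finset.sum_const, nsmul_eq_mul]
    refine le_trans (Real.exp_le_exp.2 (show -((T.card : ℝ) * δ) / 10 ≤ -3 by linarith)) ?_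
    rw [Real.exp_neg, show (3 : ℝ) = ((3 : ℕ) : ℝ) * 1 by norm_num, Real.exp_nat_mul,
      inv_le_iff_one_le_mul₀ (by positivity)]
    nlinarith [pow_le_pow_left₀ (by norm_num) (show (2 : ℝ) ≤ Real.exp 1 by
      linarith [Real.add_one_le_exp (1 : ℝ)]) 3]

/-- A large box is typical for the uniform marks. -/
theorem prob_cheap_box {c : ℝ} (hc : ∀ u n, law unif (Cheap u n c) ≤ ENNReal.ofReal (2 * (1 / 4) ^ n))
    (ρ : ℝ) (hρ : 0 < ρ) {L : ℝ} (hL : 0 < L) {ε : ℝ} (hε : 0 < ε) :
    ∀ᶠ W : ℝ in atTop, ∀ o : Pt,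
      law unif (⋃ v ∈ boxPts 1 (ρ * W) o, Cheap v ⌊W / L⌋₊ c) ≤ ENNReal.ofReal ε := by
  have hlim : Tendsto (fun W : ℝ => 50 * ρ ^ 2 * (W ^ 2 * (4 * Real.exp (-(W / L))))) atTop (𝓝 0) := by
    have h := (Real.tendsto_pow_mul_exp_neg_atTop_nhds_zero 2).comp
      (tendsto_id.atTop_div_const hL)
    have h2 := h.const_mul (50 * ρ ^ 2 * 4 * L ^ 2)
    rw [mul_zero] at h2
    refine h2.congr fun W => ?_
    simp only [Function.comp_apply, id]
    field_simp
  filter_upwards [hlim.eventually (eventually_le_nhds hε), eventually_ge_atTop (1 / ρ),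
    eventually_ge_atTop 0] with W hW hW1 hW0 o
  have hR : 1 ≤ ρ * W := by rwa [div_le_iff₀ hρ, mul_comm] at hW1
  refine (measure_biUnion_finset_le _ _).trans ((Finset.sum_le_sum fun v _ => hc v _).trans ?_)
  rw [Finset.sum_const, nsmul_eq_mul, ← ENNReal.ofReal_natCast, ← ENNReal.ofReal_mul (Nat.cast_nonneg _)]
  refine ENNReal.ofReal_le_ofReal ?_
  have hexp : ((1 : ℝ) / 4) ^ ⌊W / L⌋₊ ≤ 4 * Real.exp (-(W / L)) := by
    have h1 : ((1 : ℝ) / 4) ^ ⌊W / L⌋₊ = Real.exp (-(⌊W / L⌋₊ * Real.log 4)) := by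
      rw [Real.exp_neg, Real.exp_nat_mul, Real.exp_log (by norm_num), one_div, inv_pow]
    have h4 : 1 ≤ Real.log 4 := by
      rw [Real.le_log_iff_exp_le (by norm_num)]
      linarith [Real.exp_one_lt_d9]
    rw [h1]
    calc Real.exp (-(⌊W / L⌋₊ * Real.log 4)) ≤ Real.exp (1 + -(W / L)) := by
          refine Real.exp_le_exp.2 ?_
          have := Nat.lt_floor_add_one (W / L)
          have := le_mul_of_one_le_right (Nat.cast_nonneg (α := ℝ) ⌊W / L⌋₊) h4
          linarith
      _ ≤ 4 * Real.exp (-(W / L)) := by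
          rw [Real.exp_add]
          exact mul_le_mul_of_nonneg_right (by linarith [Real.exp_one_lt_d9]) (Real.exp_pos _).le
  calc ((boxPts 1 (ρ * W) o).card : ℝ) * (2 * (1 / 4) ^ ⌊W / L⌋₊)
      ≤ 25 * 1 * (ρ * W) ^ 2 * (2 * (4 * Real.exp (-(W / L)))) :=
        mul_le_mul (card_boxPts le_rfl hR o) (by linarith) (by positivity) (by positivity)
    _ = 50 * ρ ^ 2 * (W ^ 2 * (4 * Real.exp (-(W / L)))) := by ring
    _ ≤ ε := hW

end Vale.Agent.P158.Facet
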