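import Mathlib
import Vale.Agent.P158.Facet.CellMeet
import Vale.Agent.P158.Facet.CellTilt
import Vale.Agent.P158.V4.TimeConst

/-!
P158 facets: one cell. With probability bounded below, either one of the two crossings of the cell
has a defect of constant size, or a site at the far end of the second band has an almost optimal
route through the right part of the box.
-/

namespace Vale.Agent.P158.Facet

open MeasureTheory Vale.Agent.P158.V4 Filter Topology
open scoped ENNReal Classical

variable {G : Measure ℝ} [IsProbabilityMeasure G]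

/-- Off `Q`, a walk of the second band that climbs from the band of the first to the far end passes,
near that end, a site without an almost optimal route through the right part of the box. -/
def Escapes (ax : Axes) (A C W : ℝ) (P : ℤ × ℤ) (Q : Set (Sym2 (ℤ × ℤ) → ℝ)) : Prop :=
  ∀ x : Sym2 (ℤ × ℤ) → ℝ, (∀ e, 0 ≤ x e) → x ∉ Q → ∀ (z r : ℤ × ℤ) (π : grid.Walk z r),
    ax.c z ≤ C + W → C + 8 * W - ax.K ≤ ax.c r →
      (∀ y ∈ π.support, |ax.a y - A| ≤ W ∧ |ax.c y - C| ≤ 8 * W + ax.K) →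
        ∃ y ∈ π.support, C + 7 * W ≤ ax.c y ∧
          ∀ y', ax.Right A C W (8 * W) y' → tt x y P + 1 < tt x y y' + tt x y' P

/-- The slip set has the escape property. -/
theorem escapes_slip (ax : Axes) {A C W : ℝ} {P : ℤ × ℤ} (hW : ax.K ≤ W) :
    Escapes ax A C W P (Slip ax A C W (8 * W) P) := by
  intro x _ hx z r π _ hr hbox
  obtain ⟨ha, hc⟩ := hbox r π.end_mem_support
  rw [abs_le] at hc
  have hr' : |ax.c r - (C + 8 * W)| ≤ ax.K := abs_le.2 ⟨by linarith, by linarith⟩
  refine ⟨r, π.end_mem_support, by linarith [(abs_le.1 hr').1], fun y' hy' => ?_⟩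
  by_contra hle
  exact hx ⟨r, y', ha, hr', hy', not_lt.1 hle⟩

/-- The last visit of a set by a walk that leaves it. -/
theorem exists_last_step {u r : ℤ × ℤ} (p : grid.Walk u r) (Q : ℤ × ℤ → Prop) :
    (∃ x ∈ p.support, Q x) → ¬ Q r → ∃ (y z : ℤ × ℤ) (p₁ : grid.Walk u z) (p₂ : grid.Walk z r),
      p = p₁.append p₂ ∧ Q y ∧ grid.Adj y z ∧ ∀ x ∈ p₂.support, ¬ Q x := by
  induction p with
  | nil =>
    rintro ⟨x, hx, hQ⟩ hr
    rw [SimpleGraph.Walk.support_nil, List.mem_singleton] at hx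
    exact absurd (hx ▸ hQ) hr
  | @cons u v r hadj p ih =>
    rintro ⟨x, hx, hQ⟩ hr
    by_cases h : ∃ x ∈ p.support, Q x
    · obtain ⟨y, z, p₁, p₂, rfl, h'⟩ := ih h hr
      exact ⟨y, z, .cons hadj p₁, p₂, rfl, h'⟩
    · push Not at h
      rw [SimpleGraph.Walk.support_cons, List.mem_cons] at hx
      rcases hx with rfl | hx
      · exact ⟨x, v, .cons hadj .nil, p, rfl, hQ, hadj, h⟩
      · exact absurd hQ (h x hx)

/-- If one edge of the right piece of a good crossing is marked, then after the tilt either the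
other crossing has a large defect or the cell slips. -/
theorem flip (hG : ∀ᵐ t ∂G, 0 < t) (hatom : ∀ x, G {x} = 0) (ax : Axes) {A C W g q δ a : ℝ}
    {P : ℤ × ℤ} {Q : Set (Sym2 (ℤ × ℤ) → ℝ)} (hQ : Escapes ax A C W P Q) (hq : q ∈ Set.Ioo (0 : ℝ) (1 / 4)) (hδ : δ ∈ Set.Icc (0 : ℝ) (1 / 2)) (ha : 0 ≤ a)
    (ha2 : 2 * q ≤ a ^ 2) (hg : g = (qf G (2 * q) - qf G q) / 2) (hW : 2 * ax.K ≤ W)
    {R : Finset (Sym2 Pt)}
    (hR : ∀ e ∈ grid.edgeSet, (∀ z ∈ e, ax.Right A C W (8 * W) z) → e ∈ R)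
    (hR' : ∀ e ∈ R, ∀ z ∈ e, ax.Right A C W (8 * W) z)
    {s : Marks} (hs : ∀ e, (s e).1 ∈ Set.Ioo (0 : ℝ) 1 ∧ (s e).2 ∈ Set.Ioo (0 : ℝ) 1)
    {u z₀ r : ℤ × ℤ} (h₁ : grid.Walk u z₀) (h₂ : grid.Walk z₀ r) (hp : (h₁.append h₂).IsPath)
    (hu : ax.a u ≤ A - 8 * W + ax.K) (hr : A + 8 * W - ax.K ≤ ax.a r)
    (hbox : ∀ y ∈ (h₁.append h₂).support, ax.Box A C W (8 * W) y)
    (hdef : defect (cfg G s) P (h₁.append h₂) < g)
    (hright : ∀ y ∈ h₂.support, A + 2 * W ≤ ax.a y)
    {e₀ : Sym2 Pt} (he₀ : e₀ ∈ h₂.edges) (hm1 : a ≤ (s e₀).1) (hm2 : (s e₀).2 < δ) :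
    cfg G (lowerOn q δ R s) ∈
      (Cross ax.swap C A W (8 * W) g P)ᶜ ∪ Q := by
  have hK := ax.one_le_K
  set g₀ := qf G (2 * q) - qf G q with hg₀
  set ω := cfg G s with hω
  set x := cfg G (lowerOn q δ R s) with hx
  have hω0 : ∀ e, 0 ≤ ω e := fun e => qf_nonneg hG _
  have hx0 : ∀ e, 0 ≤ x e := fun e => qf_nonneg hG _
  have hsv : ∀ e, (if a ≤ (s e).1 ∧ (s e).2 < (if e ∈ R then δ else 0) then g₀ else 0) ≤ ω e - x e :=
    fun e => saving_bound hG hatom hq (ite_mem_half hδ R e) (hs e).1 ha ha2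
  have hg0 : 0 < g₀ := sub_pos.2 (strictMonoOn_qf hatom ⟨hq.1, by linarith [hq.2]⟩
    ⟨by linarith [hq.1], by linarith [hq.2]⟩ (by linarith [hq.1]))
  have hle : ∀ e, x e ≤ ω e := fun e => by
    have := hsv e
    split_ifs at this <;> linarith
  have heq : ∀ e, e ∉ R → x e = ω e := fun e he => by
    simp only [hx, hω, cfg, lowerOn, if_neg he, lower1_zero hq (hs e).2.1.le]
  have hin : ∀ {y y' : ℤ × ℤ} (p : grid.Walk y y'), (∀ z ∈ p.support, ¬ ax.Right A C W (8 * W) z) →
      wt x p = wt ω p := by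
    intro y y' p hz
    unfold wt
    refine congrArg List.sum (List.map_congr_left fun e he => heq e fun heR => ?_)
    induction e using Sym2.ind with
    | _ c c' => exact hz c (p.fst_mem_support_of_mem_edges he) (hR' _ heR c (Sym2.mem_mk_left _ _))
  have hmono : ∀ {y y' : ℤ × ℤ} (p : grid.Walk y y'), wt x p ≤ wt ω p := fun p =>
    List.sum_le_sum fun e _ => hle e
  have htt : ∀ y y', tt x y y' ≤ tt ω y y' := fun y y' =>
    le_tt fun p => (tt_le hx0 p).trans (hmono p)
  have hsave : wt x h₂ + g₀ ≤ wt ω h₂ := by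
    have hnd := hp.of_append_right.isTrail.edges_nodup
    have he₀R : e₀ ∈ R := by
      refine hR e₀ (h₂.edges_subset_edgeSet he₀) fun z hz => ?_
      have hzs : z ∈ h₂.support := by
        induction e₀ using Sym2.ind with
        | _ c c' =>
          rcases Sym2.mem_iff.1 hz with rfl | rfl
          · exact h₂.fst_mem_support_of_mem_edges he₀
          · exact h₂.snd_mem_support_of_mem_edges he₀
      exact ⟨hbox z ((SimpleGraph.Walk.mem_support_append_iff h₁ h₂).2 (Or.inr hzs)),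
        by linarith [hright z hzs]⟩
    have h0 : g₀ ≤ ω e₀ - x e₀ := by
      have := hsv e₀
      rwa [if_pos he₀R, if_pos ⟨hm1, hm2⟩] at this
    have hsum : wt ω h₂ - wt x h₂ = ∑ e ∈ h₂.edges.toFinset, (ω e - x e) := by
      rw [Finset.sum_sub_distrib, List.sum_toFinset ω hnd, List.sum_toFinset x hnd]; rfl
    linarith [Finset.single_le_sum (f := fun e => ω e - x e) (fun e _ => sub_nonneg.2 (hle e))
      (List.mem_toFinset.2 he₀)]
  by_cases hslip : x ∈ Q
  · exact Or.inr hslip
  refine Or.inl ?_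
  rintro ⟨u', r', π, hu', hr', hπbox, hπ⟩
  rw [ax.swap_a, ax.swap_K] at hu' hr'
  have hπbox' : ∀ y ∈ π.support, |ax.a y - A| ≤ W ∧ |ax.c y - C| ≤ 8 * W + ax.K := fun y hy => by
    obtain ⟨k1, k2⟩ := hπbox y hy
    rw [ax.swap_c] at k1
    rw [ax.swap_a, ax.swap_K] at k2
    exact ⟨k1, k2⟩
  obtain ⟨z, hz, hzπ⟩ := ax.meet (h₁.append h₂) π hu hr hu' hr' hbox hπbox (by linarith)
  have haz := abs_le.1 (hπbox' z hzπ).1
  have hz₁ : z ∈ h₁.support := by
    rcases (SimpleGraph.Walk.mem_support_append_iff h₁ h₂).1 hz with h | h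
    · exact h
    · linarith [hright z h]
  have hπR : ∀ y ∈ π.support, ¬ ax.Right A C W (8 * W) y := fun y hy hR1 => by
    linarith [(abs_le.1 (hπbox' y hy).1).2, hR1.2]
  obtain ⟨y, hy, -, hesc⟩ := hQ x hx0 hslip z r' (π.dropUntil z hzπ)
    (by linarith [(abs_le.1 (hbox z hz).1).2])
    hr'
    fun w hw => hπbox' w (SimpleGraph.Walk.support_dropUntil_subset_support π hzπ hw)
  set π₁ := (π.dropUntil z hzπ).takeUntil y hy
  have htop : tt ω y P ≤ tt x y P := by
    refine le_of_forall_pos_le_add fun η hη => ?_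
    obtain ⟨p, hpw⟩ := exists_lt_of_ciInf_lt (show tt x y P < tt x y P + min η 1 by
      linarith [lt_min hη one_pos])
    have hav : ∀ w ∈ p.support, ¬ ax.Right A C W (8 * W) w := fun w hw hR1 => by
      have h := hesc w hR1
      have := tt_le hx0 (p.takeUntil w hw)
      have := tt_le hx0 (p.dropUntil w hw)
      have e := wt_append (ω := x) (p.takeUntil w hw) (p.dropUntil w hw)
      rw [SimpleGraph.Walk.take_spec] at e
      linarith [min_le_right η 1]
    have := tt_le hω0 p
    rw [← hin p hav] at this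
    linarith [min_le_left η 1]
  have e2 : defect x P π = defect x P (π.takeUntil z hzπ) + defect x P (π.dropUntil z hzπ) := by
    rw [← defect_append, SimpleGraph.Walk.take_spec]
  have e3 : defect ω P (h₁.append h₂) = defect ω P (h₁.takeUntil z hz₁) +
      defect ω P ((h₁.dropUntil z hz₁).append h₂) := by
    rw [← defect_append, SimpleGraph.Walk.append_assoc, SimpleGraph.Walk.take_spec]
  have d1 := defect_nonneg hx0 P (π.takeUntil z hzπ)
  have d2 := defect_nonneg hω0 P (h₁.takeUntil z hz₁)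
  have hdrop : wt x π₁ = wt ω π₁ := hin _ fun w hw => hπR w
    (SimpleGraph.Walk.support_dropUntil_subset_support π hzπ (SimpleGraph.Walk.support_takeUntil_subset_support _ hy hw))
  have e4 : defect x P (π.dropUntil z hzπ) =
      defect x P π₁ + defect x P ((π.dropUntil z hzπ).dropUntil y hy) := by
    rw [← defect_append, SimpleGraph.Walk.take_spec]
  have d3 := defect_nonneg hx0 P ((π.dropUntil z hzπ).dropUntil y hy)
  have t1 := tt_triangle hx0 z r P
  have t2 := tt_le hx0 ((h₁.dropUntil z hz₁).append h₂)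
  have t3 := tt_triangle hω0 z y P
  have t4 := tt_le hω0 π₁
  have t5 := hmono (h₁.dropUntil z hz₁)
  have t6 := htt r P
  simp only [defect, wt_append] at t2 e3 e2 e4 d1 d2 d3 hdef hπ
  rw [hdrop] at e4
  linarith

/-- The cell lemma, for any escape set in place of the slip set. -/
theorem cell_of_escapes (hG : ∀ᵐ t ∂G, 0 < t) (hatom : ∀ x, G {x} = 0) (ax : Axes) :
    ∃ g > 0, ∃ κ > 0, ∀ᶠ W : ℝ in atTop, ∀ (A C : ℝ) (P : ℤ × ℤ) (Q : Set (Sym2 (ℤ × ℤ) → ℝ)),
      MeasurableSet Q → Escapes ax A C W P Q →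
        κ ≤ (law G).real (Cross ax A C W (8 * W) g P)ᶜ +
          (law G).real (Cross ax.swap C A W (8 * W) g P)ᶜ + (law G).real Q := by
  obtain ⟨c₀, hc₀, hcheap⟩ := exists_cheap_rate unif (ae_unif.mono fun t ht => ht.1)
  set a := min (c₀ / 2) (1 / 2) with ha
  have ha0 : 0 < a := lt_min (half_pos hc₀) one_half_pos
  have hac : 2 * a ≤ c₀ := by linarith [min_le_left (c₀ / 2) (1 / 2)]
  set q := min (1 / 8) (a ^ 2 / 2) with hqdef
  have hq : q ∈ Set.Ioo (0 : ℝ) (1 / 4) :=
    ⟨lt_min (by norm_num) (by positivity), (min_le_left _ _).trans_lt (by norm_num)⟩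
  have hqa : 2 * q ≤ a ^ 2 := by linarith [min_le_right (1 / 8) (a ^ 2 / 2)]
  have hg0 : 0 < (qf G (2 * q) - qf G q) / 2 := half_pos (sub_pos.2 (strictMonoOn_qf hatom
    ⟨hq.1, by linarith [hq.2]⟩ ⟨by linarith [hq.1], by linarith [hq.2]⟩ (by linarith [hq.1])))
  have hK := ax.one_le_K
  set A₀ := 30 * ax.K / a with hA₀
  have hA0 : 0 < A₀ := by positivity
  set ρ := 9 * (|ax.v.1| + |ax.v.2| + |ax.w.1| + |ax.w.2|) + 1 with hρ
  have hρ0 : 0 < ρ := by positivity
  set E₀ := Real.exp (densC q * (100 * ρ ^ 2 * A₀ ^ 2)) with hE₀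
  refine ⟨_, hg0, min (1 / 2) (1 / (16 * E₀)), lt_min one_half_pos (by positivity), ?_⟩
  filter_upwards [prob_cheap_box hcheap ρ hρ0 (show 0 < ax.K by linarith) (show (0 : ℝ) < 1 / 8 by norm_num),
    eventually_ge_atTop (2 * A₀), eventually_ge_atTop (2 * ax.K), eventually_ge_atTop 2]
    with W htyp hW1 hW2 hW3 A C P Q hQm hQ
  set g := (qf G (2 * q) - qf G q) / 2 with hg
  set X := Cross ax A C W (8 * W) g P with hX
  set Y := (Cross ax.swap C A W (8 * W) g P)ᶜ ∪ Q with hY
  have hXm : MeasurableSet X := measurableSet_cross ..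
  have hYm : MeasurableSet Y := (measurableSet_cross ..).compl.union hQm
  have hc := measureReal_compl (μ := law G) hXm
  rw [probReal_univ] at hc
  have hSn : 0 ≤ (law G).real Q := measureReal_nonneg
  have hCn : 0 ≤ (law G).real (Cross ax.swap C A W (8 * W) g P)ᶜ := measureReal_nonneg
  by_cases hhalf : (law G).real X ≤ 1 / 2
  · linarith [min_le_left (1 / 2 : ℝ) (1 / (16 * E₀))]
  set o : Pt := (⌊A * ax.v.1 + C * ax.w.1⌋, ⌊A * ax.v.2 + C * ax.w.2⌋)
  have hball : ∀ z, ax.Box A C W (8 * W) z → z ∈ boxPts 1 (ρ * W) o := by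
    rintro z ⟨hzc, hza⟩
    have hr := ax.rvec_eq z
    have h1 := congrArg Prod.fst hr
    have h2 := congrArg Prod.snd hr
    simp only [rvec, Prod.fst_add, Prod.snd_add, Prod.smul_fst, Prod.smul_snd, smul_eq_mul] at h1 h2
    have key : ∀ (t v w : ℝ) (k : ℤ), t = ax.a z * v + ax.c z * w → k = ⌊A * v + C * w⌋ →
        |v| + |w| ≤ |ax.v.1| + |ax.v.2| + |ax.w.1| + |ax.w.2| → |t - k| ≤ ρ * W := by
      intro t v w k ht hk hvw
      have f1 := Int.floor_le (A * v + C * w)
      have f2 := Int.lt_floor_add_one (A * v + C * w)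
      rw [← hk] at f1 f2
      have b1 : |(ax.a z - A) * v + (ax.c z - C) * w| ≤ 9 * W * (|v| + |w|) := by
        refine (abs_add_le _ _).trans ?_
        rw [abs_mul, abs_mul]
        have := mul_le_mul_of_nonneg_right (hza.trans (show 8 * W + ax.K ≤ 9 * W by linarith)) (abs_nonneg v)
        have := mul_le_mul_of_nonneg_right (hzc.trans (show W ≤ 9 * W by linarith)) (abs_nonneg w)
        linarith
      have b2 := mul_le_mul_of_nonneg_left hvw (show 0 ≤ 9 * W by linarith)
      rw [abs_le] at b1 ⊢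
      rw [hρ]
      constructor <;> linarith
    refine mem_boxPts_of_le (r := 0) le_rfl (max_le (max_le ?_ ?_) (by positivity))
    · push_cast
      exact key _ ax.v.2 ax.w.2 _ h2 rfl (by linarith [abs_nonneg ax.v.1, abs_nonneg ax.w.1])
    · rw [div_one]
      push_cast
      exact key _ ax.v.1 ax.w.1 _ h1 rfl (by linarith [abs_nonneg ax.v.2, abs_nonneg ax.w.2])
  set R := (boxEdges 1 (ρ * W) o).filter fun e => ∀ z ∈ e, ax.Right A C W (8 * W) z with hRdef
  have hR : ∀ e ∈ grid.edgeSet, (∀ z ∈ e, ax.Right A C W (8 * W) z) → e ∈ R := by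
    intro e he hz
    refine Finset.mem_filter.2 ⟨?_, hz⟩
    induction e using Sym2.ind with
    | _ c c' =>
      obtain ⟨d, rfl⟩ := exists_step (SimpleGraph.mem_edgeSet grid |>.1 he)
      exact Finset.mem_image.2 ⟨(c, d), Finset.mem_product.2
        ⟨hball c (hz c (Sym2.mem_mk_left _ _)).1, Finset.mem_univ _⟩, rfl⟩
  have hR' : ∀ e ∈ R, ∀ z ∈ e, ax.Right A C W (8 * W) z := fun e he => (Finset.mem_filter.1 he).2
  set δ := A₀ / W with hδdef
  have hδ : δ ∈ Set.Icc (0 : ℝ) (1 / 2) :=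
    ⟨by positivity, by rw [hδdef, div_le_iff₀ (by linarith)]; linarith⟩
  have hcard : (R.card : ℝ) * δ ^ 2 ≤ 100 * ρ ^ 2 * A₀ ^ 2 := by
    have hρ1 : 1 ≤ ρ := by
      linarith [abs_nonneg ax.v.1, abs_nonneg ax.v.2, abs_nonneg ax.w.1, abs_nonneg ax.w.2]
    have hρW : 1 ≤ ρ * W := one_le_mul_of_one_le_of_one_le hρ1 (by linarith)
    have h1 : (R.card : ℝ) ≤ 100 * 1 * (ρ * W) ^ 2 :=
      (Nat.cast_le.2 (Finset.card_filter_le _ _)).trans (card_boxEdges le_rfl hρW o)
    refine (mul_le_mul_of_nonneg_right h1 (sq_nonneg δ)).trans_eq ?_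
    have : W ≠ 0 := by linarith
    rw [hδdef]
    field_simp
  have hcfg : Measurable (cfg G) :=
    measurable_pi_lambda _ fun e => measurable_qf.comp ((measurable_pi_apply e).fst)
  set F := lowerOn q δ R ⁻¹' (cfg G ⁻¹' Y) with hF
  have hFm : MeasurableSet F := measurable_lowerOn R (hcfg hYm)
  have hmiss : markLaw.real (cfg G ⁻¹' X \ F) ≤ 1 / 4 := by
    have hM : MeasurableSet (V4.join ⁻¹' (cfg G ⁻¹' X \ F)) := measurable_join ((hcfg hXm).diff hFm)
    refine ENNReal.toReal_le_of_le_ofReal (by norm_num) ?_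
    rw [← map_join, Measure.map_apply measurable_join ((hcfg hXm).diff hFm), Measure.prod_apply hM]
    set T := ⋃ v ∈ boxPts 1 (ρ * W) o, Cheap v ⌊W / ax.K⌋₊ c₀ with hT
    set T' := toMeasurable (law unif) T
    have hmarks : ∀ᵐ U ∂law unif, ∀ e, U e ∈ Set.Ioo (0 : ℝ) 1 :=
      law_all unif measurableSet_Ioo ae_unif
    calc ∫⁻ U, law unif (Prod.mk U ⁻¹' (V4.join ⁻¹' (cfg G ⁻¹' X \ F))) ∂law unif
        ≤ ∫⁻ U, (ENNReal.ofReal (1 / 8) + T'.indicator 1 U) ∂law unif := by
          refine lintegral_mono_ae (hmarks.mono fun U hU => ?_)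
          by_cases hUT : U ∈ T'
          · rw [Set.indicator_of_mem hUT, Pi.one_apply]
            exact le_add_left prob_le_one
          rw [Set.indicator_of_notMem hUT, add_zero]
          by_cases hUX : (fun e => qf G (U e)) ∈ X
          swap
          · refine le_of_eq_of_le ?_ zero_le
            rw [Set.eq_empty_of_forall_notMem (s := Prod.mk U ⁻¹' (V4.join ⁻¹' (cfg G ⁻¹' X \ F)))
              fun w hw => hUX hw.1, measure_empty]
          obtain ⟨u, r, h, hu, hr, hbox, hdef⟩ := hUX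
          have hω0 : ∀ e, 0 ≤ qf G (U e) := fun e => qf_nonneg hG _
          have hdef' : defect (fun e => qf G (U e)) P h.bypass < g := by
            have := wt_bypass_le hω0 h
            simp only [defect] at hdef ⊢
            linarith
          obtain ⟨y, z₀, h₁, h₂, hsplit, hy, hadj, hlast⟩ := exists_last_step h.bypass
            (fun z => ax.a z < A + 2 * W) ⟨u, SimpleGraph.Walk.start_mem_support _, by linarith⟩ (by linarith)
          have hpath : (h₁.append h₂).IsPath := hsplit ▸ h.bypass_isPath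
          have hbox' : ∀ z ∈ (h₁.append h₂).support, ax.Box A C W (8 * W) z := fun z hz =>
            hbox z (h.support_bypass_subset_support (hsplit ▸ hz))
          have hz₀ : ax.a z₀ ≤ A + 2 * W + ax.K := by linarith [(abs_le.1 (ax.adj_le hadj).1).1]
          have hlen : W / ax.K ≤ (h₂.length : ℝ) := by
            rw [div_le_iff₀ (by linarith), mul_comm]
            have := (abs_le.1 (ax.abs_sub_le r z₀).1).2
            have h' : (l1 r z₀ : ℝ) ≤ h₂.length := by
              rw [← h₂.length_reverse]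
              exact_mod_cast l1_le_length h₂.reverse
            have := mul_le_mul_of_nonneg_left h' (show 0 ≤ ax.K by linarith)
            linarith
          have hnc : U ∉ Cheap z₀ ⌊W / ax.K⌋₊ c₀ := fun hh => hUT (subset_toMeasurable _ _
            (Set.mem_biUnion (hball z₀ (hbox' z₀ ((SimpleGraph.Walk.mem_support_append_iff h₁ h₂).2
              (Or.inr h₂.start_mem_support)))) hh))
          have hgood := many_good (fun e => (hU e).2.le) ha0.le hac h₂ hpath.of_append_right
            (not_cheap hnc h₂ hpath.of_append_right (Nat.floor_le_of_le hlen))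
          set S := h₂.edges.toFinset.filter fun e => a ≤ U e with hS
          have h30 : 30 ≤ (S.card : ℝ) * δ := by
            have h' : a * (W / ax.K) ≤ S.card := (mul_le_mul_of_nonneg_left hlen ha0.le).trans hgood
            refine le_trans (le_of_eq ?_) (mul_le_mul_of_nonneg_right h' hδ.1)
            have : W ≠ 0 := by linarith
            rw [hδdef, hA₀]
            field_simp
          refine le_trans (measure_mono_ae ?_) (none_low_le ⟨hδ.1, hδ.2.trans (by norm_num)⟩ h30)
          filter_upwards [hmarks] with w hw hwM e he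
          obtain ⟨he, hae⟩ := Finset.mem_filter.1 he
          by_contra hlt
          exact hwM.2 (flip hG hatom ax hQ hq hδ ha0.le hqa rfl hW2 hR hR' (s := V4.join (U, w))
            (fun e => ⟨hU e, hw e⟩) h₁ h₂ hpath hu hr hbox'
            (show defect (fun e => qf G (U e)) P (h₁.append h₂) < g from hsplit ▸ hdef')
            (fun z hz => not_lt.1 (hlast z hz)) (List.mem_toFinset.1 he) hae (not_le.1 hlt))
      _ = ENNReal.ofReal (1 / 8) + law unif T' := by
          rw [lintegral_add_left measurable_const, lintegral_const, measure_univ, mul_one,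
            lintegral_indicator_one (measurableSet_toMeasurable _ _)]
      _ ≤ ENNReal.ofReal (1 / 4) := by
          rw [measure_toMeasurable]
          refine (add_le_add le_rfl (htyp o)).trans_eq ?_
          rw [← ENNReal.ofReal_add (by norm_num) (by norm_num)]
          norm_num
  have hXp : markLaw.real (cfg G ⁻¹' X) = (law G).real X := by
    rw [← map_measureReal_apply hcfg hXm, map_cfg]
  have hYp : markLaw.real (cfg G ⁻¹' Y) = (law G).real Y := by
    rw [← map_measureReal_apply hcfg hYm, map_cfg]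
  have hFp : 1 / 4 ≤ markLaw.real F := by
    have := measureReal_mono (μ := markLaw)
      (show cfg G ⁻¹' X ⊆ (cfg G ⁻¹' X \ F) ∪ F from fun s hs => by
        by_cases h : s ∈ F
        · exact Or.inr h
        · exact Or.inl ⟨hs, h⟩)
    have := measureReal_union_le (μ := markLaw) (cfg G ⁻¹' X \ F) F
    linarith
  have hsq := sq_le_lowerOn hq hδ R (hcfg hYm)
  rw [hYp, ← hF] at hsq
  have hC0 : 0 ≤ densC q := by unfold densC; positivity
  have hle : Real.exp (densC q * (R.card * δ ^ 2)) ≤ E₀ :=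
    Real.exp_le_exp.2 (mul_le_mul_of_nonneg_left hcard hC0)
  have hY16 : 1 / (16 * E₀) ≤ (law G).real Y := by
    rw [div_le_iff₀ (by positivity)]
    have := pow_le_pow_left₀ (by norm_num) hFp 2
    have := mul_le_mul_of_nonneg_right hle (measureReal_nonneg (μ := law G) (s := Y))
    linarith
  have hYle := measureReal_union_le (μ := law G) (Cross ax.swap C A W (8 * W) g P)ᶜ
    Q
  have hXn : 0 ≤ (law G).real Xᶜ := measureReal_nonneg
  rw [← hY] at hYle
  linarith [min_le_right (1 / 2 : ℝ) (1 / (16 * E₀))]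

/-- The cell lemma. -/
theorem cell {b : ℝ} (hG : ∀ᵐ t ∂G, 0 < t ∧ t ≤ b) (hatom : ∀ x, G {x} = 0) (ax : Axes) :
    ∃ g > 0, ∃ κ > 0, ∀ᶠ W : ℝ in atTop, ∀ (A C : ℝ) (P : ℤ × ℤ),
      κ ≤ (law G).real (Cross ax A C W (8 * W) g P)ᶜ +
        (law G).real (Cross ax.swap C A W (8 * W) g P)ᶜ + (law G).real (Slip ax A C W (8 * W) P) := by
  obtain ⟨g, hg, κ, hκ, h⟩ := cell_of_escapes (hG.mono fun t ht => ht.1) hatom ax
  refine ⟨g, hg, κ, hκ, ?_⟩
  filter_upwards [h, eventually_ge_atTop ax.K] with W hW hK A C P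
  exact hW A C P _ (measurableSet_slip ..) (escapes_slip ax hK)

end Vale.Agent.P158.Facet
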