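import Mathlib
import Vale.Agent.P158.Facet.Pair

/-!
P158 facets: near-optimal routes rarely leave the band of a line or pass beside a cell on their way to
the target.
-/

namespace Vale.Agent.P158.Facet

open MeasureTheory Filter Topology Vale.Agent.P158.V4

variable {G : Measure ℝ} [IsProbabilityMeasure G] {b : ℝ}

theorem Axes.l1_fl (ax : Axes) (z : ℤ × ℤ) (s t : ℝ) :
    (l1 z (fl (s • ax.v + t • ax.w)) : ℝ) ≤
      (|ax.v.1| + |ax.v.2| + |ax.w.1| + |ax.w.2|) * (|ax.a z - s| + |ax.c z - t|) + 2 := by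
  refine (l1_fl_le _ _).trans (add_le_add ?_ le_rfl)
  rw [ax.rvec_eq z]
  simp only [Prod.fst_add, Prod.snd_add, Prod.smul_fst, Prod.smul_snd, smul_eq_mul]
  set P := ax.a z - s
  set Q := ax.c z - t
  rw [show ax.a z * ax.v.1 + ax.c z * ax.w.1 - (s * ax.v.1 + t * ax.w.1) = P * ax.v.1 + Q * ax.w.1 by ring,
    show ax.a z * ax.v.2 + ax.c z * ax.w.2 - (s * ax.v.2 + t * ax.w.2) = P * ax.v.2 + Q * ax.w.2 by ring]
  have a1 := abs_add_le (P * ax.v.1) (Q * ax.w.1)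
  have a2 := abs_add_le (P * ax.v.2) (Q * ax.w.2)
  simp only [abs_mul] at a1 a2
  nlinarith [abs_nonneg P, abs_nonneg Q, abs_nonneg ax.v.1, abs_nonneg ax.v.2, abs_nonneg ax.w.1, abs_nonneg ax.w.2]

theorem Axes.l1_le (ax : Axes) (u z : ℤ × ℤ) : (l1 u z : ℝ) ≤
    (|ax.v.1| + |ax.v.2| + |ax.w.1| + |ax.w.2|) * (|ax.a z - ax.a u| + |ax.c z - ax.c u|) := by
  rw [l1_cast]
  have e1 := congrArg Prod.fst (ax.rvec_eq (z - u))
  have e2 := congrArg Prod.snd (ax.rvec_eq (z - u))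
  simp only [rvec, Prod.fst_sub, Prod.snd_sub, Int.cast_sub, Prod.fst_add, Prod.snd_add, Prod.smul_fst,
    Prod.smul_snd, smul_eq_mul, ax.a_sub, ax.c_sub] at e1 e2
  rw [abs_sub_comm (u.1 : ℝ), abs_sub_comm (u.2 : ℝ), e1, e2]
  set P := ax.a z - ax.a u
  set Q := ax.c z - ax.c u
  have a1 := abs_add_le (P * ax.v.1) (Q * ax.w.1)
  have a2 := abs_add_le (P * ax.v.2) (Q * ax.w.2)
  simp only [abs_mul] at a1 a2
  nlinarith [abs_nonneg P, abs_nonneg Q, abs_nonneg ax.v.1, abs_nonneg ax.v.2, abs_nonneg ax.w.1, abs_nonneg ax.w.2]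

/-- Markov's bound for an event forcing an error to be large. -/
theorem prob_le {S : (Sym2 (ℤ × ℤ) → ℝ) → ℝ} (h0 : ∀ ω, 0 ≤ S ω) (hi : Integrable S (law G)) {T ε : ℝ}
    (hT : 0 < T) (hm : ∫ ω, S ω ∂law G ≤ ε * T) {E : Set (Sym2 (ℤ × ℤ) → ℝ)} (hE : MeasurableSet E)
    (h : ∀ᵐ ω ∂law G, ω ∈ E → T ≤ S ω) : (law G).real E ≤ ε := by
  have h1 : ∫ ω, E.indicator (fun _ => T) ω ∂law G ≤ ∫ ω, S ω ∂law G := by
    refine integral_mono_ae ((integrable_const _).indicator hE) hi ?_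
    filter_upwards [h] with ω hω
    by_cases hm : ω ∈ E
    · rw [Set.indicator_of_mem hm]; exact hω hm
    · rw [Set.indicator_of_notMem hm]; exact h0 ω
  rw [integral_indicator hE, setIntegral_const, smul_eq_mul] at h1
  exact le_of_mul_le_mul_right (h1.trans hm) hT

theorem abs_dev_le2 (hG : ∀ᵐ t ∂G, 0 < t ∧ t ≤ b) {ω : Sym2 (ℤ × ℤ) → ℝ} (hω : ∀ e, 0 < ω e ∧ ω e ≤ b)
    (u y u' y' : ℤ × ℤ) :
    |tt ω u y - mean G (y - u)| ≤ |tt ω u' y' - mean G (y' - u')| + 2 * b * ((l1 u u' : ℝ) + l1 y y') := by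
  have hω0 : ∀ e, 0 ≤ ω e := fun e => (hω e).1.le
  have sym : ∀ p q : ℤ × ℤ, tt ω p q - mean G (q - p) = tt ω q p - mean G (p - q) := fun p q => by
    rw [tt_comm hω0 p q, ← mean_neg G hG (p - q), neg_sub]
  have h1 := abs_dev_le G hG hω u y y'
  have h2 := abs_dev_le G hG hω y' u u'
  rw [sym y' u, sym y' u'] at h2
  linarith

theorem exists_exc2 (hG : ∀ᵐ t ∂G, 0 < t ∧ t ≤ b) {ι : Type*} (R : Finset ι) (u r : ι → ℤ × ℤ) {θ V : ℝ}
    (hθ : 0 < θ) (hV : ∀ i ∈ R, ∫ ω, (tt ω (u i) (r i) - mean G (r i - u i)) ^ 2 ∂law G ≤ V) :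
    ∃ S : (Sym2 (ℤ × ℤ) → ℝ) → ℝ, (∀ ω, 0 ≤ S ω) ∧ Integrable S (law G) ∧
      ∫ ω, S ω ∂law G ≤ R.card * (V / (4 * θ)) ∧
      ∀ ω, ∀ i ∈ R, |tt ω (u i) (r i) - mean G (r i - u i)| ≤ θ + S ω := by
  refine ⟨fun ω => ∑ i ∈ R, exc G θ (u i) (r i) ω, fun ω => Finset.sum_nonneg fun i _ => exc_nonneg G _ _ _ _,
    integrable_finsetSum _ fun i _ => exc_integrable G hG _ _ _, ?_, fun ω i hi => ?_⟩
  · rw [integral_finsetSum _ fun i _ => exc_integrable G hG _ _ _, ← nsmul_eq_mul]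
    refine Finset.sum_le_card_nsmul _ _ _ fun i hi => (integral_exc_le G hG hθ _ _).trans ?_
    exact div_le_div_of_nonneg_right (hV i hi) (by linarith)
  · have h : exc G θ (u i) (r i) ω ≤ ∑ j ∈ R, exc G θ (u j) (r j) ω :=
      Finset.single_le_sum (fun j _ => exc_nonneg G _ _ _ _) hi
    have := le_max_right (0 : ℝ) (|tt ω (u i) (r i) - mean G (r i - u i)| - θ)
    simp only [exc] at h ⊢
    linarith

/-- The final comparison for a site outside the band. -/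
theorem stray_algebra {xz L η W k T S S3 C n B m : ℝ} (hk : 0 < k) (hη : 0 < η) (hη1 : η ≤ 1 / 8) (hη2 : η ≤ k / 8)
    (hW : 0 ≤ W) (hL : 2 * k * W - B ≤ L) (hxz : n - B ≤ xz) (hm : m ≤ n + k / 4 * W + B)
    (hT : T ≤ m + k / 8 * W + S3) (hC : 3 * n ≤ C * n) (hn : k * W + 8 * B ≤ n) (hB : 8 * B + 2 ≤ k * W) (hB0 : 0 ≤ B)
    (h : min (xz + (1 - η) * L - 2 * η * W) (C * n) - S ≤ T + 1) : k / 8 * W ≤ S + S3 := by
  rcases min_choice (xz + (1 - η) * L - 2 * η * W) (C * n) with e | e <;> rw [e] at h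
  · have h1 : (1 - η) * (2 * k * W - B) ≤ (1 - η) * L := mul_le_mul_of_nonneg_left hL (by linarith)
    nlinarith [mul_le_mul_of_nonneg_right hη1 (mul_nonneg hk.le hW), mul_le_mul_of_nonneg_right hη2 hW,
      mul_nonneg hη.le hB0]
  · nlinarith

theorem sqrt_abs_le {x W n : ℝ} (hW : 0 ≤ W) (hWn : W * W = n) (hx : |x| ≤ 4 * n) : √(|x|) ≤ 2 * W := by
  rw [Real.sqrt_le_left (by linarith)]
  linarith [show (2 * W) ^ 2 = 4 * (W * W) by ring]

/-- The geometry of a site outside the band. -/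
theorem stray_geometry (hG : ∀ᵐ t ∂G, 0 < t ∧ t ≤ b) (p : Pair (mu G)) {A C k C0 W B1 B : ℝ} {n : ℕ} {a z y : ℤ × ℤ}
    (hk' : k = |p.hw|) (hW1 : 1 ≤ W) (hWn : W * W = n) (hn0 : (1 : ℝ) ≤ n) (hB10 : 0 ≤ B1)
    (hB : B = B1 + 8 * p.ax.K * (1 + |p.xw| + k) + k * p.ax.K + k)
    (hC0 : C0 = 8 + 3 * p.ax.K + |p.xw| / k + 8 * p.ax.K * (1 + |p.xw|))
    (hKW : 8 * p.ax.K ≤ W) (haa : |p.ax.a a| ≤ 2 * p.ax.K) (hca : |p.ax.c a - C| ≤ 2 * p.ax.K)
    (haz : |p.ax.a z - n| ≤ 2 * p.ax.K) (hcz : |p.ax.c z - C| ≤ 2 * p.ax.K)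
    (hB1 : ∀ q : ℤ × ℤ, -(4 * p.ax.K) ≤ p.ax.a q → -(4 * p.ax.K) ≤ p.ax.c q →
      mean G q ≤ p.ax.a q + p.ax.c q + k / 16 * (√(|p.ax.a q|) + √(|p.ax.c q|)) + B1)
    (hy1 : |p.ax.a y - A| ≤ 8 * W + p.ax.K) (hy2 : W < |p.ax.c y - C|) :
    |p.F.x (y - a) - A| ≤ C0 * (W + |p.F.h (y - a)|) ∧
      2 * k * W - B ≤ mean G (y - a) + mean G (z - y) - p.F.x (z - a) ∧
      mean G (z - a) ≤ n + k / 4 * W + B := by
  have hK := p.ax.one_le_K
  have hk : 0 < k := hk' ▸ abs_pos.2 p.hw_ne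
  have hdc : |p.ax.c z - p.ax.c a| ≤ 4 * p.ax.K := by
    rw [abs_le] at hca hcz ⊢; constructor <;> linarith
  have hhz : |p.F.h (z - a)| ≤ 4 * p.ax.K * k := by
    rw [hk', p.h_eq, p.ax.c_sub, abs_mul]; gcongr
  have hyx : p.F.x (y - a) = (p.ax.a y - p.ax.a a) + (p.ax.c y - p.ax.c a) * p.xw := by
    rw [p.x_eq, p.ax.a_sub, p.ax.c_sub]
  have hyh : |p.F.h (y - a)| = |p.ax.c y - p.ax.c a| * k := by rw [p.h_eq, p.ax.c_sub, abs_mul, hk']
  have hreg : |p.F.x (y - a) - A| ≤ C0 * (W + |p.F.h (y - a)|) := by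
    have e : |(p.ax.c y - p.ax.c a) * p.xw| = |p.xw| / k * |p.F.h (y - a)| := by
      rw [hyh, abs_mul]; field_simp
    have e2 : p.F.x (y - a) - A = (p.ax.a y - A) + (-p.ax.a a) + (p.ax.c y - p.ax.c a) * p.xw := by rw [hyx]; ring
    rw [e2]
    refine (abs_add_three _ _ _).trans ?_
    rw [abs_neg, e]
    have c1 : |p.xw| / k ≤ C0 := by
      have : 0 ≤ 8 * p.ax.K * (1 + |p.xw|) := by positivity
      linarith
    have c2 : 8 + 3 * p.ax.K ≤ C0 := by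
      have : 0 ≤ |p.xw| / k := by positivity
      have : 0 ≤ 8 * p.ax.K * (1 + |p.xw|) := by positivity
      linarith
    have c3 := mul_le_mul_of_nonneg_right c1 (abs_nonneg (p.F.h (y - a)))
    have c4 := mul_le_mul_of_nonneg_right c2 (zero_le_one.trans hW1)
    have c5 : 3 * p.ax.K ≤ 3 * p.ax.K * W := le_mul_of_one_le_right (by positivity) hW1
    linarith
  set L := mean G (y - a) + mean G (z - y) - p.F.x (z - a)
  have l1' := p.F.le_mean hG (y - a)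
  have l2' := p.F.le_mean hG (z - y)
  have hx3 : p.F.x (z - a) = p.F.x (y - a) + p.F.x (z - y) := by simp only [p.F.x_sub]; ring
  have hh3 : p.F.h (z - y) = p.F.h (z - a) - p.F.h (y - a) := by simp only [p.F.h_sub]; ring
  have hh4 : |p.F.h (y - a)| - |p.F.h (z - a)| ≤ |p.F.h (z - y)| := by
    rw [hh3, abs_sub_comm]; exact abs_sub_abs_le_abs_sub _ _
  have hcy : W - 2 * p.ax.K ≤ |p.ax.c y - p.ax.c a| := by
    have := abs_sub_le (p.ax.c y) (p.ax.c a) C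
    linarith
  have hL : 2 * k * W - B ≤ L := by
    have h5 := mul_le_mul_of_nonneg_right hcy hk.le
    have : 0 ≤ 8 * p.ax.K * (1 + |p.xw|) := by positivity
    have : 0 ≤ k * p.ax.K := by positivity
    rw [hyh] at hh4 l1'
    simp only [L, hB]
    linarith
  have hza : p.ax.a (z - a) = p.ax.a z - p.ax.a a := p.ax.a_sub z a
  have hzc : p.ax.c (z - a) = p.ax.c z - p.ax.c a := p.ax.c_sub z a
  rw [abs_le] at haa haz
  rw [abs_le] at hdc
  have hm := hB1 (z - a) (by rw [hza]; linarith) (by rw [hzc]; linarith)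
  have hWle : W ≤ (n : ℝ) := hWn ▸ le_mul_of_one_le_left (by linarith) hW1
  have hs1 : √(|p.ax.a (z - a)|) ≤ 2 * W :=
    sqrt_abs_le (by linarith) hWn (by rw [hza]; exact abs_le.2 ⟨by linarith, by linarith⟩)
  have hs2 : √(|p.ax.c (z - a)|) ≤ 2 * W :=
    sqrt_abs_le (by linarith) hWn (by rw [hzc]; exact abs_le.2 ⟨by linarith, by linarith⟩)
  have hm' : mean G (z - a) ≤ n + k / 4 * W + B := by
    have := mul_le_mul_of_nonneg_left (add_le_add hs1 hs2) (show 0 ≤ k / 16 by positivity)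
    rw [hza, hzc] at hm this
    have : 0 ≤ 8 * p.ax.K * (|p.xw| + k) := by positivity
    have : 0 ≤ k * p.ax.K + k := by positivity
    simp only [hB]
    linarith
  exact ⟨hreg, hL, hm'⟩

/-- Near-optimal routes along a line stay in its band beside a given cell. -/
theorem stray_small (hG : ∀ᵐ t ∂G, 0 < t ∧ t ≤ b) (hV : SmallVar G) (p : Pair (mu G)) {κ : ℝ} (hκ : 0 < κ) :
    ∀ᶠ n : ℕ in atTop, ∀ (A C : ℝ) (a z : ℤ × ℤ), 0 ≤ A → A ≤ n → |p.ax.a a| ≤ 2 * p.ax.K →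
      |p.ax.c a - C| ≤ 2 * p.ax.K → |p.ax.a z - n| ≤ 2 * p.ax.K → |p.ax.c z - C| ≤ 2 * p.ax.K →
      (law G).real (Stray p.ax A C √(n : ℝ) (8 * √(n : ℝ)) a z) ≤ κ := by
  have hK := p.ax.one_le_K
  set k := |p.hw| with hk'
  have hk : 0 < k := abs_pos.2 p.hw_ne
  set η := min (1 / 8) (k / 8) with hη'
  have hη : 0 < η := lt_min (by norm_num) (by linarith)
  obtain ⟨B1, hB10, hB1⟩ := p.mean_le hG hV (show 0 < k / 16 by linarith)
  set E := |p.F.v.1| + |p.F.v.2| + |p.F'.v.1| + |p.F'.v.2| with hE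
  set B := B1 + 8 * p.ax.K * (1 + |p.xw| + k) + k * p.ax.K + k with hB
  have hB0 : 0 ≤ B := by positivity
  set C0 := 8 + 3 * p.ax.K + |p.xw| / k + 8 * p.ax.K * (1 + |p.xw|) with hC0
  have hC00 : 8 ≤ C0 := by
    have : 0 ≤ |p.xw| / k := by positivity
    have : 0 ≤ 8 * p.ax.K * (1 + |p.xw|) := by positivity
    linarith
  set ε := κ * (k / 8) / 2 with hε
  obtain ⟨A0, hA0⟩ := exists_nat_ge (E * (1 + 8 * p.ax.K) + 2)
  have hA0' : 0 < (A0 : ℝ) := lt_of_lt_of_le (by positivity) hA0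
  obtain ⟨N, hN⟩ := hV (ε * (4 * (k / 8)) / A0) (by positivity)
  filter_upwards [detour G hG hV p.F (C := C0) (by linarith) hη (show 0 < ε by positivity),
    eventually_ge_atTop N, eventually_ge_atTop 1,
    (Real.tendsto_sqrt_atTop.comp tendsto_natCast_atTop_atTop).eventually_ge_atTop ((9 * B + 2) / k + k + 8 * B + 4 * p.ax.K * k + 8 * p.ax.K + 1)]
    with n hd hn hn1 hW A C a z hA0n hAn haa hca haz hcz
  simp only [Function.comp_apply] at hW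
  set W := √(n : ℝ) with hW'
  have hn0 : (1 : ℝ) ≤ n := by exact_mod_cast hn1
  have hW1 : 1 ≤ W := Real.one_le_sqrt.2 hn0
  have hWn : W * W = n := Real.mul_self_sqrt (by linarith)
  have hWle : W ≤ n := by nlinarith
  have hsum : (9 * B + 2) / k ≤ W ∧ k + 8 * B + 1 ≤ W ∧ 4 * p.ax.K * k ≤ W := by
    have : 0 ≤ (9 * B + 2) / k := by positivity
    have : 0 ≤ 4 * p.ax.K * k := by positivity
    exact ⟨by linarith, by linarith, by linarith⟩
  have hKW : 8 * p.ax.K ≤ W := by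
    have : 0 ≤ (9 * B + 2) / k := by positivity
    have : 0 ≤ 4 * p.ax.K * k := by positivity
    linarith
  have hkW : 9 * B + 2 ≤ k * W := by
    have := hsum.1; rw [div_le_iff₀ hk] at this; linarith
  have hkn : k * W + 8 * B ≤ n := by nlinarith
  have hx : p.F.x (z - a) = (p.ax.a z - p.ax.a a) + (p.ax.c z - p.ax.c a) * p.xw := by
    rw [p.x_eq, p.ax.a_sub, p.ax.c_sub]
  have hh : p.F.h (z - a) = (p.ax.c z - p.ax.c a) * p.hw := by rw [p.h_eq, p.ax.c_sub]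
  have hdc : |p.ax.c z - p.ax.c a| ≤ 4 * p.ax.K := by
    rw [abs_le] at hca hcz ⊢; constructor <;> linarith
  have hxw : |(p.ax.c z - p.ax.c a) * p.xw| ≤ 4 * p.ax.K * |p.xw| := by
    rw [abs_mul]; gcongr
  have hhz : |p.F.h (z - a)| ≤ 4 * p.ax.K * k := by rw [hh, abs_mul]; gcongr
  have hxz : |p.F.x (z - a) - n| ≤ 4 * p.ax.K * (1 + |p.xw|) := by
    rw [hx]; rw [abs_le] at haa haz hxw ⊢; constructor <;> linarith
  have hKxw : 4 * p.ax.K * (1 + |p.xw|) ≤ B := by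
    have : 0 ≤ 8 * p.ax.K * k := by positivity
    have : 0 ≤ k * p.ax.K := by positivity
    have : 0 ≤ 4 * p.ax.K * (1 + |p.xw|) := by positivity
    linarith
  have hC0n : 8 * (n : ℝ) ≤ C0 * n := by gcongr
  obtain ⟨S, hS0, hSi, hSm, hS⟩ := hd a z A W
    (by rw [abs_of_nonneg hA0n]; linarith)
    (by
      rw [abs_le] at hxz
      have : p.F.x (z - a) ≤ C0 * n ∧ -(C0 * n) ≤ p.F.x (z - a) := ⟨by linarith, by linarith⟩
      exact abs_le.2 ⟨this.2, this.1⟩)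
    le_rfl (by linarith) (hhz.trans hsum.2.2)
  obtain ⟨S3, h30, h3i, h3m, h3⟩ := exists_exc2 hG ({()} : Finset Unit) (fun _ => a) (fun _ => z)
    (θ := k / 8 * W) (V := ε * (4 * (k / 8)) / A0 * ((A0 * n : ℕ) : ℝ)) (by positivity) fun i _ => by
      refine hN (A0 * n) (le_trans hn (Nat.le_mul_of_pos_left n (by exact_mod_cast hA0'))) a z ?_
      have h3 : (l1 a z : ℝ) ≤ ((A0 * n : ℕ) : ℝ) := by
        refine (p.ax.l1_le a z).trans ?_
        simp only [show p.ax.v = p.F.v from rfl, show p.ax.w = p.F'.v from rfl, ← hE]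
        have q1 : |p.ax.a z - p.ax.a a| + |p.ax.c z - p.ax.c a| ≤ (1 + 8 * p.ax.K) * n := by
          have := (abs_sub_le (p.ax.a z) n (p.ax.a a)).trans (add_le_add haz (abs_sub (n : ℝ) (p.ax.a a)))
          have hn' : |((n : ℕ) : ℝ)| = n := abs_of_nonneg (Nat.cast_nonneg n)
          rw [hn'] at this
          have h8 : 8 * p.ax.K ≤ 8 * p.ax.K * n := le_mul_of_one_le_right (by positivity) hn0
          linarith
        push_cast
        calc E * _ ≤ E * ((1 + 8 * p.ax.K) * n) := mul_le_mul_of_nonneg_left q1 (by positivity)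
          _ ≤ A0 * n := by rw [← mul_assoc]; gcongr; linarith
      exact_mod_cast h3
  have hm3 : ∫ ω, S3 ω ∂law G ≤ ε * W := by
    refine h3m.trans (le_of_eq ?_)
    simp only [Finset.card_singleton, Nat.cast_one, one_mul]
    push_cast
    rw [← hWn]
    field_simp
  refine prob_le (S := fun ω => S ω + S3 ω) (fun ω => add_nonneg (hS0 ω) (h30 ω)) (hSi.add h3i)
    (T := k / 8 * W) (by positivity) ?_ (measurableSet_stray _ _ _ _ _ _ _) ?_
  · rw [integral_add hSi h3i]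
    calc _ ≤ ε * W + ε * W := add_le_add hSm hm3
      _ = κ * (k / 8 * W) := by rw [hε]; ring
  · filter_upwards [hS] with ω hω hst
    obtain ⟨y, hy1, hy2, hy3⟩ := hst
    obtain ⟨hreg, hL, hm'⟩ := stray_geometry hG p (A := A) (y := y) hk' hW1 hWn hn0 hB10 hB hC0 hKW haa hca haz hcz
      hB1 hy1 hy2
    rw [abs_le] at hxz
    exact stray_algebra hk hη (min_le_left _ _) (min_le_right _ _) (by positivity) hL (by linarith) hm'
      (by linarith [(abs_le.1 (h3 ω () (Finset.mem_singleton_self ()))).2]) (by linarith) hkn (by linarith) hB0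
      ((hω y hreg).trans hy3)

/-- The final comparison for a route through the right part of the cell. -/
theorem slip_algebra {m1 m2 m3 t1 t2 t3 s g W S B : ℝ} (hg : 0 < g) (hlow : g * s + m3 ≤ m1 + m2 + g * W + B)
    (hs : 6 * W ≤ s) (h1 : |t1 - m1| ≤ g / 3 * W + S) (h2 : |t2 - m2| ≤ g / 3 * W + S) (h3 : |t3 - m3| ≤ g / 3 * W + S)
    (h : t1 + t2 ≤ t3 + 1) (hB : B + 1 ≤ g * W) : g * W ≤ S := by
  rw [abs_le] at h1 h2 h3
  have := mul_le_mul_of_nonneg_left hs hg.le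
  linarith

/-- The grid around a cell and the target are within a linear distance. -/
theorem slip_dist {μ : ℝ × ℝ → ℝ} (p : Pair μ) {n s s0 A C : ℝ} {M : ℕ} {P : ℤ × ℤ} (hn0 : 1 ≤ n) (hs : 0 ≤ s) (hs0 : 0 ≤ s0)
    (hsn : s ≤ s0 * n) (hA0 : 0 ≤ A) (hA : A ≤ n) (hC0 : 0 ≤ C) (hC : C ≤ n)
    (haP : |p.ax.a P - 3 * n| ≤ 2 * p.ax.K) (hcP : |p.ax.c P - 3 * n| ≤ 2 * p.ax.K) :
    ∀ o ∈ insert none ((Finset.Icc (-(M : ℤ)) M ×ˢ Finset.Icc (-(M : ℤ)) M).image some),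
      (l1 ((0 : ℤ), (0 : ℤ)) (Option.elim o P fun i : ℤ × ℤ =>
        fl ((A + i.1 * s) • p.ax.v + (C + i.2 * s) • p.ax.w)) : ℝ) ≤
        (|p.F.v.1| + |p.F.v.2| + |p.F'.v.1| + |p.F'.v.2|) * (2 * ((4 + 8 * p.ax.K + 2 * M * s0) * n)) + 2 := by
  have hK := p.ax.one_le_K
  have z1 : p.ax.a ((0 : ℤ), (0 : ℤ)) = 0 := by simp [Axes.a]
  have z2 : p.ax.c ((0 : ℤ), (0 : ℤ)) = 0 := by simp [Axes.c]
  intro o ho
  rcases o with _ | i
  · have h := p.ax.l1_le ((0 : ℤ), (0 : ℤ)) P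
    rw [z1, z2, sub_zero, sub_zero] at h
    simp only [Option.elim_none]
    refine h.trans (le_add_of_le_of_nonneg ?_ zero_le_two)
    simp only [show p.ax.v = p.F.v from rfl, show p.ax.w = p.F'.v from rfl]
    gcongr
    have h8 : 8 * p.ax.K ≤ 8 * p.ax.K * n := le_mul_of_one_le_right (by positivity) hn0
    have : 0 ≤ 2 * (M : ℝ) * s0 * n := by positivity
    rw [abs_le] at haP hcP
    have hKn : 2 * p.ax.K ≤ 2 * p.ax.K * n := le_mul_of_one_le_right (by positivity) hn0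
    have q : ∀ x : ℝ, -(2 * p.ax.K) ≤ x - 3 * n → x - 3 * n ≤ 2 * p.ax.K → |x| ≤ 3 * n + 2 * p.ax.K := fun x a0 a1 =>
      abs_le.2 ⟨by linarith, by linarith⟩
    have := q _ haP.1 haP.2
    have := q _ hcP.1 hcP.2
    linarith
  · simp only [Finset.mem_insert, Finset.mem_image, reduceCtorEq, false_or, Option.some.injEq,
      exists_eq_right, Finset.mem_product, Finset.mem_Icc] at ho
    have h := p.ax.l1_fl ((0 : ℤ), (0 : ℤ)) (A + i.1 * s) (C + i.2 * s)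
    rw [z1, z2, zero_sub, zero_sub, abs_neg, abs_neg] at h
    have hMs : (M : ℝ) * s ≤ M * s0 * n := by rw [mul_assoc]; gcongr
    have u : ∀ (a : ℝ) (j : ℤ), 0 ≤ a → a ≤ n → -(M : ℤ) ≤ j → j ≤ M → |a + j * s| ≤ n + M * s0 * n := by
      intro a j a0 a1 j0 j1
      refine (abs_add_le _ _).trans (add_le_add (by rwa [abs_of_nonneg a0]) (le_trans ?_ hMs))
      rw [abs_mul, abs_of_nonneg hs]
      gcongr
      exact abs_le.2 ⟨by exact_mod_cast j0, by exact_mod_cast j1⟩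
    refine h.trans ?_
    simp only [show p.ax.v = p.F.v from rfl, show p.ax.w = p.F'.v from rfl]
    gcongr
    have := u A i.1 hA0 hA ho.1.1 ho.1.2
    have := u C i.2 hC0 hC ho.2.1 ho.2.2
    have : 0 ≤ (6 + 16 * p.ax.K) * n := by positivity
    have : 0 ≤ 2 * (M : ℝ) * s0 * n := by positivity
    linarith

/-- The means along a route through the right part of the cell. -/
theorem slip_geometry (hG : ∀ᵐ t ∂G, 0 < t ∧ t ≤ b) (p : Pair (mu G)) {A C W B g : ℝ} {n : ℕ} {u y P : ℤ × ℤ}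
    (hg : 0 < g) (hg' : g = 1 - p.γ) (hW20 : 20 ≤ W) (hWn : W * W = n) (hKW : 8 * p.ax.K ≤ W)
    (hA0n : 0 ≤ A) (hAn : A ≤ n) (hC0n : 0 ≤ C) (hCn : C ≤ n)
    (hB : ∀ q : ℤ × ℤ, -(4 * p.ax.K) ≤ p.ax.a q → -(4 * p.ax.K) ≤ p.ax.c q →
      mean G q ≤ p.ax.a q + p.ax.c q + g / 4 * (√(|p.ax.a q|) + √(|p.ax.c q|)) + B)
    (hu1 : -W ≤ p.ax.a u - A ∧ p.ax.a u - A ≤ W) (hu2 : -p.ax.K ≤ p.ax.c u - (C + 8 * W) ∧ p.ax.c u - (C + 8 * W) ≤ p.ax.K)
    (hy2 : -W ≤ p.ax.c y - C ∧ p.ax.c y - C ≤ W) (hy1 : -(8 * W + p.ax.K) ≤ p.ax.a y - A ∧ p.ax.a y - A ≤ 8 * W + p.ax.K)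
    (haP : -(2 * p.ax.K) ≤ p.ax.a P - 3 * n ∧ p.ax.a P - 3 * n ≤ 2 * p.ax.K)
    (hcP : -(2 * p.ax.K) ≤ p.ax.c P - 3 * n ∧ p.ax.c P - 3 * n ≤ 2 * p.ax.K) :
    g * (p.ax.c u - p.ax.c y) + mean G (P - u) ≤ mean G (y - u) + mean G (P - y) + g * W + B := by
  have hK := p.ax.one_le_K
  have m1 := p.mean_ge_back hG (y - u)
  have h20 : 20 * W ≤ n := hWn ▸ mul_le_mul_of_nonneg_right hW20 (by linarith)
  have ePy := p.ax.a_sub P y
  have eQy := p.ax.c_sub P y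
  have ePu := p.ax.a_sub P u
  have eQu := p.ax.c_sub P u
  have m2 := p.mean_ge hG (P - y) (by rw [ePy]; linarith) (by rw [eQy]; linarith)
  have m3 := hB (P - u) (by rw [ePu]; linarith) (by rw [eQu]; linarith)
  rw [p.ax.a_sub, p.ax.c_sub] at m1
  rw [ePy, eQy] at m2
  rw [ePu, eQu] at m3
  have r1 : √(|p.ax.a P - p.ax.a u|) ≤ 2 * W :=
    sqrt_abs_le (by linarith) hWn (abs_le.2 ⟨by linarith, by linarith⟩)
  have r2 : √(|p.ax.c P - p.ax.c u|) ≤ 2 * W :=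
    sqrt_abs_le (by linarith) hWn (abs_le.2 ⟨by linarith, by linarith⟩)
  have r := mul_le_mul_of_nonneg_left (add_le_add r1 r2) (show 0 ≤ g / 4 by positivity)
  have hγ : p.γ = 1 - g := by linarith
  rw [hγ] at m1
  linarith [show (1 - g) * (p.ax.c y - p.ax.c u) = p.ax.c y - p.ax.c u + g * (p.ax.c u - p.ax.c y) by ring]

/-- Every site around a cell is close to a grid point. -/
theorem slip_near {μ : ℝ × ℝ → ℝ} (p : Pair μ) {A C s s0 W : ℝ} (P : ℤ × ℤ) (hs0 : 0 < s0) (hsp : 0 < s) (hs : s = s0 * W)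
    (q : ℤ × ℤ) (q1 : |p.ax.a q - A| ≤ 11 * W) (q2 : |p.ax.c q - C| ≤ 11 * W) :
    ∃ i ∈ insert none ((Finset.Icc (-((⌈11 / s0⌉₊ + 1 : ℕ) : ℤ)) (⌈11 / s0⌉₊ + 1 : ℕ) ×ˢ
        Finset.Icc (-((⌈11 / s0⌉₊ + 1 : ℕ) : ℤ)) (⌈11 / s0⌉₊ + 1 : ℕ)).image some),
      (l1 q (Option.elim i P fun i : ℤ × ℤ => fl ((A + i.1 * s) • p.ax.v + (C + i.2 * s) • p.ax.w)) : ℝ) ≤
        (|p.F.v.1| + |p.F.v.2| + |p.F'.v.1| + |p.F'.v.2|) * (2 * s) + 2 := by
  have e11 : 11 / s0 * s = 11 * W := by rw [hs]; field_simp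
  obtain ⟨g1, e1⟩ := exists_grid hsp (e11 ▸ q1 : |p.ax.a q - A| ≤ 11 / s0 * s)
  obtain ⟨g2, e2⟩ := exists_grid hsp (e11 ▸ q2 : |p.ax.c q - C| ≤ 11 / s0 * s)
  refine ⟨some (⌊(p.ax.a q - A) / s⌋, ⌊(p.ax.c q - C) / s⌋), by
    simp only [Finset.mem_insert, Finset.mem_image, reduceCtorEq, false_or, Option.some.injEq,
      exists_eq_right, Finset.mem_product]
    exact ⟨g1, g2⟩, ?_⟩
  simp only [Option.elim_some]
  refine (p.ax.l1_fl q _ _).trans ?_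
  simp only [show p.ax.v = p.F.v from rfl, show p.ax.w = p.F'.v from rfl]
  gcongr
  rw [two_mul]
  refine add_le_add (le_of_eq_of_le ?_ e1) (le_of_eq_of_le ?_ e2) <;> congr 1 <;> ring

theorem mesh_le {b E g s0 s W : ℝ} (hb : 0 ≤ b) (hE : 0 ≤ E) (hg : 0 < g) (hs0 : s0 = g / 3 / (64 * (b * E + 1)))
    (hs : s = s0 * W) (hbW : 96 * b ≤ g * W) (hW : 0 ≤ W) : 2 * b * (2 * (E * (2 * s) + 2)) ≤ g / 6 * W := by
  have h0 : 0 ≤ b * E := mul_nonneg hb hE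
  have h1 : b * E * s0 ≤ g / 3 / 64 := by
    rw [hs0, mul_div_assoc', div_le_div_iff₀ (by positivity) (by norm_num)]
    nlinarith
  rw [hs]
  nlinarith [mul_le_mul_of_nonneg_right h1 hW]

theorem window {W K x A : ℝ} (_ : 8 * K ≤ W) (h1 : -W ≤ x - A) (h2 : x - A ≤ W) : |x - A| ≤ 11 * W :=
  abs_le.2 ⟨by linarith, by linarith⟩

theorem window' {W K x C : ℝ} (hK : 8 * K ≤ W) (h1 : -K ≤ x - (C + 8 * W)) (h2 : x - (C + 8 * W) ≤ K) :
    |x - C| ≤ 11 * W :=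
  abs_le.2 ⟨by linarith, by linarith⟩

theorem window'' {W K x A : ℝ} (hK : 8 * K ≤ W) (h1 : -(8 * W + K) ≤ x - A) (h2 : x - A ≤ 8 * W + K) :
    |x - A| ≤ 11 * W :=
  abs_le.2 ⟨by linarith, by linarith⟩

/-- Routes to the target from the far end of a band rarely pass beside the cell. -/
theorem slip_small (hG : ∀ᵐ t ∂G, 0 < t ∧ t ≤ b) (hV : SmallVar G) (p : Pair (mu G)) {κ : ℝ} (hκ : 0 < κ) :
    ∀ᶠ n : ℕ in atTop, ∀ (A C : ℝ) (P : ℤ × ℤ), 0 ≤ A → A ≤ n → 0 ≤ C → C ≤ n →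
      |p.ax.a P - 3 * n| ≤ 2 * p.ax.K → |p.ax.c P - 3 * n| ≤ 2 * p.ax.K →
      (law G).real (Slip p.ax A C √(n : ℝ) (8 * √(n : ℝ)) P) ≤ κ := by
  have hb := b_nonneg G hG
  have hK := p.ax.one_le_K
  set g := 1 - p.γ with hg'
  have hg : 0 < g := sub_pos.2 p.γ_lt
  obtain ⟨B, hB0, hB⟩ := p.mean_le hG hV (show 0 < g / 4 by linarith)
  set E := |p.F.v.1| + |p.F.v.2| + |p.F'.v.1| + |p.F'.v.2| with hE
  have hE0 : 0 ≤ E := by positivity
  set s0 := g / 3 / (64 * (b * E + 1)) with hs0'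
  have hs0 : 0 < s0 := by positivity
  set M := ⌈11 / s0⌉₊ + 1 with hM
  set R : Finset (Option (ℤ × ℤ)) := insert none ((Finset.Icc (-(M : ℤ)) M ×ˢ Finset.Icc (-(M : ℤ)) M).image some)
    with hR
  obtain ⟨A0, hA0⟩ := exists_nat_ge (E * (4 * (4 + 8 * p.ax.K + 2 * M * s0)) + 4)
  have hA0' : 0 < (A0 : ℝ) := lt_of_lt_of_le (by positivity) hA0
  set ε := κ * g * (4 * (g / 6)) / ((((R ×ˢ R).card : ℕ) + 1 : ℝ) * A0) with hε
  obtain ⟨N, hN⟩ := hV ε (by positivity)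
  filter_upwards [eventually_ge_atTop N, eventually_ge_atTop 1,
    (Real.tendsto_sqrt_atTop.comp tendsto_natCast_atTop_atTop).eventually_ge_atTop
      ((B + 1) / g + 8 * p.ax.K + 96 * b / g + 20)] with n hn hn1 hW A C P hA0n hAn hC0n hCn haP hcP
  simp only [Function.comp_apply] at hW
  set W := √(n : ℝ) with hW'
  have hn0 : (1 : ℝ) ≤ n := by exact_mod_cast hn1
  have hWn : W * W = n := Real.mul_self_sqrt (by linarith)
  have hq1 : 0 ≤ (B + 1) / g := by positivity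
  have hq2 : 0 ≤ 96 * b / g := by positivity
  have hW20 : 20 ≤ W := by linarith
  have hKW : 8 * p.ax.K ≤ W := by linarith
  have hBW : B + 1 ≤ g * W := by
    have : (B + 1) / g ≤ W := by linarith
    rw [div_le_iff₀ hg] at this; linarith
  have hbW : 96 * b ≤ g * W := by
    have : 96 * b / g ≤ W := by linarith
    rw [div_le_iff₀ hg] at this; linarith
  set s := s0 * W with hs
  have hsp : 0 < s := by positivity
  set pt : Option (ℤ × ℤ) → ℤ × ℤ := fun o => o.elim P fun i =>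
    fl ((A + i.1 * s) • p.ax.v + (C + i.2 * s) • p.ax.w)
  have hpt : ∀ i ∈ R, (l1 ((0 : ℤ), (0 : ℤ)) (pt i) : ℝ) ≤ E * (2 * ((4 + 8 * p.ax.K + 2 * M * s0) * n)) + 2 :=
    fun i hi => slip_dist p hn0 hsp.le hs0.le (by rw [hs]; gcongr; nlinarith) hA0n hAn hC0n hCn haP hcP i hi
  obtain ⟨S, hS0, hSi, hSm, hS⟩ := exists_exc2 hG (R ×ˢ R) (fun i => pt i.1) (fun i => pt i.2)
    (θ := g / 6 * W) (V := ε * ((A0 * n : ℕ) : ℝ)) (by positivity) fun i hi => by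
      refine hN (A0 * n) (le_trans hn (Nat.le_mul_of_pos_left n (by exact_mod_cast hA0'))) _ _ ?_
      rw [Finset.mem_product] at hi
      have h3 : (l1 (pt i.1) (pt i.2) : ℝ) ≤ ((A0 * n : ℕ) : ℝ) := by
        have ht : (l1 (pt i.1) (pt i.2) : ℝ) ≤ l1 ((0 : ℤ), (0 : ℤ)) (pt i.1) + l1 ((0 : ℤ), (0 : ℤ)) (pt i.2) := by
          have := l1_triangle (pt i.1) ((0 : ℤ), (0 : ℤ)) (pt i.2)
          rw [l1_symm (pt i.1) ((0 : ℤ), (0 : ℤ))] at this
          exact_mod_cast this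
        have h0 := add_le_add (hpt _ hi.1) (hpt _ hi.2)
        have h4 := mul_le_mul_of_nonneg_right hA0 (Nat.cast_nonneg (α := ℝ) n)
        push_cast
        linarith [show (E * (4 * (4 + 8 * p.ax.K + 2 * M * s0)) + 4) * (n : ℝ) =
          2 * (E * (2 * ((4 + 8 * p.ax.K + 2 * M * s0) * n))) + 4 * n by ring]
      exact_mod_cast h3
  have hsm : 2 * b * (2 * (E * (2 * s) + 2)) ≤ g / 6 * W := mesh_le hb hE0 hg hs0' hs hbW (by linarith)
  refine prob_le hS0 hSi (T := g * W) (by positivity) ?_ (measurableSet_slip _ _ _ _ _ _) ?_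
  · refine hSm.trans ?_
    have hc : (((R ×ˢ R).card : ℕ) : ℝ) ≤ ((R ×ˢ R).card : ℕ) + 1 := by linarith
    refine (mul_le_mul_of_nonneg_right hc (by positivity)).trans (le_of_eq ?_)
    push_cast
    rw [hε, ← hWn]
    field_simp
  · filter_upwards [good_ae G hG] with ω hω hsl
    obtain ⟨u, y, hu1, hu2, ⟨⟨hy2, hy1⟩, hy3⟩, hst⟩ := hsl
    rw [abs_le] at hu1 hu2 hy1 hy2 haP hcP
    obtain ⟨iu, miu, liu⟩ := slip_near p (A := A) (C := C) P hs0 hsp hs u (window hKW hu1.1 hu1.2) (window' hKW hu2.1 hu2.2)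
    obtain ⟨iy, miy, liy⟩ := slip_near p (A := A) (C := C) P hs0 hsp hs y (window'' hKW hy1.1 hy1.2) (window hKW hy2.1 hy2.2)
    have hlP : (l1 P (pt none) : ℝ) = 0 := by simp [pt, l1]
    have dev : ∀ (q r : ℤ × ℤ) (i j : Option (ℤ × ℤ)), i ∈ R → j ∈ R →
        (l1 q (pt i) : ℝ) + l1 r (pt j) ≤ 2 * (E * (2 * s) + 2) →
        |tt ω q r - mean G (r - q)| ≤ g / 3 * W + S ω := by
      intro q r i j hi hj hl
      refine (abs_dev_le2 hG hω q r (pt i) (pt j)).trans ?_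
      have h1 := hS ω (i, j) (Finset.mem_product.2 ⟨hi, hj⟩)
      have h2 := mul_le_mul_of_nonneg_left hl (show 0 ≤ 2 * b by positivity)
      simp only at h1
      linarith
    have hnone : none ∈ R := by simp [hR]
    have hEs : 0 ≤ E * (2 * s) + 2 := by positivity
    have d1 := dev u y iu iy miu miy (by linarith)
    have d2 := dev y P iy none miy hnone (by linarith)
    have d3 := dev u P iu none miu hnone (by linarith)
    refine slip_algebra (m1 := mean G (y - u)) (m2 := mean G (P - y)) (m3 := mean G (P - u))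
      (s := p.ax.c u - p.ax.c y) (B := B) hg ?_ (by linarith) d1 d2 d3 hst hBW
    exact slip_geometry hG p hg hg' hW20 hWn hKW hA0n hAn hC0n hCn hB hu1 hu2 hy2 hy1 haP hcP

end Vale.Agent.P158.Facet
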