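import Mathlib
import Vale.Agent.P158.Facet.Pair

/-!
P158 facets: the defect of a line is the sum of the defects of its crossings of the cells.
-/

namespace Vale.Agent.P158.Facet

open MeasureTheory Finset Vale.Agent.P158.V4

variable (ax : Axes)

/-- The first visit beyond a level splits a walk. -/
theorem exists_first_beyond {τ : ℝ} {u z : ℤ × ℤ} (p : grid.Walk u z) (hu : ax.a u < τ) (hz : τ ≤ ax.a z) :
    ∃ (y : ℤ × ℤ) (q : grid.Walk u y) (r : grid.Walk y z), p = q.append r ∧ τ ≤ ax.a y ∧ ax.a y ≤ τ + ax.K ∧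
      ∀ x ∈ q.support, ax.a x ≤ τ + ax.K := by
  induction p with
  | nil => exact absurd hz (not_le.2 hu)
  | @cons u w z hadj p ih =>
    have hstep := (abs_le.1 (ax.adj_le hadj).1)
    have hK := ax.one_le_K
    rcases lt_or_ge (ax.a w) τ with hw | hw
    · obtain ⟨y, q, r, rfl, h1, h2, h3⟩ := ih hw hz
      refine ⟨y, .cons hadj q, r, by simp, h1, h2, fun x hx => ?_⟩
      rw [SimpleGraph.Walk.support_cons, List.mem_cons] at hx
      rcases hx with rfl | hx
      · linarith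
      · exact h3 x hx
    · refine ⟨w, .cons hadj .nil, p, by simp, hw, by linarith, fun x hx => ?_⟩
      simp only [SimpleGraph.Walk.support_cons, SimpleGraph.Walk.support_nil, List.mem_cons, List.not_mem_nil,
        or_false] at hx
      rcases hx with rfl | rfl <;> linarith

/-- The last visit below a level starts a suffix staying above it. -/
theorem exists_last_below {τ : ℝ} {y z : ℤ × ℤ} (p : grid.Walk y z) (hz : τ ≤ ax.a z) :
    (∀ x ∈ p.support, τ - ax.K ≤ ax.a x) ∨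
      ∃ (y' : ℤ × ℤ) (q : grid.Walk y y') (r : grid.Walk y' z), p = q.append r ∧ ax.a y' ≤ τ + ax.K ∧
        ∀ x ∈ r.support, τ - ax.K ≤ ax.a x := by
  have hK := ax.one_le_K
  induction p with
  | nil =>
    left
    intro x hx
    rw [SimpleGraph.Walk.support_nil, List.mem_singleton] at hx
    subst hx
    linarith
  | @cons u w z hadj p ih =>
    rcases ih hz with h | ⟨y', q, r, rfl, h1, h2⟩
    · rcases le_or_gt (τ - ax.K) (ax.a u) with hu | hu
      · left
        intro x hx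
        rw [SimpleGraph.Walk.support_cons, List.mem_cons] at hx
        rcases hx with rfl | hx
        · exact hu
        · exact h x hx
      · right
        exact ⟨w, .cons hadj .nil, p, by simp, by linarith [(abs_le.1 (ax.adj_le hadj).1).1], h⟩
    · exact Or.inr ⟨y', .cons hadj q, r, by simp, h1, h2⟩

/-- The crossings of consecutive slabs have defects summing to at most that of the walk. -/
theorem split (ω : Sym2 (ℤ × ℤ) → ℝ) (hω : ∀ e, 0 ≤ ω e) (P : ℤ × ℤ) (τ : ℕ → ℝ)
    (hτ : ∀ i, τ i + 2 * ax.K ≤ τ (i + 1)) :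
    ∀ (k : ℕ) (u z : ℤ × ℤ) (p : grid.Walk u z), ax.a u < τ 0 → τ k ≤ ax.a z →
      ∃ X : ℕ → ℝ, ∑ i ∈ range k, X i ≤ defect ω P p ∧ ∀ i < k, ∃ (u' z' : ℤ × ℤ) (q : grid.Walk u' z'),
        ax.a u' ≤ τ i + ax.K ∧ τ (i + 1) ≤ ax.a z' ∧
          (∀ x ∈ q.support, τ i - ax.K ≤ ax.a x ∧ ax.a x ≤ τ (i + 1) + ax.K ∧ x ∈ p.support) ∧
          defect ω P q ≤ X i := by
  have hK := ax.one_le_K
  have hmono : ∀ i, τ 0 ≤ τ i := by
    intro i
    induction i with
    | zero => exact le_rfl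
    | succ i ih => linarith [hτ i]
  intro k
  induction k with
  | zero => exact fun u z p _ _ => ⟨fun _ => 0, by simp [defect_nonneg hω P p], fun i hi => absurd hi (Nat.not_lt_zero i)⟩
  | succ k ih =>
    intro u z p hu hz
    obtain ⟨y2, p12, p3, rfl, b1, -, b3⟩ := exists_first_beyond ax p (by linarith [hmono (k + 1)]) hz
    obtain ⟨y, q1, m, rfl, a1, a2, -⟩ := exists_first_beyond ax (τ := τ k) p12 (by linarith [hmono k]) (by linarith [hτ k])
    obtain ⟨X, hX, hXi⟩ := ih u y q1 hu a1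
    obtain ⟨y', m', hy', hsupp, hm', hdef⟩ : ∃ (y' : ℤ × ℤ) (m' : grid.Walk y' y2), ax.a y' ≤ τ k + ax.K ∧
        (∀ x ∈ m'.support, x ∈ m.support) ∧ (∀ x ∈ m'.support, τ k - ax.K ≤ ax.a x) ∧
        defect ω P m' ≤ defect ω P m := by
      rcases exists_last_below ax (τ := τ k) m (by linarith [hτ k]) with h | ⟨y', q, r, rfl, h1, h2⟩
      · exact ⟨y, m, a2, fun x hx => hx, h, le_rfl⟩
      · refine ⟨y', r, h1, fun x hx => (SimpleGraph.Walk.mem_support_append_iff _ _).2 (Or.inr hx), h2, ?_⟩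
        rw [defect_append]
        linarith [defect_nonneg hω P q]
    refine ⟨fun i => if i < k then X i else defect ω P m', ?_, fun i hi => ?_⟩
    · rw [sum_range_succ, if_neg (lt_irrefl k), sum_congr rfl fun i hi => if_pos (mem_range.1 hi),
        defect_append, defect_append]
      linarith [defect_nonneg hω P p3]
    · rcases Nat.lt_succ_iff_lt_or_eq.1 hi with h | rfl
      · obtain ⟨u', z', q, c1, c2, c3, c4⟩ := hXi i h
        refine ⟨u', z', q, c1, c2, fun x hx => ⟨(c3 x hx).1, (c3 x hx).2.1, ?_⟩, by simpa only [if_pos h] using c4⟩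
        simp [(c3 x hx).2.2]
      · refine ⟨y', y2, m', hy', b1, fun x hx => ⟨hm' x hx, ?_, ?_⟩, by simp⟩
        · exact b3 x ((SimpleGraph.Walk.mem_support_append_iff _ _).2 (Or.inr (hsupp x hx)))
        · simp [hsupp x hx]

variable {G : Measure ℝ} [IsProbabilityMeasure G] {b : ℝ}

theorem line_pointwise {D W C g : ℝ} (hg : 0 ≤ g) (hD : ax.K ≤ D) {k : ℕ} {a z P : ℤ × ℤ}
    (ha : ax.a a < 2 * D) (hz : 2 * D * (k + 1) ≤ ax.a z) {ω : Sym2 (ℤ × ℤ) → ℝ} (hω : ∀ e, 0 ≤ ω e) :
    ∑ i ∈ range k, g * ((Cross ax ((2 * i + 3) * D) C W D g P)ᶜ.indicator (fun _ => (1 : ℝ)) ω -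
        (Stray ax ((2 * i + 3) * D) C W D a z).indicator (fun _ => (1 : ℝ)) ω) ≤
      tt ω a z + 1 + tt ω z P - tt ω a P := by
  classical
  obtain ⟨p, hp⟩ : ∃ p : grid.Walk a z, wt ω p < tt ω a z + 1 := exists_lt_of_ciInf_lt (lt_add_one _)
  obtain ⟨X, hX, hXi⟩ := split ax ω hω P (fun i => 2 * D * (i + 1)) (fun i => by push_cast; linarith [ax.one_le_K])
    k a z p (by simpa using ha) hz
  refine le_trans ((Finset.sum_le_sum fun i hi => ?_).trans hX) (by unfold defect; linarith)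
  obtain ⟨u', z', q, h1, h2, h3, h4⟩ := hXi i (mem_range.1 hi)
  refine le_trans ?_ h4
  have h0 := defect_nonneg hω P q
  push_cast at h1 h2 h3
  by_cases hs : ω ∈ Stray ax ((2 * (i : ℝ) + 3) * D) C W D a z
  · rw [Set.indicator_of_mem hs]
    by_cases hc : ω ∈ (Cross ax ((2 * (i : ℝ) + 3) * D) C W D g P)ᶜ
    · rw [Set.indicator_of_mem hc]; linarith
    · rw [Set.indicator_of_notMem hc]; linarith
  rw [Set.indicator_of_notMem hs]
  by_cases hc : ω ∈ (Cross ax ((2 * (i : ℝ) + 3) * D) C W D g P)ᶜ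
  · rw [Set.indicator_of_mem hc]
    by_contra hlt
    rw [sub_zero, mul_one, not_le] at hlt
    refine hc ⟨u', z', q, by linarith, by linarith [ax.one_le_K], fun x hx => ⟨?_, ?_⟩, hlt⟩
    · by_contra hW
      refine hs ⟨x, abs_le.2 ⟨by linarith [(h3 x hx).1], by linarith [(h3 x hx).2.1]⟩, not_le.1 hW, ?_⟩
      have hmem := (h3 x hx).2.2
      have e := congrArg (fun r => wt ω r) (p.take_spec hmem)
      simp only [wt_append] at e
      linarith [tt_le hω (p.takeUntil x hmem), tt_le hω (p.dropUntil x hmem)]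
    · exact abs_le.2 ⟨by linarith [(h3 x hx).1], by linarith [(h3 x hx).2.1]⟩
  · rw [Set.indicator_of_notMem hc]; linarith

/-- The mean defect of a line bounds the chances of expensive cells along it. -/
theorem line_sum (hG : ∀ᵐ t ∂G, 0 < t ∧ t ≤ b) {D W C g : ℝ} (hg : 0 ≤ g) (hD : ax.K ≤ D) {k : ℕ} {a z P : ℤ × ℤ}
    (ha : ax.a a < 2 * D) (hz : 2 * D * (k + 1) ≤ ax.a z) :
    g * ∑ i ∈ range k, ((law G).real (Cross ax ((2 * i + 3) * D) C W D g P)ᶜ -
        (law G).real (Stray ax ((2 * i + 3) * D) C W D a z)) ≤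
      mean G (z - a) + 1 + mean G (P - z) - mean G (P - a) := by
  have hm1 : ∀ i : ℕ, MeasurableSet (Cross ax ((2 * i + 3) * D) C W D g P)ᶜ := fun i =>
    (measurableSet_cross _ _ _ _ _ _ _).compl
  have hm2 : ∀ i : ℕ, MeasurableSet (Stray ax ((2 * i + 3) * D) C W D a z) := fun i =>
    measurableSet_stray _ _ _ _ _ _ _
  have hi : ∀ i : ℕ, Integrable (fun ω => g * ((Cross ax ((2 * i + 3) * D) C W D g P)ᶜ.indicator (fun _ => (1 : ℝ)) ω -
      (Stray ax ((2 * i + 3) * D) C W D a z).indicator (fun _ => (1 : ℝ)) ω)) (law G) := fun i =>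
    (((integrable_const _).indicator (hm1 i)).sub' ((integrable_const _).indicator (hm2 i))).const_mul g
  have h := integral_mono_ae (integrable_finsetSum _ fun i _ => hi i)
    ((((tt_integrable G hG a z).fun_add (integrable_const 1)).fun_add (tt_integrable G hG z P)).sub'
      (tt_integrable G hG a P))
    ((good_ae G hG).mono fun ω hω => line_pointwise ax hg hD ha hz fun e => (hω e).1.le)
  rw [integral_finsetSum _ fun i _ => hi i, integral_sub
    (((tt_integrable G hG a z).fun_add (integrable_const 1)).fun_add (tt_integrable G hG z P)) (tt_integrable G hG a P),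
    integral_add ((tt_integrable G hG a z).fun_add (integrable_const 1)) (tt_integrable G hG z P),
    integral_add (tt_integrable G hG a z) (integrable_const 1), mean_eq G hG, mean_eq G hG, mean_eq G hG] at h
  simp only [integral_const, probReal_univ, one_smul] at h
  refine le_of_eq_of_le ?_ h
  rw [mul_sum]
  refine sum_congr rfl fun i _ => ?_
  rw [integral_const_mul, integral_sub ((integrable_const _).indicator (hm1 i)) ((integrable_const _).indicator (hm2 i)),
    integral_indicator (hm1 i), integral_indicator (hm2 i), setIntegral_const, setIntegral_const, smul_eq_mul,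
    smul_eq_mul, mul_one, mul_one]

/-- The defect of a line is of smaller order than the square root of its length. -/
theorem line_value (hG : ∀ᵐ t ∂G, 0 < t ∧ t ≤ b) (hV : SmallVar G) (p : Pair (mu G)) {θ : ℝ} (hθ : 0 < θ) :
    ∃ B : ℝ, ∀ (n : ℕ) (C : ℝ), (8 * p.ax.K ≤ n) → 0 ≤ C → C ≤ n →
      mean G (fl ((n : ℝ) • p.F.v + C • p.F'.v) - fl ((0 : ℝ) • p.F.v + C • p.F'.v)) + 1 +
        mean G (fl ((3 * n : ℝ) • p.F.v + (3 * n : ℝ) • p.F'.v) - fl ((n : ℝ) • p.F.v + C • p.F'.v)) -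
        mean G (fl ((3 * n : ℝ) • p.F.v + (3 * n : ℝ) • p.F'.v) - fl ((0 : ℝ) • p.F.v + C • p.F'.v)) ≤
        θ * √(n : ℝ) + B := by
  obtain ⟨B, hB0, hB⟩ := p.mean_le hG hV (show 0 < θ / 8 by linarith)
  refine ⟨2 * B + 1 + 24 * p.ax.K, fun n C hn hC0 hC => ?_⟩
  set a := fl ((0 : ℝ) • p.F.v + C • p.F'.v)
  set z := fl ((n : ℝ) • p.F.v + C • p.F'.v)
  set P := fl ((3 * n : ℝ) • p.F.v + (3 * n : ℝ) • p.F'.v)
  obtain ⟨a1, a2⟩ := p.near_fl 0 C
  obtain ⟨z1, z2⟩ := p.near_fl (n : ℝ) C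
  obtain ⟨P1, P2⟩ := p.near_fl (3 * n : ℝ) (3 * n)
  rw [abs_le] at a1 a2 z1 z2 P1 P2
  have hK := p.ax.one_le_K
  have e1 := p.ax.a_sub z a
  have e2 := p.ax.c_sub z a
  have e3 := p.ax.a_sub P z
  have e4 := p.ax.c_sub P z
  have e5 := p.ax.a_sub P a
  have e6 := p.ax.c_sub P a
  have m1 := hB (z - a) (by linarith) (by linarith)
  have m2 := hB (P - z) (by linarith) (by linarith)
  have m3 := p.mean_ge hG (P - a) (by linarith) (by linarith)
  have hs : ∀ x : ℝ, |x| ≤ 4 * n → √(|x|) ≤ 2 * √(n : ℝ) := fun x hx => by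
    rw [Real.sqrt_le_left (by positivity), mul_pow, Real.sq_sqrt (Nat.cast_nonneg n)]
    linarith
  have s1 := hs _ (abs_le.2 ⟨by linarith, by linarith⟩ : |p.ax.a (z - a)| ≤ 4 * n)
  have s2 := hs _ (abs_le.2 ⟨by linarith, by linarith⟩ : |p.ax.c (z - a)| ≤ 4 * n)
  have s3 := hs _ (abs_le.2 ⟨by linarith, by linarith⟩ : |p.ax.a (P - z)| ≤ 4 * n)
  have s4 := hs _ (abs_le.2 ⟨by linarith, by linarith⟩ : |p.ax.c (P - z)| ≤ 4 * n)
  have t := mul_le_mul_of_nonneg_left (add_le_add (add_le_add s1 s2) (add_le_add s3 s4)) (show 0 ≤ θ / 8 by linarith)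
  linarith

end Vale.Agent.P158.Facet
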