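import Mathlib
import Vale.Agent.P158.Facet.Lines
import Vale.Agent.P158.Facet.Escape

/-!
P158 facets: the count of defects over a square of cells.
-/

namespace Vale.Agent.P158.Facet

open MeasureTheory Filter Topology Finset Vale.Agent.P158.V4

variable {G : Measure ℝ} [IsProbabilityMeasure G] {b : ℝ}

/-- In every cell one of the crossings is expensive with a fixed probability, or the target is reached
through the cell. -/
def CellStmt (G : Measure ℝ) [IsProbabilityMeasure G] (ax : Axes) : Prop :=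
  ∃ g > 0, ∃ κ > 0, ∀ᶠ W : ℝ in atTop, ∀ (A C : ℝ) (P : ℤ × ℤ),
    κ ≤ (law G).real (Cross ax A C W (8 * W) g P)ᶜ + (law G).real (Cross ax.swap C A W (8 * W) g P)ᶜ +
      (law G).real (Slip ax A C W (8 * W) P)

theorem count_false {k : ℕ} {g κ W B θ : ℝ} (X Y S S' E : ℕ → ℕ → ℝ) (hg : 0 < g) (hκ : 0 < κ)
    (hθ : θ = g * κ / 256) (hk : W / 32 ≤ k) (hB : 512 * (|B| + 1) ≤ g * κ * W) (hW : 0 ≤ W)
    (cell : ∀ i < k, ∀ j < k, κ ≤ X i j + Y i j + E i j)
    (rare : ∀ i < k, ∀ j < k, S i j ≤ κ / 8 ∧ S' i j ≤ κ / 8 ∧ E i j ≤ κ / 8)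
    (lineH : ∀ j < k, g * ∑ i ∈ range k, (X i j - S i j) ≤ θ * W + B)
    (lineV : ∀ i < k, g * ∑ j ∈ range k, (Y i j - S' i j) ≤ θ * W + B) : False := by
  have hH : g * ∑ j ∈ range k, ∑ i ∈ range k, (X i j - S i j) ≤ k * (θ * W + B) := by
    rw [mul_sum]
    refine (sum_le_card_nsmul (range k) _ _ fun j hj => lineH j (mem_range.1 hj)).trans_eq ?_
    rw [card_range, nsmul_eq_mul]
  have hV : g * ∑ i ∈ range k, ∑ j ∈ range k, (Y i j - S' i j) ≤ k * (θ * W + B) := by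
    rw [mul_sum]
    refine (sum_le_card_nsmul (range k) _ _ fun i hi => lineV i (mem_range.1 hi)).trans_eq ?_
    rw [card_range, nsmul_eq_mul]
  have hlow : (k : ℝ) * (k * (κ / 2)) ≤ ∑ i ∈ range k, ∑ j ∈ range k, ((X i j - S i j) + (Y i j - S' i j)) := by
    have h2 : ∀ i ∈ range k, (k : ℝ) * (κ / 2) ≤ ∑ j ∈ range k, ((X i j - S i j) + (Y i j - S' i j)) := fun i hi => by
      simpa using card_nsmul_le_sum (range k) _ (κ / 2) fun j hj => by
        have := cell i (mem_range.1 hi) j (mem_range.1 hj)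
        have := rare i (mem_range.1 hi) j (mem_range.1 hj)
        linarith
    simpa using card_nsmul_le_sum (range k) _ _ h2
  have hsplit : ∑ i ∈ range k, ∑ j ∈ range k, ((X i j - S i j) + (Y i j - S' i j)) =
      ∑ j ∈ range k, ∑ i ∈ range k, (X i j - S i j) + ∑ i ∈ range k, ∑ j ∈ range k, (Y i j - S' i j) := by
    simp only [sum_add_distrib]
    rw [sum_comm]
  rw [hsplit] at hlow
  have hpos : (0 : ℝ) < k := by
    have : 0 < g * κ * W := lt_of_lt_of_le (by positivity) hB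
    have : 0 < W := (mul_pos_iff_of_pos_left (mul_pos hg hκ)).1 this
    linarith
  have h1 : g * ((k : ℝ) * (k * (κ / 2))) ≤ 2 * (k * (θ * W + B)) := by
    have := mul_le_mul_of_nonneg_left hlow hg.le
    rw [mul_add] at this
    linarith
  have h2 : g * κ * k / 2 ≤ 2 * (θ * W + B) := le_of_mul_le_mul_left (by linarith) hpos
  have h3 := mul_le_mul_of_nonneg_left hk (mul_nonneg hg.le hκ.le)
  rw [hθ] at h2
  linarith [le_abs_self B, abs_nonneg B]

/-- No two corners on a facet, given the estimate in one cell. -/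
theorem no_pair_of_cell (hG : ∀ᵐ t ∂G, 0 < t ∧ t ≤ b) (hV : SmallVar G) (p : Pair (mu G)) (hc : CellStmt G p.ax) :
    False := by
  obtain ⟨g, hg, κ, hκ, hcell⟩ := hc
  set θ := g * κ / 256 with hθ
  have hθ0 : 0 < θ := by positivity
  obtain ⟨B, hB⟩ := line_value hG hV p hθ0
  obtain ⟨B', hB'⟩ := line_value hG hV p.swap hθ0
  have hW := Real.tendsto_sqrt_atTop.comp tendsto_natCast_atTop_atTop
  have hκ8 : 0 < κ / 8 := by linarith
  have hs := stray_small hG hV p hκ8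
  have hs' := stray_small hG hV p.swap hκ8
  have hsl := slip_small hG hV p hκ8
  obtain ⟨n, hn, hns, hns', hnsl, hWn⟩ := ((hW.eventually hcell).and (hs.and (hs'.and (hsl.and
    (hW.eventually_ge_atTop (96 + 8 * p.ax.K + 512 * (max |B| |B'| + 1) / (g * κ))))))).exists
  simp only [Function.comp_apply] at hn hWn
  set W := √(n : ℝ) with hW'
  have hK := p.ax.one_le_K
  have h0 : 0 ≤ 512 * (max |B| |B'| + 1) / (g * κ) := by positivity
  have hW96 : 96 ≤ W := by linarith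
  have hWW : W * W = n := Real.mul_self_sqrt (Nat.cast_nonneg n)
  have hnW : 96 * W ≤ n := hWW ▸ mul_le_mul_of_nonneg_right hW96 (by linarith)
  set k := ⌊W / 16⌋₊ - 2 with hk
  have hk2 : 2 ≤ ⌊W / 16⌋₊ := Nat.le_floor (by push_cast; linarith)
  have hkle : ((k : ℕ) : ℝ) + 2 ≤ W / 16 := by
    have : ((k + 2 : ℕ) : ℝ) ≤ W / 16 := le_trans (by rw [hk, Nat.sub_add_cancel hk2]) (Nat.floor_le (by linarith))
    push_cast at this
    exact this
  have hkge : W / 32 ≤ k := by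
    have := Nat.lt_floor_add_one (W / 16)
    have : ((⌊W / 16⌋₊ : ℕ) : ℝ) = k + 2 := by rw [hk, Nat.cast_sub hk2]; push_cast; ring
    linarith
  have hend : 2 * (8 * W) * ((k : ℝ) + 1) ≤ n - 2 * p.ax.K := by
    have h1 := mul_le_mul_of_nonneg_left hkle (show 0 ≤ 16 * W by linarith)
    rw [show 16 * W * (W / 16) = W * W by ring, hWW] at h1
    nlinarith
  have hpos : ∀ i < k, 0 ≤ (2 * (i : ℝ) + 3) * (8 * W) ∧ (2 * (i : ℝ) + 3) * (8 * W) ≤ n := fun i hi => by
    have hi' : (i : ℝ) + 1 ≤ k := by exact_mod_cast hi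
    refine ⟨by positivity, le_trans (mul_le_mul_of_nonneg_right (show 2 * (i : ℝ) + 3 ≤ 2 * (k + 1) by linarith)
      (by linarith)) (by linarith)⟩
  have hKn : 8 * p.ax.K ≤ n := by linarith
  have hPeq : fl ((3 * n : ℝ) • p.swap.F.v + (3 * n : ℝ) • p.swap.F'.v) =
      fl ((3 * n : ℝ) • p.F.v + (3 * n : ℝ) • p.F'.v) := by
    rw [add_comm]; rfl
  set P := fl ((3 * n : ℝ) • p.F.v + (3 * n : ℝ) • p.F'.v) with hP
  set pos : ℕ → ℝ := fun i => (2 * (i : ℝ) + 3) * (8 * W) with hposdef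
  have hK' : p.swap.ax.K = p.ax.K := by rw [p.swap_ax, p.ax.swap_K]
  refine count_false (k := k) (B := max |B| |B'|) (W := W)
    (fun i j => (law G).real (Cross p.ax (pos i) (pos j) W (8 * W) g P)ᶜ)
    (fun i j => (law G).real (Cross p.ax.swap (pos j) (pos i) W (8 * W) g P)ᶜ)
    (fun i j => (law G).real (Stray p.ax (pos i) (pos j) W (8 * W) (fl ((0 : ℝ) • p.F.v + pos j • p.F'.v))
      (fl ((n : ℝ) • p.F.v + pos j • p.F'.v))))
    (fun i j => (law G).real (Stray p.swap.ax (pos j) (pos i) W (8 * W) (fl ((0 : ℝ) • p.F'.v + pos i • p.F.v))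
      (fl ((n : ℝ) • p.F'.v + pos i • p.F.v))))
    (fun i j => (law G).real (Slip p.ax (pos i) (pos j) W (8 * W) P))
    hg hκ hθ hkge ?_ (by linarith) (fun i _ j _ => hn _ _ _) (fun i hi j hj => ⟨?_, ?_, ?_⟩) (fun j hj => ?_)
    fun i hi => ?_
  · rw [abs_of_nonneg ((abs_nonneg B).trans (le_max_left _ _))]
    have : 512 * (max |B| |B'| + 1) / (g * κ) ≤ W := by linarith
    rw [div_le_iff₀ (by positivity)] at this
    linarith
  · obtain ⟨a1, a2⟩ := p.near_fl 0 (pos j)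
    obtain ⟨z1, z2⟩ := p.near_fl (n : ℝ) (pos j)
    rw [sub_zero] at a1
    exact hns _ _ _ _ (hpos i hi).1 (hpos i hi).2 a1 a2 z1 z2
  · obtain ⟨a1, a2⟩ := p.swap.near_fl 0 (pos i)
    obtain ⟨z1, z2⟩ := p.swap.near_fl (n : ℝ) (pos i)
    rw [sub_zero] at a1
    exact hns' _ _ _ _ (hpos j hj).1 (hpos j hj).2 a1 a2 z1 z2
  · obtain ⟨P1, P2⟩ := p.near_fl (3 * n : ℝ) (3 * n)
    exact hnsl _ _ _ (hpos i hi).1 (hpos i hi).2 (hpos j hj).1 (hpos j hj).2 P1 P2
  · obtain ⟨a1, -⟩ := p.near_fl 0 (pos j)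
    obtain ⟨z1, -⟩ := p.near_fl (n : ℝ) (pos j)
    rw [abs_le] at a1 z1
    refine (line_sum p.ax hG (D := 8 * W) (k := k) (a := fl ((0 : ℝ) • p.F.v + pos j • p.F'.v))
      (z := fl ((n : ℝ) • p.F.v + pos j • p.F'.v)) hg.le (by linarith) (by linarith) (by linarith)).trans
      ((hB n _ hKn (hpos j hj).1 (hpos j hj).2).trans ?_)
    linarith [le_abs_self B, le_max_left |B| |B'|]
  · obtain ⟨a1, -⟩ := p.swap.near_fl 0 (pos i)
    obtain ⟨z1, -⟩ := p.swap.near_fl (n : ℝ) (pos i)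
    rw [abs_le, hK'] at a1 z1
    have h := hB' n _ (by rw [hK']; exact hKn) (hpos i hi).1 (hpos i hi).2
    rw [hPeq] at h
    simp only [show p.swap.F = p.F' from rfl, show p.swap.F' = p.F from rfl] at a1 z1 h
    refine le_trans ?_ (h.trans ?_)
    · exact line_sum p.swap.ax hG hg.le (by rw [hK']; linarith) (by linarith) (by linarith)
    · linarith [le_abs_self B', le_max_right |B| |B'|]

end Vale.Agent.P158.Facet
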