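import Mathlib
import Vale.Agent.P158.V4.Mean
import Vale.Agent.P158.V4.Conc
import Vale.Agent.P158.V4.Defs

/-!
P158 facets, variance: least short paths and the edges that all of them use. An edge that all least
paths use is the only place where the short passage time can increase, and least paths use few edges
at a box, as inside it they compete with a straight path.
-/

namespace Vale.Agent.P158.Facet

open MeasureTheory Vale.Agent.P158.V4

/-- The clamped weight of a list of edges. -/
def cost (b : ℝ) (l : List (Sym2 Pt)) (ω : Cfg) : ℝ := (l.map fun e => clamp b (ω e)).sum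

variable {b : ℝ} {M : ℕ} {u v : Pt}

/-- All least short paths use `e`. -/
def Need (b : ℝ) {M : ℕ} {u v : Pt} (h : l1 u v ≤ M) (e : Sym2 Pt) (ω : Cfg) : Prop :=
  ∀ l ∈ (shortLists_finite M u v).toFinset, e ∉ l → tshort b h ω < cost b l ω

theorem tshort_le_cost (h : l1 u v ≤ M) {l : List (Sym2 Pt)}
    (hl : l ∈ (shortLists_finite M u v).toFinset) (ω : Cfg) : tshort b h ω ≤ cost b l ω :=
  Finset.inf'_le _ hl

theorem exists_least (b : ℝ) (h : l1 u v ≤ M) (ω : Cfg) :
    ∃ p : grid.Walk u v, p.IsPath ∧ p.length ≤ M ∧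
      p.edges ∈ (shortLists_finite M u v).toFinset ∧ cost b p.edges ω = tshort b h ω := by
  obtain ⟨l, hl, hle⟩ := Finset.exists_mem_eq_inf' (shortLists_nonempty h)
    fun l => cost b l ω
  obtain ⟨p, hp, hpM, rfl⟩ := (Set.Finite.mem_toFinset _).1 hl
  exact ⟨p, hp, hpM, hl, hle.symm⟩

theorem measurable_cost (b : ℝ) (l : List (Sym2 Pt)) : Measurable (cost b l) := by
  induction l with
  | nil => simp [show cost b [] = fun _ : Cfg => (0 : ℝ) from rfl]
  | cons e l ih =>
    have : cost b (e :: l) = fun ω => clamp b (ω e) + cost b l ω := by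
      funext ω; simp [cost]
    rw [this]
    refine Measurable.add ?_ ih
    unfold clamp
    fun_prop

theorem measurableSet_need (h : l1 u v ≤ M) (e : Sym2 Pt) : MeasurableSet {ω | Need b h e ω} := by
  simp only [Need, Set.ofPred_forall]
  exact Finset.measurableSet_biInter _ fun l _ => MeasurableSet.iInter fun _ =>
    measurableSet_lt (measurable_tshort b h) (measurable_cost b l)

theorem clamp_mono {x y : ℝ} (hxy : x ≤ y) : clamp b x ≤ clamp b y :=
  max_le_max le_rfl (min_le_min le_rfl hxy)

theorem clamp_sub_le {x y : ℝ} (hxy : x ≤ y) : clamp b y ≤ clamp b x + (y - x) := by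
  unfold clamp
  rcases le_total b x with h | h
  · rw [min_eq_left h, min_eq_left (h.trans hxy)]
    linarith
  · rw [min_eq_right h]
    refine max_le ?_ ((min_le_right b y).trans ?_)
    · linarith [le_max_left (0 : ℝ) x]
    · linarith [le_max_right (0 : ℝ) x]

theorem tshort_update_ge (h : l1 u v ≤ M) {ω : Cfg} {e : Sym2 Pt} {t : ℝ} (ht : ω e ≤ t) :
    tshort b h ω ≤ tshort b h (Function.update ω e t) := by
  refine Finset.le_inf' _ _ fun l hl => (tshort_le_cost h hl ω).trans ?_
  refine List.sum_le_sum fun c _ => clamp_mono ?_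
  rcases eq_or_ne c e with rfl | hc
  · rwa [Function.update_self]
  · rw [Function.update_of_ne hc]

theorem tshort_update_le (h : l1 u v ≤ M) {ω : Cfg} {e : Sym2 Pt} {t : ℝ} (ht : ω e ≤ t) :
    tshort b h (Function.update ω e t) - tshort b h ω ≤
      {x | Need b h e x}.indicator (fun _ => (1 : ℝ)) ω * (t - ω e) := by
  by_cases hn : Need b h e ω
  · rw [Set.indicator_of_mem (by exact hn), one_mul, sub_le_iff_le_add']
    obtain ⟨p, hp, -, hl, hle⟩ := exists_least b h ω
    refine (tshort_le_cost h hl _).trans ?_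
    rw [← hle]
    refine (sum_change (x := fun c => clamp b (ω c)) (a := e) ?_ (sub_nonneg.2 ht)
      (fun c hc => by rw [Function.update_of_ne hc]) _ hp.isTrail.edges_nodup).trans ?_
    · rw [Function.update_self]
      exact clamp_sub_le ht
    · refine add_le_add le_rfl ?_
      split_ifs
      · exact le_rfl
      · exact sub_nonneg.2 ht
  · rw [Set.indicator_of_notMem (by exact hn), zero_mul, sub_nonpos]
    simp only [Need, not_forall, not_lt] at hn
    obtain ⟨l, hl, hel, hle⟩ := hn
    refine (tshort_le_cost h hl _).trans (le_of_eq_of_le ?_ hle)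
    exact congrArg List.sum (List.map_congr_left fun c hc => by
      rw [Function.update_of_ne (ne_of_mem_of_not_mem hc hel)])

theorem need_anti (h : l1 u v ≤ M) {ω : Cfg} {a e : Sym2 Pt} {t : ℝ} (hae : a = e) (ht : ω e ≤ t)
    (hn : Need b h a (Function.update ω e t)) : Need b h a ω := by
  subst hae
  intro l hl hel
  have h1 := (tshort_update_ge h ht).trans_lt (hn l hl hel)
  refine h1.trans_eq (congrArg List.sum (List.map_congr_left fun c hc => ?_))
  rw [Function.update_of_ne (ne_of_mem_of_not_mem hc hel)]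

theorem need_congr (h : l1 u v ≤ M) {ω ω' : Cfg} (e : Sym2 Pt)
    (he : ∀ l ∈ (shortLists_finite M u v).toFinset, ∀ c ∈ l, ω c = ω' c) :
    (Need b h e ω ↔ Need b h e ω') ∧ tshort b h ω = tshort b h ω' := by
  have h1 : ∀ l ∈ (shortLists_finite M u v).toFinset, cost b l ω = cost b l ω' := fun l hl =>
    congrArg List.sum (List.map_congr_left fun c hc => by rw [he l hl c hc])
  have h2 : tshort b h ω = tshort b h ω' := Finset.inf'_congr _ rfl h1
  exact ⟨forall₂_congr fun l hl => by rw [h1 l hl, h2], h2⟩

theorem exists_first {u v : Pt} (p : grid.Walk u v) (P : Pt → Prop) (h : ∃ z ∈ p.support, P z) :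
    ∃ (a : Pt) (q : grid.Walk u a) (r : grid.Walk a v), p = q.append r ∧ P a ∧
      ∀ z ∈ q.support, P z → z = a := by
  induction p with
  | nil =>
    obtain ⟨z, hz, hP⟩ := h
    simp only [SimpleGraph.Walk.support_nil, List.mem_singleton] at hz
    subst hz
    exact ⟨_, .nil, .nil, rfl, hP, fun z hz _ => by simpa using hz⟩
  | @cons u y v hadj p ih =>
    by_cases hu : P u
    · exact ⟨u, .nil, .cons hadj p, rfl, hu, fun z hz _ => by simpa using hz⟩
    · obtain ⟨a, q, r, rfl, ha, hq⟩ := ih (by
        obtain ⟨z, hz, hP⟩ := h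
        rw [SimpleGraph.Walk.support_cons, List.mem_cons] at hz
        rcases hz with rfl | hz
        · exact absurd hP hu
        · exact ⟨z, hz, hP⟩)
      refine ⟨a, .cons hadj q, r, rfl, ha, fun z hz hP => ?_⟩
      rw [SimpleGraph.Walk.support_cons, List.mem_cons] at hz
      rcases hz with rfl | hz
      · exact absurd hP hu
      · exact hq z hz hP

open Classical in
/-- A least path has few edges at a box whose sites start no cheap path. -/
theorem touched_le (hb : 0 ≤ b) {c : ℝ} (h : l1 u v ≤ M) {ω : Cfg} {p : grid.Walk u v}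
    (hpM : p.length ≤ M) (hmin : cost b p.edges ω = tshort b h ω) (P : Pt → Prop) {d L₀ : ℕ}
    (hd : ∀ a a' : Pt, P a → P a' → l1 a a' ≤ d) (hL : d ≤ L₀) (hc : 0 < c)
    (hdb : (d : ℝ) * b < c * L₀)
    (hcheap : ∀ a, P a → (fun e => clamp b (ω e)) ∉ Cheap a L₀ c) (hp : p.IsPath) :
    (p.edges.toFinset.filter fun f => ∃ z ∈ f, P z).card ≤ L₀ + 8 := by
  by_cases hex : ∃ z ∈ p.support, P z
  swap
  · refine le_trans (le_of_eq (Finset.card_eq_zero.2 (Finset.filter_eq_empty_iff.2 ?_))) (Nat.zero_le _)
    rintro f hf ⟨z, hz, hPz⟩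
    exact hex ⟨z, SimpleGraph.Walk.mem_support_of_mem_edges (List.mem_toFinset.1 hf) hz, hPz⟩
  obtain ⟨a, q, r, hpe, ha, hq⟩ := exists_first p P hex
  obtain ⟨a', q₂', s', hre, ha', hq₂⟩ := exists_first r.reverse P ⟨a, by simp, ha⟩
  set s := s'.reverse
  set q₂ := q₂'.reverse
  have hr : r = s.append q₂ := by
    rw [← SimpleGraph.Walk.reverse_reverse r, hre, SimpleGraph.Walk.reverse_append]
  have hsP : s.IsPath := by
    have h1 : r.IsPath := by
      rw [hpe] at hp
      exact hp.of_append_right
    rw [hr] at h1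
    exact h1.of_append_left
  have hlen : p.length = q.length + (s.length + q₂.length) := by
    rw [hpe, hr, SimpleGraph.Walk.length_append, SimpleGraph.Walk.length_append]
  have hseg : s.length ≤ L₀ := by
    by_contra hlt
    push Not at hlt
    set ω' : Cfg := fun e => clamp b (ω e) with hω'
    have h0 : ∀ e, 0 ≤ ω' e := fun e => (clamp_mem hb _).1
    obtain ⟨t, ht⟩ := exists_short a a'
    set n := (q.append (t.append q₂)).bypass
    have hn : n.edges ∈ (shortLists_finite M u v).toFinset := by
      refine (Set.Finite.mem_toFinset _).2 ⟨n, SimpleGraph.Walk.bypass_isPath _, ?_, rfl⟩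
      refine (SimpleGraph.Walk.length_bypass_le _).trans ?_
      rw [SimpleGraph.Walk.length_append, SimpleGraph.Walk.length_append, ht]
      have := hd a a' ha ha'
      omega
    have h1 : wt ω' p ≤ wt ω' n := le_of_eq_of_le hmin (tshort_le_cost h hn ω)
    have h2 : wt ω' n ≤ wt ω' q + (wt ω' t + wt ω' q₂) := by
      rw [← wt_append, ← wt_append]
      exact wt_bypass_le h0 _
    have h3 : wt ω' t ≤ (d : ℝ) * b := by
      refine (wt_le_length (fun e => (clamp_mem hb _).2) t).trans ?_
      rw [ht]
      exact mul_le_mul_of_nonneg_right (Nat.cast_le.2 (hd a a' ha ha')) hb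
    have h4 := not_cheap (hcheap a ha) s hsP hlt.le
    rw [hpe, hr, wt_append, wt_append] at h1
    have h5 : c * (L₀ : ℝ) ≤ c * s.length :=
      mul_le_mul_of_nonneg_left (Nat.cast_le.2 hlt.le) hc.le
    linarith
  set star : Pt → Finset (Sym2 Pt) := fun z => Finset.univ.image fun i => s(z, z + step i)
  have hstar : ∀ {x y : Pt} (w : grid.Walk x y) (f : Sym2 Pt), f ∈ w.edges → ∀ z ∈ f, f ∈ star z := by
    intro x y w f hf z hz
    obtain ⟨z', rfl⟩ := Sym2.mem_iff_exists.1 hz
    obtain ⟨i, hi⟩ := exists_step (SimpleGraph.Walk.adj_of_mem_edges w hf)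
    exact Finset.mem_image.2 ⟨i, Finset.mem_univ _, by rw [hi]⟩
  have hsub : (p.edges.toFinset.filter fun f => ∃ z ∈ f, P z) ⊆
      s.edges.toFinset ∪ (star a ∪ star a') := by
    intro f hf
    obtain ⟨hf, z, hz, hP⟩ := Finset.mem_filter.1 hf
    rw [List.mem_toFinset, hpe, hr, SimpleGraph.Walk.edges_append, SimpleGraph.Walk.edges_append,
      List.mem_append, List.mem_append] at hf
    simp only [Finset.mem_union, List.mem_toFinset]
    rcases hf with hf | hf | hf
    · have := hq z (SimpleGraph.Walk.mem_support_of_mem_edges hf hz) hP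
      exact Or.inr (Or.inl (hstar q f hf a (this ▸ hz)))
    · exact Or.inl hf
    · have hf' : f ∈ q₂'.edges := by simpa [q₂] using hf
      have := hq₂ z (SimpleGraph.Walk.mem_support_of_mem_edges hf' hz) hP
      exact Or.inr (Or.inr (hstar q₂' f hf' a' (this ▸ hz)))
  have h4 : ∀ z, (star z).card ≤ 4 := fun z => Finset.card_image_le.trans (by simp)
  refine (Finset.card_le_card hsub).trans ((Finset.card_union_le _ _).trans ?_)
  have h5 : s.edges.toFinset.card ≤ s.length :=
    (List.toFinset_card_le _).trans_eq (SimpleGraph.Walk.length_edges s)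
  have h6 := (Finset.card_union_le (star a) (star a')).trans (add_le_add (h4 a) (h4 a'))
  omega

end Vale.Agent.P158.Facet
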