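import Mathlib

/-!
P158 facets: the Falik–Samorodnitsky variance inequality on the discrete cube.
-/

namespace Vale.Agent.P158.Facet

open Finset

variable {N : ℕ}

/-- The average over the cube. -/
noncomputable def avg (f : (Fin N → Bool) → ℝ) : ℝ := (∑ x, f x) / 2 ^ N

/-- Half the difference in one coordinate. -/
noncomputable def pd (k : Fin N) (f : (Fin N → Bool) → ℝ) (x : Fin N → Bool) : ℝ :=
  (f (Function.update x k true) - f (Function.update x k false)) / 2

/-- The Dirichlet form. -/
noncomputable def energy (f : (Fin N → Bool) → ℝ) : ℝ := ∑ k, avg fun x => pd k f x ^ 2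

/-- The entropy of the square. -/
noncomputable def ent (f : (Fin N → Bool) → ℝ) : ℝ :=
  avg fun x => f x ^ 2 * Real.log (f x ^ 2 / avg fun y => f y ^ 2)

theorem avg_nonneg {f : (Fin N → Bool) → ℝ} (h : ∀ x, 0 ≤ f x) : 0 ≤ avg f :=
  div_nonneg (sum_nonneg fun x _ => h x) (by positivity)

theorem avg_mono {f g : (Fin N → Bool) → ℝ} (h : ∀ x, f x ≤ g x) : avg f ≤ avg g :=
  div_le_div_of_nonneg_right (sum_le_sum fun x _ => h x) (by positivity)

theorem avg_add (f g : (Fin N → Bool) → ℝ) : avg (fun x => f x + g x) = avg f + avg g := by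
  simp [avg, sum_add_distrib, add_div]

theorem avg_sub (f g : (Fin N → Bool) → ℝ) : avg (fun x => f x - g x) = avg f - avg g := by
  simp [avg, sum_sub_distrib, sub_div]

theorem avg_mul (c : ℝ) (f : (Fin N → Bool) → ℝ) : avg (fun x => c * f x) = c * avg f := by
  simp [avg, ← mul_sum, mul_div_assoc]

theorem avg_const (c : ℝ) : avg (fun _ : Fin N → Bool => c) = c := by
  simp [avg]

theorem avg_cons (f : (Fin (N + 1) → Bool) → ℝ) :
    avg f = avg fun y => (f (Fin.cons true y) + f (Fin.cons false y)) / 2 := by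
  unfold avg
  rw [← (Fin.consEquiv fun _ : Fin (N + 1) => Bool).sum_comp f, Fintype.sum_prod_type,
    Fintype.sum_bool, ← sum_div, sum_add_distrib, pow_succ, div_div, mul_comm]
  rfl

theorem pd_zero (f : (Fin (N + 1) → Bool) → ℝ) (c : Bool) (y : Fin N → Bool) :
    pd 0 f (Fin.cons c y) = (f (Fin.cons true y) - f (Fin.cons false y)) / 2 := by
  simp [pd, Fin.update_cons_zero]

theorem pd_succ (f : (Fin (N + 1) → Bool) → ℝ) (k : Fin N) (c : Bool) (y : Fin N → Bool) :
    pd k.succ f (Fin.cons c y) = pd k (fun z => f (Fin.cons c z)) y := by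
  simp [pd, Fin.cons_update]

theorem energy_cons (f : (Fin (N + 1) → Bool) → ℝ) :
    energy f = avg (fun y => ((f (Fin.cons true y) - f (Fin.cons false y)) / 2) ^ 2) +
      (energy (fun y => f (Fin.cons true y)) + energy (fun y => f (Fin.cons false y))) / 2 := by
  simp only [energy, Fin.sum_univ_succ]
  congr 1
  · rw [avg_cons]
    simp [pd_zero]
  · rw [← sum_add_distrib, sum_div]
    refine sum_congr rfl fun k _ => ?_
    rw [avg_cons, ← avg_add]
    simp only [pd_succ, avg, sum_div]
    refine sum_congr rfl fun y _ => ?_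
    ring

theorem energy_nonneg (f : (Fin N → Bool) → ℝ) : 0 ≤ energy f :=
  sum_nonneg fun _ _ => avg_nonneg fun _ => sq_nonneg _

/-- Two-point logarithmic Sobolev inequality. -/
theorem two_point (a b : ℝ) :
    (a ^ 2 * Real.log (a ^ 2 / ((a ^ 2 + b ^ 2) / 2)) + b ^ 2 * Real.log (b ^ 2 / ((a ^ 2 + b ^ 2) / 2))) / 2 ≤
      4 * ((a - b) / 2) ^ 2 := by
  rcases (add_nonneg (sq_nonneg a) (sq_nonneg b)).eq_or_lt with h | h
  · have ha : a = 0 := by nlinarith [sq_nonneg a, sq_nonneg b]
    have hb : b = 0 := by nlinarith [sq_nonneg a, sq_nonneg b]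
    simp [ha, hb]
  set m := (a ^ 2 + b ^ 2) / 2 with hm
  have hm0 : 0 < m := by positivity
  have key : ∀ x : ℝ, x ^ 2 * Real.log (x ^ 2 / m) ≤ x ^ 2 * (x ^ 2 / m - 1) := by
    intro x
    rcases eq_or_ne x 0 with rfl | hx
    · simp
    · exact mul_le_mul_of_nonneg_left (Real.log_le_sub_one_of_pos (by positivity)) (sq_nonneg x)
  have e : a ^ 2 * (a ^ 2 / m - 1) + b ^ 2 * (b ^ 2 / m - 1) = (a - b) ^ 2 * ((a + b) ^ 2 / (a ^ 2 + b ^ 2)) := by
    rw [hm]
    field_simp
    ring
  have h2 : (a + b) ^ 2 / (a ^ 2 + b ^ 2) ≤ 2 := by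
    rw [div_le_iff₀ h]
    nlinarith [sq_nonneg (a - b)]
  nlinarith [key a, key b, mul_le_mul_of_nonneg_left h2 (sq_nonneg (a - b))]

theorem log_split (x m M : ℝ) (hm : x ≠ 0 → 0 < m) (hM : x ≠ 0 → 0 < M) :
    x ^ 2 * Real.log (x ^ 2 / M) = x ^ 2 * Real.log (x ^ 2 / m) + x ^ 2 * Real.log (m / M) := by
  rcases eq_or_ne x 0 with rfl | hx
  · simp
  have h1 := hm hx
  have h2 := hM hx
  have h3 : (0 : ℝ) < x ^ 2 := by positivity
  rw [Real.log_div h3.ne' h2.ne', Real.log_div h3.ne' h1.ne', Real.log_div h1.ne' h2.ne']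
  ring

theorem sqrt_pd_sq (a b a' b' : ℝ) :
    ((√((a ^ 2 + b ^ 2) / 2) - √((a' ^ 2 + b' ^ 2) / 2)) / 2) ^ 2 ≤
      (((a - a') / 2) ^ 2 + ((b - b') / 2) ^ 2) / 2 := by
  set u := √((a ^ 2 + b ^ 2) / 2)
  set w := √((a' ^ 2 + b' ^ 2) / 2)
  have hu : u ^ 2 = (a ^ 2 + b ^ 2) / 2 := Real.sq_sqrt (by positivity)
  have hw : w ^ 2 = (a' ^ 2 + b' ^ 2) / 2 := Real.sq_sqrt (by positivity)
  have hp : 0 ≤ u * w := mul_nonneg (Real.sqrt_nonneg _) (Real.sqrt_nonneg _)
  have h : (a * a' + b * b') / 2 ≤ u * w := by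
    refine (le_abs_self _).trans (abs_le_of_sq_le_sq ?_ hp)
    rw [mul_pow, hu, hw]
    nlinarith [sq_nonneg (a * b' - b * a')]
  nlinarith

/-- The logarithmic Sobolev inequality on the cube. -/
theorem ent_le : ∀ {N : ℕ} (f : (Fin N → Bool) → ℝ), ent f ≤ 4 * energy f
  | 0, f => by
    have hsub : ∀ g : (Fin 0 → Bool) → ℝ, avg g = g default := fun g => by
      simp only [avg, pow_zero, div_one]
      exact Fintype.sum_subsingleton g default
    rw [ent, hsub, hsub]
    rcases eq_or_ne (f default) 0 with h | h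
    · simp [energy]
    · rw [div_self (pow_ne_zero 2 h)]
      simp [energy]
  | N + 1, f => by
    set a := fun y => f (Fin.cons true y) with ha
    set b := fun y => f (Fin.cons false y) with hb
    set g := fun y => √((a y ^ 2 + b y ^ 2) / 2) with hg
    have hsq : ∀ y, g y ^ 2 = (a y ^ 2 + b y ^ 2) / 2 := fun y => Real.sq_sqrt (by positivity)
    have ih := ent_le g
    set M := avg fun x => f x ^ 2 with hM
    have hM' : M = avg fun y => g y ^ 2 := by
      rw [hM, avg_cons]; exact congrArg avg (funext fun y => (hsq y).symm)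
    have hpos : ∀ y, (a y ≠ 0 ∨ b y ≠ 0) → 0 < g y ^ 2 ∧ 0 < M := by
      intro y h
      have h1 : 0 < g y ^ 2 := by
        rw [hsq]
        rcases h with h | h <;> positivity
      refine ⟨h1, ?_⟩
      rw [hM']
      exact div_pos (sum_pos' (fun z _ => sq_nonneg _) ⟨y, mem_univ y, h1⟩) (by positivity)
    have split : ent f = avg (fun y => (a y ^ 2 * Real.log (a y ^ 2 / g y ^ 2) +
        b y ^ 2 * Real.log (b y ^ 2 / g y ^ 2)) / 2) + ent g := by
      rw [ent, avg_cons, ent, ← hM', ← avg_add]
      refine congrArg avg (funext fun y => ?_)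
      rw [← hM, log_split (f (Fin.cons true y)) (g y ^ 2) M (fun h => (hpos y (Or.inl h)).1) fun h => (hpos y (Or.inl h)).2,
        log_split (f (Fin.cons false y)) (g y ^ 2) M (fun h => (hpos y (Or.inr h)).1) fun h => (hpos y (Or.inr h)).2]
      simp only [ha, hb] at hsq ⊢
      linear_combination -Real.log (g y ^ 2 / M) * hsq y
    have first : avg (fun y => (a y ^ 2 * Real.log (a y ^ 2 / g y ^ 2) +
        b y ^ 2 * Real.log (b y ^ 2 / g y ^ 2)) / 2) ≤ 4 * avg (fun y => ((a y - b y) / 2) ^ 2) := by
      rw [← avg_mul]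
      exact avg_mono fun y => by rw [hsq]; exact two_point _ _
    have second : energy g ≤ (energy a + energy b) / 2 := by
      unfold energy
      rw [← sum_add_distrib, sum_div]
      refine sum_le_sum fun k _ => ?_
      rw [← avg_add]
      calc avg (fun x => pd k g x ^ 2) ≤ avg (fun x => (pd k a x ^ 2 + pd k b x ^ 2) / 2) :=
            avg_mono fun x => sqrt_pd_sq _ _ _ _
        _ = avg (fun x => pd k a x ^ 2 + pd k b x ^ 2) / 2 := by simp [avg, sum_div, div_div, mul_comm]
    rw [split, energy_cons]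
    linarith

/-- Entropy dominates the second moment unless the first moment is large. -/
theorem le_ent (f : (Fin N → Bool) → ℝ) {M : ℝ} (hM : 0 < M) :
    avg (fun x => f x ^ 2) * (Real.log M + 1) - M * (avg fun x => |f x|) ^ 2 ≤ ent f := by
  set a := avg fun x => f x ^ 2 with ha
  set l := avg fun x => |f x| with hl
  have ha0 : 0 ≤ a := avg_nonneg fun x => sq_nonneg _
  set p := √M
  have hp : 0 < p := Real.sqrt_pos.2 hM
  have hp2 : p ^ 2 = M := Real.sq_sqrt hM.le
  have key : ∀ x, 2 * (Real.log p + 1) * f x ^ 2 - 2 * p * √a * |f x| ≤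
      f x ^ 2 * Real.log (f x ^ 2 / a) := by
    intro x
    rcases eq_or_ne (f x) 0 with h | h
    · simp [h]
    have haa : 0 < a := by
      rw [ha]
      exact div_pos (sum_pos' (fun z _ => sq_nonneg _) ⟨x, mem_univ x, by positivity⟩) (by positivity)
    have hs : 0 < √a := Real.sqrt_pos.2 haa
    have hx : 0 < |f x| := abs_pos.2 h
    have hy : 0 < |f x| / (p * √a) := by positivity
    have e : Real.log (f x ^ 2 / a) = 2 * (Real.log (|f x| / (p * √a)) + Real.log p) := by
      rw [← Real.log_mul hy.ne' hp.ne', show |f x| / (p * √a) * p = |f x| / √a by field_simp,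
        show f x ^ 2 / a = (|f x| / √a) ^ 2 by rw [div_pow, sq_abs, Real.sq_sqrt ha0], Real.log_pow]
      norm_num
    have h1 := Real.log_le_sub_one_of_pos (inv_pos.2 hy)
    rw [Real.log_inv] at h1
    have h2 : f x ^ 2 * (|f x| / (p * √a))⁻¹ = p * √a * |f x| := by
      rw [← sq_abs]; field_simp
    rw [e]
    nlinarith [mul_le_mul_of_nonneg_left h1 (sq_nonneg (f x))]
  have h := avg_mono key
  rw [avg_sub, avg_mul, avg_mul] at h
  change 2 * (Real.log p + 1) * a - 2 * p * √a * l ≤ ent f at h
  have hlog : Real.log M = 2 * Real.log p := by rw [← hp2, Real.log_pow]; norm_num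
  rw [hlog]
  nlinarith [sq_nonneg (√a - p * l), Real.sq_sqrt ha0]

/-- Falik–Samorodnitsky: small influences force a small variance. -/
theorem variance_le : ∀ {N : ℕ} (f : (Fin N → Bool) → ℝ) {M : ℝ}, 1 ≤ M →
    (avg (fun x => f x ^ 2) - avg f ^ 2) * Real.log M ≤
      4 * energy f + M * ∑ k, (avg fun x => |pd k f x|) ^ 2
  | 0, f, M, _ => by simp [avg, energy]
  | N + 1, f, M, hM => by
    set a := fun y => f (Fin.cons true y) with ha
    set b := fun y => f (Fin.cons false y) with hb
    set g := fun y => (a y + b y) / 2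
    set d := fun y => (a y - b y) / 2
    have ih := variance_le g hM
    have hvar : avg (fun x => f x ^ 2) = avg (fun y => g y ^ 2) + avg (fun y => d y ^ 2) := by
      rw [avg_cons, ← avg_add]
      exact congrArg avg (funext fun y => by simp only [g, d, ha, hb]; ring)
    have hmean : avg f = avg g := avg_cons f
    have hen : energy f = avg (fun y => d y ^ 2) + energy g + energy d := by
      rw [energy_cons, add_assoc]
      congr 1
      unfold energy
      rw [← sum_add_distrib, ← sum_add_distrib, sum_div]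
      refine sum_congr rfl fun k _ => ?_
      simp only [avg, ← sum_add_distrib, ← add_div, div_div, sum_div]
      refine sum_congr rfl fun y _ => ?_
      simp only [pd, g, d, ha, hb]
      ring
    have hinf : ∑ k, (avg fun x => |pd k g x|) ^ 2 + (avg fun y => |d y|) ^ 2 ≤
        ∑ k, (avg fun x => |pd k f x|) ^ 2 := by
      rw [Fin.sum_univ_succ (f := fun k => (avg fun x => |pd k f x|) ^ 2), add_comm]
      refine add_le_add (le_of_eq ?_) (sum_le_sum fun k _ => ?_)
      · rw [avg_cons]
        simp only [pd_zero, d, ha, hb]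
        congr 1
        exact congrArg avg (funext fun y => by ring)
      · refine pow_le_pow_left₀ (avg_nonneg fun _ => abs_nonneg _) ?_ 2
        rw [avg_cons (fun x => |pd k.succ f x|)]
        refine avg_mono fun y => ?_
        rw [pd_succ, pd_succ]
        simp only [pd, g, ha, hb]
        rw [show ((f (Fin.cons true (Function.update y k true)) + f (Fin.cons false (Function.update y k true))) / 2 -
            (f (Fin.cons true (Function.update y k false)) + f (Fin.cons false (Function.update y k false))) / 2) / 2 =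
          ((f (Fin.cons true (Function.update y k true)) - f (Fin.cons true (Function.update y k false))) / 2 +
            (f (Fin.cons false (Function.update y k true)) - f (Fin.cons false (Function.update y k false))) / 2) / 2 by ring,
          abs_div, abs_two]
        exact div_le_div_of_nonneg_right (abs_add_le _ _) two_pos.le
    have hd := (le_ent d (zero_lt_one.trans_le hM)).trans (ent_le d)
    have h0 : 0 ≤ avg fun y => d y ^ 2 := avg_nonneg fun _ => sq_nonneg _
    rw [hvar, hmean, hen]
    nlinarith [mul_le_mul_of_nonneg_left hinf (zero_le_one.trans hM)]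

end Vale.Agent.P158.Facet
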