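import Mathlib
import Vale.Agent.P158.Facet.Cube
import Vale.Agent.P158.V4.TiltGain

/-!
P158 facets: small variance of monotone concave functions of many i.i.d. quantile-transformed marks.

A mark is split into its dyadic interval and the position inside. The positions are handled by
Efron–Stein, the intervals by the inequality on the cube.
-/

namespace Vale.Agent.P158.Facet

open MeasureTheory Finset Vale.Agent.P158.V4

instance isProbabilityMeasure_unif : IsProbabilityMeasure unif := by
  unfold unif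
  exact ⟨by simp⟩

theorem sum_update {ι κ : Type*} [Fintype ι] [DecidableEq ι] [Fintype κ]
    (F : (ι → κ) → ℝ) (i : ι) :
    ∑ Y : ι → κ, ∑ k, F (Function.update Y i k) = Fintype.card κ * ∑ Y, F Y := by
  classical
  let σ : (ι → κ) × κ → (ι → κ) × κ := fun p => (Function.update p.1 i p.2, p.1 i)
  have hσ : Function.Involutive σ := fun p => by simp [σ]
  calc ∑ Y : ι → κ, ∑ k, F (Function.update Y i k) = ∑ p : (ι → κ) × κ, F (σ p).1 := by
        rw [Fintype.sum_prod_type]
    _ = ∑ p : (ι → κ) × κ, F p.1 :=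
        Fintype.sum_bijective σ hσ.bijective (fun p => F (σ p).1) (fun p => F p.1) fun p => rfl
    _ = _ := by
        rw [Fintype.sum_prod_type, Finset.mul_sum]
        simp

/-- The mark in the interval with index `k` at relative position `r`. -/
noncomputable def phi (K : ℕ) (k : Fin K) (r : ℝ) : ℝ := ((k : ℕ) + clamp 1 r) / K

theorem phi_mem {K : ℕ} (k : Fin K) (r : ℝ) :
    ((k : ℕ) : ℝ) / K ≤ phi K k r ∧ phi K k r ≤ (((k : ℕ) : ℝ) + 1) / K := by
  have h := clamp_mem zero_le_one r
  unfold phi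
  constructor <;> gcongr <;> linarith

theorem phi_le {K : ℕ} {k l : Fin K} (h : k ≤ l) (r : ℝ) : phi K k r ≤ phi K l r := by
  unfold phi
  gcongr
  exact_mod_cast h

theorem measurable_phi (K : ℕ) (k : Fin K) : Measurable (phi K k) := by
  unfold phi clamp
  fun_prop

theorem sum_map_phi {K : ℕ} (hK : 0 < K) :
    ∑ k : Fin K, unif.map (phi K k) = (K : NNReal) • unif := by
  refine Measure.ext_of_Iic _ _ fun t => ?_
  have hu : ∀ s : ℝ, unif (Set.Iic s) = ENNReal.ofReal (min 1 s) := fun s => by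
    rw [unif, Measure.restrict_apply measurableSet_Iic]
    rcases le_total s 1 with h | h
    · rw [show Set.Iic s ∩ Set.Icc 0 1 = Set.Icc 0 s from Set.ext fun x => by
        simp only [Set.mem_inter_iff, Set.mem_Iic, Set.mem_Icc]
        exact ⟨fun hx => ⟨hx.2.1, hx.1⟩, fun hx => ⟨hx.2, hx.1, hx.2.trans h⟩⟩,
        Real.volume_Icc, min_eq_right h, sub_zero]
    · rw [show Set.Iic s ∩ Set.Icc 0 1 = Set.Icc 0 1 from
        Set.inter_eq_right.2 fun x hx => hx.2.trans h, Real.volume_Icc, min_eq_left h, sub_zero]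
  have hK' : (0 : ℝ) < K := by exact_mod_cast hK
  have hk : ∀ k : Fin K, (unif.map (phi K k)) (Set.Iic t) = ENNReal.ofReal (min 1 (K * t - (k : ℕ))) := by
    intro k
    rw [Measure.map_apply (measurable_phi K k) measurableSet_Iic, ← hu]
    refine measure_congr ?_
    filter_upwards [ae_unif] with r hr
    refine propext ?_
    change phi K k r ≤ t ↔ r ≤ K * t - (k : ℕ)
    rw [phi, clamp_of_mem hr.1.le hr.2.le, div_le_iff₀ hK']
    constructor <;> intro <;> linarith
  have hsum : ∀ (s : ℝ) (n : ℕ),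
      ∑ k ∈ range n, max 0 (min 1 (s - k)) = max 0 (min (n : ℝ) s) := by
    intro s n
    induction n with
    | zero => simp
    | succ n ih =>
      rw [sum_range_succ, ih]
      push_cast
      have : (0 : ℝ) ≤ n := Nat.cast_nonneg n
      rcases le_total s n with h | h
      · rw [min_eq_right h, min_eq_right (show s ≤ (n : ℝ) + 1 by linarith),
          min_eq_right (show s - n ≤ 1 by linarith), max_eq_left (show s - n ≤ 0 by linarith), add_zero]
      · rw [min_eq_left h, max_eq_right this, max_eq_right (le_min zero_le_one (sub_nonneg.2 h)),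
          ← min_add_add_left, add_sub_cancel, max_eq_right (le_min (by linarith) (this.trans h))]
  have hmax : ∀ x : ℝ, ENNReal.ofReal x = ENNReal.ofReal (max 0 x) := fun x => by
    rcases le_total x 0 with h | h
    · simp [h, ENNReal.ofReal_of_nonpos h]
    · simp [h]
  simp only [Measure.coe_finsetSum, Finset.sum_apply, Measure.smul_apply, hk]
  rw [hu, Fin.sum_univ_eq_sum_range (fun k => ENNReal.ofReal (min 1 ((K : ℝ) * t - k))) K]
  simp only [hmax (min 1 _)]
  rw [← ENNReal.ofReal_sum_of_nonneg fun k _ => le_max_left _ _, hsum, ENNReal.smul_def,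
    smul_eq_mul, ENNReal.coe_natCast, ← ENNReal.ofReal_natCast, ← ENNReal.ofReal_mul (Nat.cast_nonneg K),
    mul_max_of_nonneg _ _ hK'.le, mul_zero, mul_min_of_nonneg _ _ hK'.le, mul_one]

theorem pi_split (N : ℕ) {K : ℕ} (hK : 0 < K) :
    ∑ Y : Fin N → Fin K, Measure.pi (fun i => unif.map (phi K (Y i))) =
      ((K : NNReal) ^ N) • Measure.pi fun _ : Fin N => unif := by
  have hp : ∀ k : Fin K, IsProbabilityMeasure (unif.map (phi K k)) := fun k =>
    Measure.isProbabilityMeasure_map (measurable_phi K k).aemeasurable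
  have h1 : Measure.pi (fun _ : Fin N => ∑ k : Fin K, unif.map (phi K k)) =
      ∑ Y : Fin N → Fin K, Measure.pi (fun i => unif.map (phi K (Y i))) := by
    refine Measure.pi_eq fun s _ => ?_
    simp only [Measure.coe_finsetSum, Finset.sum_apply, Measure.pi_pi]
    rw [Fintype.prod_sum]
  rw [← h1, sum_map_phi hK]
  refine Measure.pi_eq fun s _ => ?_
  simp [Measure.pi_pi, ENNReal.smul_def, Finset.prod_mul_distrib]

theorem integral_split (N : ℕ) {K : ℕ} (hK : 0 < K) {h : (Fin N → ℝ) → ℝ} (hm : Measurable h)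
    {B : ℝ} (hB : ∀ U, |h U| ≤ B) :
    ∫ U, h U ∂Measure.pi (fun _ : Fin N => unif) =
      (∑ Y : Fin N → Fin K, ∫ R, h (fun i => phi K (Y i) (R i)) ∂Measure.pi (fun _ : Fin N => unif)) /
        (K : ℝ) ^ N := by
  have hp : ∀ k : Fin K, IsProbabilityMeasure (unif.map (phi K k)) := fun k =>
    Measure.isProbabilityMeasure_map (measurable_phi K k).aemeasurable
  have hY : ∀ Y : Fin N → Fin K, ∫ R, h (fun i => phi K (Y i) (R i)) ∂Measure.pi (fun _ : Fin N => unif) =
      ∫ U, h U ∂Measure.pi (fun i => unif.map (phi K (Y i))) := fun Y => by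
    rw [← Measure.pi_map_pi fun i => (measurable_phi K (Y i)).aemeasurable]
    exact (integral_map (measurable_pi_iff.2 fun i =>
      (measurable_phi K (Y i)).comp (measurable_pi_apply i)).aemeasurable hm.aestronglyMeasurable).symm
  simp only [hY]
  rw [← integral_finsetSum_measure fun Y _ => integrable_bdd hm hB, pi_split N hK,
    integral_smul_nnreal_measure, NNReal.smul_def, smul_eq_mul, NNReal.coe_pow, NNReal.coe_natCast,
    mul_div_assoc]
  field_simp

variable {N : ℕ} {b : ℝ} {w : ℝ → ℝ}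

/-- The weights with intervals `Y` and positions `R`. -/
noncomputable def conf (w : ℝ → ℝ) {K : ℕ} (Y : Fin N → Fin K) (R : Fin N → ℝ) : Fin N → ℝ :=
  fun i => w (phi K (Y i) (R i))

theorem conf_update {K : ℕ} (Y : Fin N → Fin K) (R : Fin N → ℝ) (i : Fin N) (k : Fin K) :
    conf w (Function.update Y i k) R = Function.update (conf w Y R) i (w (phi K k (R i))) := by
  funext j
  rcases eq_or_ne j i with rfl | h <;> simp [conf, *]

/-- The hypotheses on the function: `P` dominates its upward increments and is antitone. -/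
structure Concave (f : (Fin N → ℝ) → ℝ) (P : Fin N → (Fin N → ℝ) → ℝ) (M : ℝ) : Prop where
  meas : Measurable f
  measP : ∀ i, Measurable (P i)
  mem : ∀ i x, 0 ≤ P i x ∧ P i x ≤ 1
  sum_le : ∀ x, ∑ i, P i x ≤ M
  mono : ∀ x i t, x i ≤ t → f x ≤ f (Function.update x i t)
  incr : ∀ x i t, x i ≤ t → f (Function.update x i t) - f x ≤ P i x * (t - x i)
  anti : ∀ x i t, x i ≤ t → P i (Function.update x i t) ≤ P i x

/-- The general hypotheses: `P` bounds the upward increments per unit and `A` bounds them on the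
range of the transform; `A` is antitone in the own coordinate. -/
structure Env (w : ℝ → ℝ) (f : (Fin N → ℝ) → ℝ) (P A : Fin N → (Fin N → ℝ) → ℝ) (M B₁ : ℝ) : Prop where
  meas : Measurable f
  measP : ∀ i, Measurable (P i)
  measA : ∀ i, Measurable (A i)
  mem : ∀ i x, 0 ≤ P i x ∧ P i x ≤ 1
  memA : ∀ i x, 0 ≤ A i x ∧ A i x ≤ B₁
  sum_le : ∀ x, ∑ i, P i x ≤ M
  mono : ∀ x i t, x i ≤ t → f x ≤ f (Function.update x i t)
  incr : ∀ x i t, x i ≤ t → f (Function.update x i t) - f x ≤ P i x * (t - x i)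
  env : ∀ x i u, x i ∈ Set.range w → x i ≤ w u → f (Function.update x i (w u)) - f x ≤ A i x
  anti : ∀ x i t, x i ≤ t → A i (Function.update x i t) ≤ A i x

variable {f : (Fin N → ℝ) → ℝ} {P A : Fin N → (Fin N → ℝ) → ℝ} {M B B₁ : ℝ}

theorem Concave.toEnv (hwb : ∀ u, 0 ≤ w u ∧ w u ≤ b) (hc : Concave f P M) :
    Env w f P (fun i x => b * P i x) M b where
  meas := hc.meas
  measP := hc.measP
  measA i := (hc.measP i).const_mul b
  mem := hc.mem
  memA i x := ⟨mul_nonneg ((hwb 0).1.trans (hwb 0).2) (hc.mem i x).1,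
    mul_le_of_le_one_right ((hwb 0).1.trans (hwb 0).2) (hc.mem i x).2⟩
  sum_le := hc.sum_le
  mono := hc.mono
  incr := hc.incr
  env x i u := fun ⟨v, hv⟩ hle => by
    refine (hc.incr x i _ hle).trans ?_
    rw [mul_comm b]
    exact mul_le_mul_of_nonneg_left (by linarith [(hwb u).2, (hwb v).1]) (hc.mem i x).1
  anti x i t h := mul_le_mul_of_nonneg_left (hc.anti x i t h) ((hwb 0).1.trans (hwb 0).2)

/-- The average increment bound on given intervals. -/
noncomputable def infl (w : ℝ → ℝ) (P : Fin N → (Fin N → ℝ) → ℝ) {K : ℕ} (i : Fin N) (Y : Fin N → Fin K) : ℝ :=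
  ∫ R, P i (conf w Y R) ∂Measure.pi (fun _ : Fin N => unif)

/-- The function averaged over the positions. -/
noncomputable def avgR (w : ℝ → ℝ) (f : (Fin N → ℝ) → ℝ) {K : ℕ} (Y : Fin N → Fin K) : ℝ :=
  ∫ R, f (conf w Y R) ∂Measure.pi (fun _ : Fin N => unif)

theorem measurable_conf (hw : Monotone w) {K : ℕ} (Y : Fin N → Fin K) : Measurable (conf w Y) :=
  measurable_pi_iff.2 fun i => hw.measurable.comp ((measurable_phi K (Y i)).comp (measurable_pi_apply i))

theorem infl_integrable (hw : Monotone w) {Q : Fin N → (Fin N → ℝ) → ℝ} {B₂ : ℝ}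
    (hQ : ∀ i, Measurable (Q i)) (hmem : ∀ i x, 0 ≤ Q i x ∧ Q i x ≤ B₂) {K : ℕ} (i : Fin N)
    (Y : Fin N → Fin K) :
    Integrable (fun R => Q i (conf w Y R)) (Measure.pi (fun _ : Fin N => unif)) :=
  integrable_bdd ((hQ i).comp (measurable_conf hw Y)) (B := B₂) fun _ =>
    (abs_of_nonneg (hmem i _).1).trans_le (hmem i _).2

theorem infl_nonneg {Q : Fin N → (Fin N → ℝ) → ℝ} (hQ : ∀ i x, 0 ≤ Q i x) {K : ℕ} (i : Fin N)
    (Y : Fin N → Fin K) : 0 ≤ infl w Q i Y :=
  integral_nonneg fun _ => hQ _ _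

theorem infl_sum_le (hw : Monotone w) (hc : Env w f P A M B₁) {K : ℕ} (Y : Fin N → Fin K) :
    ∑ i, infl w P i Y ≤ M := by
  simp only [infl]
  rw [← integral_finsetSum _ fun i _ => infl_integrable hw hc.measP hc.mem i Y]
  simpa using integral_mono (integrable_finsetSum _ fun i _ => infl_integrable hw hc.measP hc.mem i Y)
    (integrable_const M) fun R => hc.sum_le _

theorem sq_mem (hc : Env w f P A M B₁) (i : Fin N) (x : Fin N → ℝ) :
    0 ≤ A i x ^ 2 ∧ A i x ^ 2 ≤ B₁ ^ 2 :=
  ⟨sq_nonneg _, pow_le_pow_left₀ (hc.memA i x).1 (hc.memA i x).2 2⟩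

theorem infl_sq_le (hw : Monotone w) (hc : Env w f P A M B₁) {K : ℕ} (i : Fin N) (Y : Fin N → Fin K) :
    infl w A i Y ^ 2 ≤ infl w (fun i x => A i x ^ 2) i Y := by
  have h1 := infl_integrable hw hc.measA hc.memA i Y
  have h2 := infl_integrable hw (Q := fun i x => A i x ^ 2) (fun i => (hc.measA i).pow_const 2)
    (sq_mem hc) i Y
  set a := infl w A i Y
  have h3 : (0 : ℝ) ≤ ∫ R, (A i (conf w Y R) - a) ^ 2 ∂Measure.pi (fun _ : Fin N => unif) :=
    integral_nonneg fun R => sq_nonneg _
  rw [show (fun R => (A i (conf w Y R) - a) ^ 2) = fun R => A i (conf w Y R) ^ 2 -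
      (2 * a * A i (conf w Y R) - a ^ 2) from funext fun R => by ring,
    integral_sub h2 ((h1.const_mul _).sub' (integrable_const _)),
    integral_sub (h1.const_mul _) (integrable_const _), integral_const_mul, integral_const,
    probReal_univ, one_smul] at h3
  change 0 ≤ infl w (fun i x => A i x ^ 2) i Y - (2 * a * a - a ^ 2) at h3
  linarith

theorem infl_anti (hw : Monotone w) (hc : Env w f P A M B₁) {K : ℕ} (i : Fin N) (Y : Fin N → Fin K)
    {k l : Fin K} (hkl : k ≤ l) :
    infl w (fun i x => A i x ^ 2) i (Function.update Y i l) ≤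
      infl w (fun i x => A i x ^ 2) i (Function.update Y i k) := by
  have hi := fun Y => infl_integrable hw (Q := fun i x => A i x ^ 2) (K := K)
    (fun i => (hc.measA i).pow_const 2) (sq_mem hc) i Y
  refine integral_mono (hi _) (hi _) fun R => pow_le_pow_left₀ (hc.memA _ _).1 ?_ 2
  simp only [conf_update]
  simpa using hc.anti (Function.update (conf w Y R) i (w (phi K k (R i)))) i _
    (by simpa using hw (phi_le hkl (R i)))

/-- The positions contribute little to the variance. -/
theorem var_positions (hw : Monotone w) (hc : Env w f P A M B₁)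
    (hB : ∀ U : Fin N → ℝ, |f (fun i => w (U i))| ≤ B) {η a : ℝ} (hη : 0 < η) (ha : 0 < a)
    (hwa : w a ≤ w 0 + η) {τ V : ℝ} (hτ : τ ∈ Set.Icc (0 : ℝ) 1) (hV : w (1 - τ) - w 0 ≤ V)
    {K : ℕ} (hK : 0 < K) :
    ∑ Y : Fin N → Fin K, (∫ R, f (conf w Y R) ^ 2 ∂Measure.pi (fun _ : Fin N => unif) - avgR w f Y ^ 2) ≤
      η ^ 2 * M * (K : ℝ) ^ N + (V / η + τ * K + 1) / (a * K) *
        ∑ Y : Fin N → Fin K, ∑ i, infl w (fun i x => A i x ^ 2) i Y := by
  have hK' : (0 : ℝ) < K := by exact_mod_cast hK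
  set π := Measure.pi (fun _ : Fin N => unif) with hπ
  have hcm := measurable_conf (N := N) (K := K) hw
  have hfB : ∀ (Y : Fin N → Fin K) R, |f (conf w Y R)| ≤ B := fun Y R => hB _
  set osc : Fin K → ℝ := fun k => w ((((k : ℕ) : ℝ) + 1) / K) - w (((k : ℕ) : ℝ) / K)
  have hosc0 : ∀ k, 0 ≤ osc k := fun k => sub_nonneg.2 (hw (by gcongr; linarith))
  set bad : Finset (Fin K) := univ.filter fun k => η < osc k with hbad
  obtain ⟨hτ0, hτ1⟩ := hτ
  set k₀ := ⌊(1 - τ) * K⌋₊ with hk₀
  have hk₀l : (k₀ : ℝ) ≤ (1 - τ) * K := Nat.floor_le (mul_nonneg (by linarith) hK'.le)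
  have hk₀K : k₀ ≤ K := Nat.floor_le_of_le (by nlinarith)
  have hcard : (bad.card : ℝ) ≤ V / η + τ * K + 1 := by
    set low := bad.filter fun k : Fin K => (k : ℕ) < k₀ with hlow
    have h1 : (low.card : ℝ) ≤ V / η := by
      rw [le_div_iff₀ hη]
      calc (low.card : ℝ) * η = ∑ _k ∈ low, η := by simp
        _ ≤ ∑ k ∈ low, osc k := sum_le_sum fun k hk => (mem_filter.1 (mem_filter.1 hk).1).2.le
        _ ≤ ∑ k ∈ univ.filter (fun k : Fin K => (k : ℕ) < k₀), osc k :=
            sum_le_sum_of_subset_of_nonneg (fun k hk => mem_filter.2 ⟨mem_univ _, (mem_filter.1 hk).2⟩)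
              fun k _ _ => hosc0 k
        _ = ∑ j ∈ range k₀, (w (((j : ℝ) + 1) / K) - w ((j : ℝ) / K)) := by
            refine sum_bij (fun k _ => (k : ℕ)) (fun k hk => mem_range.2 (mem_filter.1 hk).2)
              (fun k _ l _ h => Fin.ext h) (fun j hj => ⟨⟨j, (mem_range.1 hj).trans_le hk₀K⟩,
                mem_filter.2 ⟨mem_univ _, mem_range.1 hj⟩, rfl⟩) fun k _ => rfl
        _ = w ((k₀ : ℝ) / K) - w 0 := by
            have := sum_range_sub (fun k : ℕ => w ((k : ℝ) / K)) k₀
            simpa using this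
        _ ≤ V := by
            refine le_trans ?_ hV
            have := hw (show (k₀ : ℝ) / K ≤ 1 - τ by rwa [div_le_iff₀ hK'])
            linarith
    have h2 : ((bad.filter fun k : Fin K => ¬ (k : ℕ) < k₀).card : ℝ) ≤ τ * K + 1 := by
      have h := card_le_card_of_injOn (fun k : Fin K => (k : ℕ))
        (s := bad.filter fun k : Fin K => ¬ (k : ℕ) < k₀) (t := Ico k₀ K)
        (fun k hk => mem_Ico.2 ⟨not_lt.1 (mem_filter.1 hk).2, k.2⟩) Fin.val_injective.injOn
      rw [Nat.card_Ico] at h
      have h' : ((bad.filter fun k : Fin K => ¬ (k : ℕ) < k₀).card : ℝ) ≤ ((K - k₀ : ℕ) : ℝ) :=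
        Nat.cast_le.2 h
      rw [Nat.cast_sub hk₀K] at h'
      have := Nat.lt_floor_add_one ((1 - τ) * K)
      rw [← hk₀] at this
      linarith
    rw [← card_filter_add_card_filter_not (s := bad) (fun k : Fin K => (k : ℕ) < k₀), Nat.cast_add]
    linarith
  have hbadk : ∀ k ∈ bad, a * K ≤ ((k : ℕ) : ℝ) + 1 := by
    intro k hk
    by_contra h
    have h1 : (((k : ℕ) : ℝ) + 1) / K ≤ a := by rw [div_le_iff₀ hK']; linarith
    have h2 : osc k ≤ w a - w 0 := sub_le_sub (hw h1) (hw (by positivity))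
    linarith [(mem_filter.1 hk).2]
  have first : ∀ Y, ∫ R, f (conf w Y R) ^ 2 ∂π - avgR w f Y ^ 2 ≤
      η ^ 2 * M + ∑ i, (if Y i ∈ bad then infl w (fun i x => A i x ^ 2) i Y else 0) := by
    intro Y
    set top : Fin N → ℝ := fun i => w ((((Y i : ℕ) : ℝ) + 1) / K) with htop
    have hle : ∀ R i, conf w Y R i ≤ top i := fun R i => hw (phi_mem _ _).2
    have hgm : ∀ i, Measurable fun R => f (Function.update (conf w Y R) i (top i)) := fun i =>
      hc.meas.comp (measurable_update_left.comp (hcm Y))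
    have hgB : ∀ i R, |f (Function.update (conf w Y R) i (top i))| ≤ B := fun i R => by
      refine le_of_eq_of_le (congrArg (fun z => |f z|) ?_)
        (hB (Function.update (fun j => phi K (Y j) (R j)) i ((((Y i : ℕ) : ℝ) + 1) / K)))
      funext j
      rcases eq_or_ne j i with rfl | h <;> simp [conf, top, *]
    have es := var_le_sum unif N (fun R => f (conf w Y R)) (fun i R => f (Function.update (conf w Y R) i (top i))) B
      (hc.meas.comp (hcm Y)) hgm (hfB Y) hgB fun i R x => by
        refine congrArg f (funext fun j => ?_)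
        rcases eq_or_ne j i with rfl | h <;> simp [conf, *]
    refine es.trans ?_
    have hterm : ∀ i, ∫ R, (f (conf w Y R) - f (Function.update (conf w Y R) i (top i))) ^ 2 ∂π ≤
        η ^ 2 * infl w P i Y + (if Y i ∈ bad then infl w (fun i x => A i x ^ 2) i Y else 0) := by
      intro i
      have hpt : ∀ R, (f (conf w Y R) - f (Function.update (conf w Y R) i (top i))) ^ 2 ≤
          η ^ 2 * P i (conf w Y R) + (if Y i ∈ bad then A i (conf w Y R) ^ 2 else 0) := by
        intro R
        have h1 := hc.mono (conf w Y R) i (top i) (hle R i)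
        obtain ⟨p0, p1⟩ := hc.mem i (conf w Y R)
        rw [show (f (conf w Y R) - f (Function.update (conf w Y R) i (top i))) ^ 2 =
          (f (Function.update (conf w Y R) i (top i)) - f (conf w Y R)) ^ 2 by ring]
        split_ifs with hk
        · refine le_add_of_nonneg_of_le (mul_nonneg (sq_nonneg _) p0) ?_
          exact pow_le_pow_left₀ (sub_nonneg.2 h1) (hc.env _ i _ ⟨_, rfl⟩ (hle R i)) 2
        · have h3 : top i - conf w Y R i ≤ η := by
            have h4 : osc (Y i) ≤ η := by simpa [hbad] using hk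
            have := hw (phi_mem (Y i) (R i)).1
            simp only [top, osc, conf] at h4 ⊢
            linarith
          rw [add_zero]
          calc (f (Function.update (conf w Y R) i (top i)) - f (conf w Y R)) ^ 2
              ≤ (P i (conf w Y R) * η) ^ 2 := pow_le_pow_left₀ (sub_nonneg.2 h1)
                ((hc.incr _ i _ (hle R i)).trans (mul_le_mul_of_nonneg_left h3 p0)) 2
            _ ≤ _ := by nlinarith [sq_nonneg η, mul_le_mul_of_nonneg_right p1 p0]
      have i1 := infl_integrable hw hc.measP hc.mem i Y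
      have i2 : Integrable (fun R => if Y i ∈ bad then A i (conf w Y R) ^ 2 else 0) π := by
        split_ifs
        · exact infl_integrable hw (Q := fun i x => A i x ^ 2) (fun i => (hc.measA i).pow_const 2) (sq_mem hc) i Y
        · exact integrable_const _
      refine (integral_mono (integrable_bdd (((hc.meas.comp (hcm Y)).sub (hgm i)).pow_const 2)
        (B := (B + B) ^ 2) fun R => ?_) ((i1.const_mul _).add i2) hpt).trans_eq ?_
      · rw [abs_pow]
        exact pow_le_pow_left₀ (abs_nonneg _) ((abs_sub _ _).trans (add_le_add (hfB Y R) (hgB i R))) 2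
      · change ∫ R, η ^ 2 * P i (conf w Y R) + (if Y i ∈ bad then A i (conf w Y R) ^ 2 else 0) ∂π = _
        rw [integral_add (i1.const_mul _) i2, integral_const_mul]
        split_ifs <;> simp [infl]
    refine (sum_le_sum fun i _ => hterm i).trans ?_
    rw [sum_add_distrib, ← mul_sum]
    gcongr
    exact infl_sum_le hw hc Y
  set S : (Fin N → Fin K) → Fin N → ℝ := fun Y i => infl w (fun i x => A i x ^ 2) i Y with hS
  have hS0 : ∀ Y i, 0 ≤ S Y i := fun Y i =>
    infl_nonneg (Q := fun i x => A i x ^ 2) (fun _ _ => sq_nonneg _) i Y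
  have hc0 : 0 ≤ V / η + τ * K + 1 := (Nat.cast_nonneg _).trans hcard
  have hbadsum : ∀ i, ∑ Y : Fin N → Fin K, (if Y i ∈ bad then S Y i else 0) ≤
      (V / η + τ * K + 1) / (a * K) * ∑ Y : Fin N → Fin K, S Y i := by
    intro i
    have h1 := sum_update (fun Y : Fin N → Fin K => if Y i ∈ bad then S Y i else 0) i
    have h2 := sum_update (fun Y : Fin N → Fin K => S Y i) i
    simp only [Function.update_self, Fintype.card_fin] at h1 h2
    have hY : ∀ Y : Fin N → Fin K, ∑ k, (if k ∈ bad then S (Function.update Y i k) i else 0) ≤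
        (V / η + τ * K + 1) / (a * K) * ∑ k, S (Function.update Y i k) i := by
      intro Y
      set q := fun k => S (Function.update Y i k) i
      have hk : ∀ k ∈ bad, q k ≤ (∑ l, q l) / (a * K) := fun k hk => by
        rw [le_div_iff₀ (by positivity)]
        calc q k * (a * K) ≤ q k * (((k : ℕ) : ℝ) + 1) :=
              mul_le_mul_of_nonneg_left (hbadk k hk) (hS0 _ _)
          _ = ∑ _l ∈ Iic k, q k := by simp [Fin.card_Iic, mul_comm]
          _ ≤ ∑ l ∈ Iic k, q l := sum_le_sum fun l hl => infl_anti hw hc i Y (mem_Iic.1 hl)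
          _ ≤ ∑ l, q l := sum_le_sum_of_subset_of_nonneg (subset_univ _) fun l _ _ => hS0 _ _
      rw [← sum_filter, show univ.filter (· ∈ bad) = bad from filter_univ_mem bad]
      refine (sum_le_sum hk).trans ?_
      rw [sum_const, nsmul_eq_mul, mul_div_assoc', div_mul_eq_mul_div]
      gcongr
      exact sum_nonneg fun l _ => hS0 _ _
    have h3 := (sum_le_sum (s := univ) fun Y _ => hY Y).trans_eq (mul_sum _ _ _).symm
    rw [h1, h2, mul_left_comm] at h3
    exact le_of_mul_le_mul_left h3 hK'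
  refine (sum_le_sum fun Y _ => first Y).trans ?_
  rw [sum_add_distrib, sum_comm (γ := Fin N → Fin K)]
  simp only [sum_const, card_univ, Fintype.card_fun, Fintype.card_fin, nsmul_eq_mul, Nat.cast_pow]
  refine add_le_add (le_of_eq (mul_comm _ _)) ((sum_le_sum fun i _ => hbadsum i).trans_eq ?_)
  rw [← mul_sum, sum_comm]

/-- The intervals contribute little to the variance. -/
theorem var_intervals (hw : Monotone w) (hc : Env w f P A M B₁)
    (hB : ∀ U : Fin N → ℝ, |f (fun i => w (U i))| ≤ B) {J : ℕ} {L δ S₁ S₂ : ℝ} (hL0 : 0 < L) (hδ0 : 0 ≤ δ)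
    (h1 : ∑ i, ∫ U, A i (fun j => w (U j)) ∂Measure.pi (fun _ : Fin N => unif) ≤ S₁)
    (h2 : ∑ i, ∫ U, A i (fun j => w (U j)) ^ 2 ∂Measure.pi (fun _ : Fin N => unif) ≤ S₂)
    (hδ : ∀ i, ∫ U, A i (fun j => w (U j)) ∂Measure.pi (fun _ : Fin N => unif) ≤ δ) :
    ((∑ Y : Fin N → Fin (2 ^ J), avgR w f Y ^ 2) / ((2 ^ J : ℕ) : ℝ) ^ N -
      ((∑ Y : Fin N → Fin (2 ^ J), avgR w f Y) / ((2 ^ J : ℕ) : ℝ) ^ N) ^ 2) * L ≤
      4 * (J * S₂) + Real.exp L * (J * δ * S₁) := by
  set K := 2 ^ J with hKdef
  have hK : 0 < K := by positivity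
  let E : (Fin (N * J) → Bool) ≃ (Fin N → Fin K) :=
    ((Equiv.arrowCongr finProdFinEquiv.symm (Equiv.refl Bool)).trans (Equiv.curry _ _ _)).trans
      (Equiv.piCongrRight fun _ => Fintype.equivFinOfCardEq (by simp [hKdef]))
  have hfint : ∀ Y : Fin N → Fin K, Integrable (fun R => f (conf w Y R)) (Measure.pi (fun _ : Fin N => unif)) :=
    fun Y => integrable_bdd (hc.meas.comp (measurable_conf hw Y)) fun R => hB _
  have hcardc : ((2 : ℝ) ^ (N * J)) = (K : ℝ) ^ N := by
    rw [hKdef, mul_comm N J, pow_mul]; norm_num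
  have havg : ∀ F : (Fin N → Fin K) → ℝ, avg (fun x => F (E x)) = (∑ Y, F Y) / (K : ℝ) ^ N := fun F => by
    rw [avg, E.sum_comp F, hcardc]
  set p : Fin N → ℝ := fun i => avg fun x => infl w A i (E x)
  set p₂ : Fin N → ℝ := fun i => avg fun x => infl w (fun i x => A i x ^ 2) i (E x)
  have hwv : Measurable fun U : Fin N → ℝ => fun i => w (U i) :=
    measurable_pi_iff.2 fun i => hw.measurable.comp (measurable_pi_apply i)
  have hp0 : ∀ i, 0 ≤ p i := fun i => avg_nonneg fun x => infl_nonneg (fun i x => (hc.memA i x).1) _ _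
  have hp : ∀ i, p i = ∫ U, A i (fun j => w (U j)) ∂Measure.pi (fun _ : Fin N => unif) := fun i => by
    simp only [p]
    rw [havg (infl w A i)]
    exact (integral_split N hK (h := fun U => A i (fun j => w (U j))) ((hc.measA i).comp hwv) (B := B₁)
      fun U => (abs_of_nonneg (hc.memA i _).1).trans_le (hc.memA i _).2).symm
  have hp₂ : ∀ i, p₂ i = ∫ U, A i (fun j => w (U j)) ^ 2 ∂Measure.pi (fun _ : Fin N => unif) := fun i => by
    simp only [p₂]
    rw [havg (infl w (fun i x => A i x ^ 2) i)]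
    exact (integral_split N hK (h := fun U => A i (fun j => w (U j)) ^ 2) (((hc.measA i).comp hwv).pow_const 2)
      (B := B₁ ^ 2) fun U => (abs_of_nonneg (sq_nonneg _)).trans_le (sq_mem hc i _).2).symm
  have hbit : ∀ (i : Fin N) (l : Fin J), avg (fun x => pd (finProdFinEquiv (i, l)) (fun z => avgR w f (E z)) x ^ 2) ≤
      p₂ i ∧ avg (fun x => |pd (finProdFinEquiv (i, l)) (fun z => avgR w f (E z)) x|) ≤ p i := by
    intro i l
    set k := finProdFinEquiv (i, l) with hk
    have hE : ∀ x c, E (Function.update x k c) = Function.update (E x) i (E (Function.update x k c) i) := by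
      intro x c
      funext j
      rcases eq_or_ne j i with rfl | h
      · simp
      rw [Function.update_of_ne h]
      simp only [E, Equiv.trans_apply, Equiv.piCongrRight_apply, Pi.map_apply]
      congr 1
      funext m
      simp [Equiv.arrowCongr, Function.update_of_ne, hk, h]
    have hd : ∀ Y (m m' : Fin K), |avgR w f (Function.update Y i m) - avgR w f (Function.update Y i m')| ≤
        infl w A i (Function.update Y i m) + infl w A i (Function.update Y i m') := by
      intro Y m m'
      wlog hmm : m ≤ m' generalizing m m'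
      · rw [abs_sub_comm, add_comm (infl w A i _)]; exact this m' m (le_of_not_ge hmm)
      have hR : ∀ R, f (conf w (Function.update Y i m) R) ≤ f (conf w (Function.update Y i m') R) ∧
          f (conf w (Function.update Y i m') R) - f (conf w (Function.update Y i m) R) ≤
            A i (conf w (Function.update Y i m) R) := by
        intro R
        set x := conf w (Function.update Y i m) R with hx
        set t := w (phi K m' (R i))
        have hxt : x i ≤ t := by simpa [hx, conf] using hw (phi_le hmm (R i))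
        have he : conf w (Function.update Y i m') R = Function.update x i t := by
          simp [hx, conf_update, t]
        rw [he]
        exact ⟨hc.mono x i t hxt, hc.env x i _ ⟨phi K (Function.update Y i m i) (R i), rfl⟩ hxt⟩
      have h1 : avgR w f (Function.update Y i m) ≤ avgR w f (Function.update Y i m') :=
        integral_mono (hfint _) (hfint _) fun R => (hR R).1
      have h2 : avgR w f (Function.update Y i m') - avgR w f (Function.update Y i m) ≤ infl w A i (Function.update Y i m) := by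
        simp only [avgR, infl]
        rw [← integral_sub (hfint _) (hfint _)]
        exact integral_mono ((hfint _).sub (hfint _)) (infl_integrable hw hc.measA hc.memA _ _) fun R => (hR R).2
      rw [abs_sub_comm, abs_of_nonneg (sub_nonneg.2 h1)]
      linarith [infl_nonneg (w := w) (fun i x => (hc.memA i x).1) i (Function.update Y i m')]
    have hpd : ∀ x, |pd k (fun z => avgR w f (E z)) x| ≤
        (infl w A i (E (Function.update x k true)) + infl w A i (E (Function.update x k false))) / 2 := by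
      intro x
      rw [pd, abs_div, abs_two, div_le_div_iff_of_pos_right two_pos]
      have := hd (E x) (E (Function.update x k true) i) (E (Function.update x k false) i)
      rwa [← hE, ← hE] at this
    have h2 : ∀ Q : Fin N → (Fin N → ℝ) → ℝ, avg (fun x => (infl w Q i (E (Function.update x k true)) +
        infl w Q i (E (Function.update x k false))) / 2) = avg fun x => infl w Q i (E x) := by
      intro Q
      have := sum_update (fun x => infl w Q i (E x)) k
      simp only [Fintype.sum_bool, Fintype.card_bool, Nat.cast_ofNat] at this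
      simp only [avg, ← sum_div]
      rw [this]
      ring
    refine ⟨?_, (avg_mono hpd).trans_eq (h2 A)⟩
    refine (avg_mono fun x => ?_).trans_eq (h2 fun i x => A i x ^ 2)
    rw [← sq_abs]
    refine (pow_le_pow_left₀ (abs_nonneg _) (hpd x) 2).trans ?_
    have k1 := infl_sq_le hw hc i (E (Function.update x k true))
    have k2 := infl_sq_le hw hc i (E (Function.update x k false))
    nlinarith [sq_nonneg (infl w A i (E (Function.update x k true)) - infl w A i (E (Function.update x k false)))]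
  have hen : energy (fun z => avgR w f (E z)) ≤ J * S₂ := by
    rw [energy, ← finProdFinEquiv.sum_comp, Fintype.sum_prod_type]
    refine (sum_le_sum fun i _ => sum_le_sum fun l _ => (hbit i l).1).trans ?_
    simp only [sum_const, card_univ, Fintype.card_fin, nsmul_eq_mul, ← mul_sum, hp₂]
    gcongr
  have hinf : ∑ k, (avg fun x => |pd k (fun z => avgR w f (E z)) x|) ^ 2 ≤ J * δ * S₁ := by
    rw [← finProdFinEquiv.sum_comp, Fintype.sum_prod_type]
    refine (sum_le_sum fun i _ => sum_le_sum fun l _ =>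
      pow_le_pow_left₀ (avg_nonneg fun _ => abs_nonneg _) (hbit i l).2 2).trans ?_
    simp only [sum_const, card_univ, Fintype.card_fin, nsmul_eq_mul, ← mul_sum]
    rw [mul_assoc]
    refine mul_le_mul_of_nonneg_left ?_ (Nat.cast_nonneg _)
    refine (sum_le_sum fun i _ => (sq (p i)).trans_le (mul_le_mul_of_nonneg_right (hp i ▸ hδ i) (hp0 i))).trans ?_
    rw [← mul_sum]
    simp only [hp]
    gcongr
  have h := variance_le (fun z => avgR w f (E z)) (Real.one_le_exp hL0.le)
  rw [Real.log_exp, havg fun Y => avgR w f Y ^ 2, havg fun Y => avgR w f Y] at h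
  exact h.trans (by gcongr)

/-- Small variance with an envelope. The constant `δ` depends on `ε`, on the modulus `α` of the
transform at `0` and on the bound `W` of the transform below its quantiles, but not on the transform. -/
theorem var_small_env {α W : ℝ → ℝ} (hα : ∀ η > 0, 0 < α η) {ε : ℝ} (hε : 0 < ε) :
    ∃ δ > 0, ∀ w : ℝ → ℝ, Monotone w → (∀ η > 0, w (α η) ≤ w 0 + η) →
      (∀ τ ∈ Set.Ioo (0 : ℝ) 1, w (1 - τ) - w 0 ≤ W τ) →
      ∀ (N : ℕ) (f : (Fin N → ℝ) → ℝ) (P A : Fin N → (Fin N → ℝ) → ℝ) (M B B₁ S₁ S₂ : ℝ),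
      Env w f P A M B₁ → (∀ U : Fin N → ℝ, |f (fun i => w (U i))| ≤ B) →
      ∑ i, ∫ U, A i (fun j => w (U j)) ∂Measure.pi (fun _ : Fin N => unif) ≤ S₁ →
      ∑ i, ∫ U, A i (fun j => w (U j)) ^ 2 ∂Measure.pi (fun _ : Fin N => unif) ≤ S₂ →
      (∀ i, ∫ U, A i (fun j => w (U j)) ∂Measure.pi (fun _ : Fin N => unif) ≤ δ) →
      ∫ U, f (fun i => w (U i)) ^ 2 ∂Measure.pi (fun _ : Fin N => unif) -
        (∫ U, f (fun i => w (U i)) ∂Measure.pi (fun _ : Fin N => unif)) ^ 2 ≤ ε * (M + S₁ + S₂) := by
  set η := √ε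
  have hη : 0 < η := Real.sqrt_pos.2 hε
  have hη2 : η ^ 2 = ε := Real.sq_sqrt hε.le
  set a := α η
  have ha : 0 < a := hα η hη
  obtain ⟨τ, hτ, hτε⟩ : ∃ τ ∈ Set.Ioo (0 : ℝ) 1, τ ≤ ε / 4 * a :=
    ⟨min (1 / 2) (ε / 4 * a), ⟨lt_min one_half_pos (by positivity),
      (min_le_left _ _).trans_lt (by norm_num)⟩, min_le_right _ _⟩
  obtain ⟨J, hJ⟩ := pow_unbounded_of_one_lt ((W τ / η + 1) * 4 / (ε * a)) (one_lt_two : (1 : ℝ) < 2)
  have hK : 0 < 2 ^ J := by positivity
  have hfac : (W τ / η + τ * ((2 ^ J : ℕ) : ℝ) + 1) / (a * ((2 ^ J : ℕ) : ℝ)) ≤ ε / 2 := by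
    rw [div_lt_iff₀ (by positivity)] at hJ
    rw [div_le_iff₀ (by positivity)]
    push_cast
    have := mul_le_mul_of_nonneg_right hτε (show (0 : ℝ) ≤ 2 ^ J by positivity)
    linarith
  obtain ⟨L, hL0, hL⟩ : ∃ L > 0, 4 * (J : ℝ) ≤ ε / 4 * L :=
    ⟨4 * (J : ℝ) / (ε / 4) + 1, by positivity, by
      rw [mul_add, mul_div_cancel₀ _ (by positivity)]; linarith⟩
  obtain ⟨δ, hδ0, hδ⟩ : ∃ δ > 0, Real.exp L * (J * δ) ≤ ε / 4 * L := by
    refine ⟨ε / 4 * L / (Real.exp L * J + 1), by positivity, ?_⟩
    rw [← mul_assoc, mul_div_assoc', div_le_iff₀ (by positivity)]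
    nlinarith [mul_pos (show 0 < ε / 4 by positivity) hL0]
  refine ⟨δ, hδ0, fun w hw hwα hwW N f P A M B B₁ S₁ S₂ hc hB h1 h2 hP => ?_⟩
  have hM0 : 0 ≤ M := (sum_nonneg fun i _ => (hc.mem i fun _ => 0).1).trans (hc.sum_le _)
  have hS1 : 0 ≤ S₁ := (sum_nonneg fun i _ => integral_nonneg fun U => (hc.memA i _).1).trans h1
  have hS2 : 0 ≤ S₂ := (sum_nonneg fun i _ => integral_nonneg fun U => sq_nonneg _).trans h2
  have hwv : Measurable fun U : Fin N → ℝ => fun i => w (U i) :=
    measurable_pi_iff.2 fun i => hw.measurable.comp (measurable_pi_apply i)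
  have v1 := var_positions hw hc hB hη ha (hwα η hη) ⟨hτ.1.le, hτ.2.le⟩ (hwW τ hτ) hK
  have v2 := var_intervals hw hc hB (J := J) hL0 hδ0.le h1 h2 hP
  have v2' := le_of_mul_le_mul_right (le_trans (c := (ε / 4 * S₂ + ε / 4 * S₁) * L) v2 (by
    have := mul_le_mul_of_nonneg_right hL hS2
    have := mul_le_mul_of_nonneg_right hδ hS1
    linarith)) hL0
  rw [integral_split N hK (h := fun U => f (fun i => w (U i)) ^ 2) ((hc.meas.comp hwv).pow_const 2) (B := B ^ 2)
      (fun U => by rw [abs_pow]; exact pow_le_pow_left₀ (abs_nonneg _) (hB U) 2),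
    integral_split N hK (h := fun U => f (fun i => w (U i))) (hc.meas.comp hwv) hB]
  rw [sum_sub_distrib, sub_le_iff_le_add'] at v1
  have hA2 : (∑ Y : Fin N → Fin (2 ^ J), ∑ i, infl w (fun i x => A i x ^ 2) i Y) /
      ((2 ^ J : ℕ) : ℝ) ^ N ≤ S₂ := by
    rw [sum_comm, sum_div]
    refine le_of_eq_of_le (sum_congr rfl fun i _ => ?_) h2
    exact (integral_split N hK (h := fun U => A i (fun j => w (U j)) ^ 2)
      (((hc.measA i).comp hwv).pow_const 2) (B := B₁ ^ 2)
      fun U => (abs_of_nonneg (sq_nonneg _)).trans_le (sq_mem hc i _).2).symm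
  simp only [avgR] at v1 v2'
  have hden : (0 : ℝ) < ((2 ^ J : ℕ) : ℝ) ^ N := by positivity
  have v3 := div_le_div_of_nonneg_right v1 hden.le
  rw [add_div, add_div, mul_div_cancel_right₀ _ hden.ne', mul_div_assoc, hη2] at v3
  have v4 := (mul_le_mul_of_nonneg_right hfac (div_nonneg (sum_nonneg fun Y _ => sum_nonneg fun i _ =>
    infl_nonneg (w := w) (Q := fun i x => A i x ^ 2) (fun _ _ => sq_nonneg _) i Y) hden.le)).trans
      (mul_le_mul_of_nonneg_left hA2 (by positivity))
  have := mul_nonneg hε.le hS1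
  have := mul_nonneg hε.le hS2
  have heq : ∀ (Y : Fin N → Fin (2 ^ J)) R, (fun i => w (phi (2 ^ J) (Y i) (R i))) = conf w Y R :=
    fun _ _ => rfl
  simp only [heq]
  linarith

/-- Small variance: the constant `δ` depends only on the transform and on `ε`. -/
theorem var_small (hw : Monotone w) (hwb : ∀ u, 0 ≤ w u ∧ w u ≤ b)
    (hcont : ∀ η > 0, ∃ a > 0, w a ≤ w 0 + η) {ε : ℝ} (hε : 0 < ε) :
    ∃ δ > 0, ∀ (N : ℕ) (f : (Fin N → ℝ) → ℝ) (P : Fin N → (Fin N → ℝ) → ℝ) (M B : ℝ),
      Concave f P M → (∀ U : Fin N → ℝ, |f (fun i => w (U i))| ≤ B) →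
      (∀ i, ∫ U, P i (fun j => w (U j)) ∂Measure.pi (fun _ : Fin N => unif) ≤ δ) →
      ∫ U, f (fun i => w (U i)) ^ 2 ∂Measure.pi (fun _ : Fin N => unif) -
        (∫ U, f (fun i => w (U i)) ∂Measure.pi (fun _ : Fin N => unif)) ^ 2 ≤ ε * M := by
  have hb : 0 ≤ b := (hwb 0).1.trans (hwb 0).2
  choose! α hα hwα using hcont
  set C := 1 + b + b ^ 2 with hCdef
  have hC : 0 < C := by positivity
  obtain ⟨δ, hδ0, hδ⟩ := var_small_env (α := α) (W := fun _ => b) hα (div_pos hε hC)
  refine ⟨δ / (b + 1), by positivity, fun N f P M B hc hB hP => ?_⟩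
  have hM0 : 0 ≤ M := (sum_nonneg fun i _ => (hc.mem i fun _ => 0).1).trans (hc.sum_le _)
  have hwv : Measurable fun U : Fin N → ℝ => fun i => w (U i) :=
    measurable_pi_iff.2 fun i => hw.measurable.comp (measurable_pi_apply i)
  have hi : ∀ i, Integrable (fun U => P i fun j => w (U j)) (Measure.pi (fun _ : Fin N => unif)) := fun i =>
    integrable_bdd ((hc.measP i).comp hwv) (B := 1) fun U =>
      (abs_of_nonneg (hc.mem i _).1).trans_le (hc.mem i _).2
  have hsum : ∑ i, ∫ U, P i (fun j => w (U j)) ∂Measure.pi (fun _ : Fin N => unif) ≤ M := by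
    rw [← integral_finsetSum _ fun i _ => hi i]
    simpa using integral_mono (integrable_finsetSum _ fun i _ => hi i) (integrable_const M) fun U => hc.sum_le _
  refine (hδ w hw hwα (fun τ _ => by linarith [(hwb (1 - τ)).2, (hwb 0).1]) N f P _ M B b (b * M) (b ^ 2 * M)
    (hc.toEnv hwb) hB ?_ ?_ fun i => ?_).trans_eq ?_
  · simp only [integral_const_mul, ← mul_sum]
    gcongr
  · refine le_trans (sum_le_sum fun i _ => ?_) (le_of_eq_of_le (mul_sum univ _ (b ^ 2)).symm
      (mul_le_mul_of_nonneg_left hsum (sq_nonneg b)))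
    rw [← integral_const_mul]
    refine integral_mono_of_nonneg (Filter.Eventually.of_forall fun U => sq_nonneg _)
      ((hi i).const_mul _) (Filter.Eventually.of_forall fun U => ?_)
    obtain ⟨p0, p1⟩ := hc.mem i fun j => w (U j)
    dsimp only
    rw [mul_pow]
    exact mul_le_mul_of_nonneg_left (by nlinarith) (sq_nonneg b)
  · rw [integral_const_mul]
    refine le_trans (mul_le_mul (show b ≤ b + 1 by linarith) (hP i)
      (integral_nonneg fun U => (hc.mem i _).1) (by linarith)) (le_of_eq ?_)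
    rw [mul_div_cancel₀ _ (by positivity)]
  · rw [hCdef]
    field_simp

end Vale.Agent.P158.Facet
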