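import Mathlib
import Vale.Agent.P158.Facet.VarPaths
import Vale.Agent.P158.Facet.Split
import Vale.Agent.P158.V4.StarGain
import Vale.Agent.P158.V4.Class

/-!
P158 facets, variance: the short passage time averaged over the shifts in a box. It increases in each
weight at a rate whose mean is small, and it is close to the passage time.
-/

namespace Vale.Agent.P158.Facet

open MeasureTheory Vale.Agent.P158.V4

/-- The shifts. -/
noncomputable def shifts (m : ℕ) : Finset Pt := Finset.Icc (-(m : ℤ)) m ×ˢ Finset.Icc (-(m : ℤ)) m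

/-- The short passage time averaged over shifts. -/
noncomputable def avgTime (b : ℝ) {M : ℕ} {u v : Pt} (h : l1 u v ≤ M) (m : ℕ) (ω : Cfg) : ℝ :=
  (∑ y ∈ shifts m, tshort b h (moveCfg y ω)) / (shifts m).card

/-- The rate of increase of the average in the weight of `e`. -/
noncomputable def avgNeed (b : ℝ) {M : ℕ} {u v : Pt} (h : l1 u v ≤ M) (m : ℕ) (e : Sym2 Pt)
    (ω : Cfg) : ℝ :=
  (∑ y ∈ shifts m,
    {x | Need b h (Sym2.map (· + -y) e) x}.indicator (fun _ => (1 : ℝ)) (moveCfg y ω)) /
    (shifts m).card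

variable {G : Measure ℝ} [IsProbabilityMeasure G] {b : ℝ} {M m : ℕ} {u v : Pt}

theorem card_shifts (m : ℕ) : (shifts m).card = (2 * m + 1) ^ 2 := by
  simp only [shifts, Finset.card_product, Int.card_Icc, sq]
  congr 1 <;> omega

theorem card_shifts_pos (m : ℕ) : (0 : ℝ) < (shifts m).card := by
  rw [card_shifts]; positivity

theorem map_neg_add (y : Pt) (e : Sym2 Pt) : Sym2.map (· + y) (Sym2.map (· + -y) e) = e := by
  induction e using Sym2.ind with
  | _ a c => simp

theorem moveCfg_update (y : Pt) (ω : Cfg) (e : Sym2 Pt) (t : ℝ) :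
    moveCfg y (Function.update ω e t) =
      Function.update (moveCfg y ω) (Sym2.map (· + -y) e) t := by
  have h : Function.update ω e t = Function.update ω (Sym2.map (· + y) (Sym2.map (· + -y) e)) t := by
    rw [map_neg_add]
  rw [h]
  exact Function.update_comp_eq_of_injective ω (Sym2.map.injective (add_left_injective y)) _ t

theorem moveCfg_at (y : Pt) (ω : Cfg) (e : Sym2 Pt) :
    moveCfg y ω (Sym2.map (· + -y) e) = ω e := by
  simp only [moveCfg, Function.comp_apply, map_neg_add]

theorem shift_injective {a c : Pt} :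
    Function.Injective fun y : Pt => (s(a + -y, c + -y) : Sym2 Pt) := by
  intro y y' h
  rcases Sym2.eq_iff.1 h with ⟨h1, -⟩ | ⟨h1, h2⟩
  · exact neg_injective (add_left_cancel h1)
  · simp only [Prod.ext_iff, Prod.fst_add, Prod.snd_add, Prod.fst_neg, Prod.snd_neg] at h1 h2
    ext <;> omega

theorem measurable_avgNeed (h : l1 u v ≤ M) (e : Sym2 Pt) : Measurable (avgNeed b h m e) :=
  (Finset.measurable_sum _ fun y _ =>
    (measurable_const.indicator (measurableSet_need h _)).comp (measurable_moveCfg y)).div_const _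

theorem measurable_avgTime (h : l1 u v ≤ M) : Measurable (avgTime b h m) :=
  (Finset.measurable_sum _ fun y _ => (measurable_tshort b h).comp (measurable_moveCfg y)).div_const _

theorem avgTime_bounds (hb : 0 ≤ b) (h : l1 u v ≤ M) (ω : Cfg) :
    0 ≤ avgTime b h m ω ∧ avgTime b h m ω ≤ M * b := by
  have hc := card_shifts_pos m
  refine ⟨div_nonneg (Finset.sum_nonneg fun y _ => (tshort_bounds hb h _).1) hc.le, ?_⟩
  rw [avgTime, div_le_iff₀ hc, mul_comm _ ((shifts m).card : ℝ), ← nsmul_eq_mul]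
  exact Finset.sum_le_card_nsmul _ _ _ fun y _ => (tshort_bounds hb h _).2

theorem avgNeed_mem (h : l1 u v ≤ M) (e : Sym2 Pt) (ω : Cfg) :
    0 ≤ avgNeed b h m e ω ∧ avgNeed b h m e ω ≤ 1 := by
  refine ⟨div_nonneg (Finset.sum_nonneg fun y _ => Set.indicator_nonneg (fun _ _ => zero_le_one) _)
    (card_shifts_pos m).le, ?_⟩
  rw [avgNeed, div_le_one (card_shifts_pos m)]
  refine (Finset.sum_le_card_nsmul _ _ 1 fun y _ =>
    Set.indicator_le_self' (fun _ _ => zero_le_one) _).trans_eq ?_
  simp

theorem sum_avgNeed_le (h : l1 u v ≤ M) (S : Finset (Sym2 Pt)) (ω : Cfg) :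
    ∑ e ∈ S, avgNeed b h m e ω ≤ M := by
  classical
  simp only [avgNeed, ← Finset.sum_div]
  rw [Finset.sum_comm, div_le_iff₀ (card_shifts_pos m), mul_comm (M : ℝ), ← nsmul_eq_mul]
  refine Finset.sum_le_card_nsmul _ _ _ fun y _ => ?_
  obtain ⟨p, -, hpM, hl, hle⟩ := exists_least b h (moveCfg y ω)
  simp only [Set.indicator_apply, Finset.sum_boole]
  refine Nat.cast_le.2 (le_trans (Finset.card_le_card_of_injOn (fun e => Sym2.map (· + -y) e)
    (t := p.edges.toFinset) (fun e he => ?_) ((Sym2.map.injective (add_left_injective _)).injOn)) ?_)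
  · have he' : Need b h (Sym2.map (· + -y) e) (moveCfg y ω) := (Finset.mem_filter.1 he).2
    exact List.mem_toFinset.2 (by_contra fun hne => (he' _ hl hne).ne hle.symm)
  · exact (List.toFinset_card_le _).trans ((SimpleGraph.Walk.length_edges p).trans_le hpM)

theorem avgTime_mono (h : l1 u v ≤ M) {ω : Cfg} {e : Sym2 Pt} {t : ℝ} (ht : ω e ≤ t) :
    avgTime b h m ω ≤ avgTime b h m (Function.update ω e t) := by
  refine div_le_div_of_nonneg_right (Finset.sum_le_sum fun y _ => ?_) (card_shifts_pos m).le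
  rw [moveCfg_update]
  exact tshort_update_ge h ((moveCfg_at y ω e).trans_le ht)

theorem avgTime_incr (h : l1 u v ≤ M) {ω : Cfg} {e : Sym2 Pt} {t : ℝ} (ht : ω e ≤ t) :
    avgTime b h m (Function.update ω e t) - avgTime b h m ω ≤ avgNeed b h m e ω * (t - ω e) := by
  simp only [avgTime, avgNeed]
  rw [← sub_div, div_mul_eq_mul_div, ← Finset.sum_sub_distrib, Finset.sum_mul]
  refine div_le_div_of_nonneg_right (Finset.sum_le_sum fun y _ => ?_) (card_shifts_pos m).le
  have := tshort_update_le (b := b) h ((moveCfg_at y ω e).trans_le ht)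
  rw [← moveCfg_update, moveCfg_at] at this
  exact this

theorem avgNeed_anti (h : l1 u v ≤ M) {ω : Cfg} {e : Sym2 Pt} {t : ℝ} (ht : ω e ≤ t) :
    avgNeed b h m e (Function.update ω e t) ≤ avgNeed b h m e ω := by
  refine div_le_div_of_nonneg_right (Finset.sum_le_sum fun y _ => ?_) (card_shifts_pos m).le
  rw [moveCfg_update]
  refine Set.indicator_apply_le' (fun hn => ?_) (fun _ => Set.indicator_nonneg (fun _ _ => zero_le_one) _)
  rw [Set.indicator_of_mem
    (show moveCfg y ω ∈ {x | Need b h (Sym2.map (· + -y) e) x} from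
      need_anti h rfl ((moveCfg_at y ω e).trans_le ht) hn)]

/-- No weight matters much on average. -/
theorem mean_avgNeed_le (hG : ∀ᵐ t ∂G, 0 < t ∧ t ≤ b) (hb : 0 ≤ b) {c : ℝ} (hc : 0 < c)
    (hrate : ∀ u n, law G (Cheap u n c) ≤ ENNReal.ofReal (2 * (1 / 4) ^ n)) (h : l1 u v ≤ M) {L₀ : ℕ}
    (hL : 4 * m ≤ L₀) (hdb : ((4 * m : ℕ) : ℝ) * b < c * L₀) (e : Sym2 Pt) :
    ∫ ω, avgNeed b h m e ω ∂law G ≤
      ((L₀ : ℝ) + 8 + ((2 * (m : ℝ) + 1) ^ 2) ^ 2 * (2 * (1 / 4) ^ L₀)) / (2 * (m : ℝ) + 1) ^ 2 := by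
  classical
  induction e using Sym2.ind with
  | _ a a' =>
  set P : Pt → Prop := fun z => ∃ y ∈ shifts m, z = a + -y with hP
  set bad : Set Cfg := ⋃ y ∈ shifts m, Cheap (a + -y) L₀ c with hbad
  have hbadm : MeasurableSet bad :=
    Finset.measurableSet_biUnion _ fun y _ => measurableSet_cheap _ _ _
  have hone : ∀ w k, (law G).real (Cheap w k c) ≤ 2 * (1 / 4) ^ k := fun w k =>
    ENNReal.toReal_le_of_le_ofReal (by positivity) (hrate w k)
  have hbadp : (law G).real bad ≤ (shifts m).card * (2 * (1 / 4) ^ L₀) := by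
    refine (measureReal_biUnion_finset_le _ _).trans ?_
    rw [← nsmul_eq_mul]
    exact Finset.sum_le_card_nsmul _ _ _ fun y _ => hone _ _
  have hdist : ∀ z z' : Pt, P z → P z' → l1 z z' ≤ 4 * m := by
    rintro _ _ ⟨y, hy, rfl⟩ ⟨y', hy', rfl⟩
    simp only [shifts, Finset.mem_product, Finset.mem_Icc] at hy hy'
    simp only [l1, Prod.fst_add, Prod.snd_add, Prod.fst_neg, Prod.snd_neg]
    omega
  have hcount := sum_real_le_of_count (P := law G) (M := ((L₀ : ℝ) + 8)) (shifts m) (shifts m)
    (A := fun y => {ω | Need b h (Sym2.map (· + -y) s(a, a')) ω}) (B := fun _ => bad)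
    (fun y _ => measurableSet_need h _) (fun _ _ => hbadm) (by
      filter_upwards [good_ae G hG] with ω hω
      by_cases hωb : ω ∈ bad
      · refine le_add_of_nonneg_of_le (by positivity) (Finset.sum_le_sum fun y _ => ?_)
        rw [Set.indicator_of_mem hωb]
        exact Set.indicator_le_self' (fun _ _ => zero_le_one) _
      · refine le_add_of_le_of_nonneg ?_
          (Finset.sum_nonneg fun y _ => Set.indicator_nonneg (fun _ _ => zero_le_one) _)
        simp only [Set.indicator_apply, Finset.sum_boole]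
        obtain ⟨p, hp, hpM, hl, hle⟩ := exists_least b h ω
        have hcl : (fun f => clamp b (ω f)) = ω :=
          funext fun f => clamp_of_mem (hω f).1.le (hω f).2
        have ht := touched_le hb h hpM hle P hdist hL hc hdb (fun z hz => by
          obtain ⟨y, hy, rfl⟩ := hz
          rw [hcl]
          exact fun hch => hωb (Set.mem_biUnion hy hch)) hp
        refine le_trans (Nat.cast_le.2 ((Finset.card_le_card_of_injOn (fun y => (s(a + -y, a' + -y) : Sym2 Pt))
          (fun y hy => ?_) shift_injective.injOn).trans ht)) (by push_cast; exact le_rfl)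
        obtain ⟨hy, hn⟩ := Finset.mem_filter.1 hy
        refine Finset.mem_filter.2 ⟨List.mem_toFinset.2 ?_, a + -y, Sym2.mem_mk_left _ _, y, hy, rfl⟩
        have hn' : Need b h (Sym2.map (· + -y) s(a, a')) ω := hn
        exact by_contra fun hne => (hn' _ hl (by simpa using hne)).ne hle.symm)
  have hI : ∀ y : Pt, ∫ ω, {x | Need b h (Sym2.map (· + -y) s(a, a')) x}.indicator
      (fun _ => (1 : ℝ)) (moveCfg y ω) ∂law G =
        (law G).real {ω | Need b h (Sym2.map (· + -y) s(a, a')) ω} := fun y => by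
    have hm : Measurable ({x | Need b h (Sym2.map (· + -y) s(a, a')) x}.indicator fun _ => (1 : ℝ)) :=
      measurable_const.indicator (measurableSet_need h _)
    rw [← integral_map (measurable_moveCfg y).aemeasurable hm.aestronglyMeasurable, map_moveCfg,
      integral_indicator (measurableSet_need h _), setIntegral_const, smul_eq_mul, mul_one]
  have hint : ∀ y ∈ shifts m, Integrable (fun ω => {x | Need b h (Sym2.map (· + -y) s(a, a')) x}.indicator
      (fun _ => (1 : ℝ)) (moveCfg y ω)) (law G) := fun y _ =>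
    integrable_bdd ((measurable_const.indicator (measurableSet_need h _)).comp (measurable_moveCfg y))
      (B := 1) fun ω => by
        rw [Set.indicator_apply]
        split_ifs <;> simp
  simp only [avgNeed]
  rw [integral_div, integral_finsetSum _ hint, Finset.sum_congr rfl fun y _ => hI y]
  have hcard : ((shifts m).card : ℝ) = (2 * (m : ℝ) + 1) ^ 2 := by rw [card_shifts]; push_cast; ring
  rw [hcard]
  refine div_le_div_of_nonneg_right (hcount.trans ?_) (by positivity)
  rw [Finset.sum_const, nsmul_eq_mul, hcard]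
  rw [hcard] at hbadp
  refine add_le_add le_rfl ?_
  refine (mul_le_mul_of_nonneg_left hbadp (by positivity)).trans_eq ?_
  ring

/-- The averaged time is close to the passage time. -/
theorem sq_dist_le (hG : ∀ᵐ t ∂G, 0 < t ∧ t ≤ b) (hb : 0 ≤ b) {c : ℝ} (hc : 0 < c)
    (hrate : ∀ u n, law G (Cheap u n c) ≤ ENNReal.ofReal (2 * (1 / 4) ^ n)) (h : l1 u v ≤ M)
    (hM : l1 u v * b ≤ c * M) :
    ∫ ω, (tt ω u v - avgTime b h m ω) ^ 2 ∂law G ≤
      16 * (m : ℝ) ^ 2 * b ^ 2 + 2 * b ^ 2 * (2 * (m : ℝ) + 1) ^ 2 := by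
  set bad : Set Cfg := ⋃ y ∈ shifts m, moveCfg y ⁻¹' Cheap u M c with hbad
  have hbadm : MeasurableSet bad :=
    Finset.measurableSet_biUnion _ fun y _ => measurable_moveCfg y (measurableSet_cheap _ _ _)
  have hbadp : (law G).real bad ≤ (2 * (m : ℝ) + 1) ^ 2 * (2 * (1 / 4) ^ M) := by
    refine (measureReal_biUnion_finset_le _ _).trans ?_
    rw [show (2 * (m : ℝ) + 1) ^ 2 = ((shifts m).card : ℝ) by rw [card_shifts]; push_cast; ring,
      ← nsmul_eq_mul]
    refine Finset.sum_le_card_nsmul _ _ _ fun y _ => ?_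
    rw [← map_measureReal_apply (measurable_moveCfg y) (measurableSet_cheap _ _ _), map_moveCfg]
    exact ENNReal.toReal_le_of_le_ofReal (by positivity) (hrate _ _)
  have hpt : ∀ᵐ ω ∂law G, (tt ω u v - avgTime b h m ω) ^ 2 ≤
      16 * (m : ℝ) ^ 2 * b ^ 2 + bad.indicator (fun _ => ((M : ℝ) * b) ^ 2) ω := by
    filter_upwards [good_ae G hG] with ω hω
    have h0 : ∀ e, 0 ≤ ω e := fun e => (hω e).1.le
    have hub : ∀ e, ω e ≤ b := fun e => (hω e).2
    obtain ⟨a0, a1⟩ := avgTime_bounds (m := m) hb h ω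
    have t0 : 0 ≤ tt ω u v := tt_nonneg h0
    by_cases hωb : ω ∈ bad
    · rw [Set.indicator_of_mem hωb]
      have t1 : tt ω u v ≤ M * b :=
        (tt_le_l1 h0 hub u v).trans (mul_le_mul_of_nonneg_right (Nat.cast_le.2 h) hb)
      have : |tt ω u v - avgTime b h m ω| ≤ M * b := abs_le.2 ⟨by linarith, by linarith⟩
      refine le_add_of_nonneg_of_le (by positivity) ?_
      rw [← sq_abs]
      exact pow_le_pow_left₀ (abs_nonneg _) this 2
    · rw [Set.indicator_of_notMem hωb, add_zero]
      have hy : ∀ y ∈ shifts m, |tt ω u v - tshort b h (moveCfg y ω)| ≤ 4 * m * b := by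
        intro y hy
        have hnc : moveCfg y ω ∉ Cheap u M c := fun hh => hωb (Set.mem_biUnion hy hh)
        have e1 : tshort b h (moveCfg y ω) = tt ω (u + y) (v + y) := by
          refine (le_antisymm (tshort_eq_tt hc h hM (fun e => h0 _) (fun e => hub _) hnc)
            (tt_le_tshort h (fun e => h0 _) fun e => hub _)).trans ?_
          exact tt_shift h0 y u v
        rw [e1]
        simp only [shifts, Finset.mem_product, Finset.mem_Icc] at hy
        have hl : ∀ w : Pt, (l1 w (w + y) : ℝ) ≤ 2 * m := fun w => by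
          have : l1 w (w + y) ≤ 2 * m := by
            simp only [l1, Prod.fst_add, Prod.snd_add]
            omega
          exact_mod_cast this
        have d1 := abs_tt_sub_le h0 hub u v (v + y)
        have d2 := abs_tt_sub_le h0 hub (v + y) u (u + y)
        rw [tt_comm h0 (v + y) u, tt_comm h0 (v + y) (u + y)] at d2
        have d3 := abs_sub_le (tt ω u v) (tt ω u (v + y)) (tt ω (u + y) (v + y))
        have d4 := mul_le_mul_of_nonneg_right (hl v) hb
        have d5 := mul_le_mul_of_nonneg_right (hl u) hb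
        linarith
      have hc' := card_shifts_pos m
      have hdiff : |tt ω u v - avgTime b h m ω| ≤ 4 * m * b := by
        have e : tt ω u v - avgTime b h m ω =
            (∑ y ∈ shifts m, (tt ω u v - tshort b h (moveCfg y ω))) / (shifts m).card := by
          rw [avgTime, Finset.sum_sub_distrib, Finset.sum_const, nsmul_eq_mul, sub_div,
            mul_div_cancel_left₀ _ hc'.ne']
        rw [e, abs_div, abs_of_pos hc', div_le_iff₀ hc', mul_comm, ← nsmul_eq_mul]
        exact (Finset.abs_sum_le_sum_abs _ _).trans (Finset.sum_le_card_nsmul _ _ _ hy)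
      calc (tt ω u v - avgTime b h m ω) ^ 2 = |tt ω u v - avgTime b h m ω| ^ 2 := (sq_abs _).symm
        _ ≤ (4 * m * b) ^ 2 := pow_le_pow_left₀ (abs_nonneg _) hdiff 2
        _ = _ := by ring
  refine (integral_mono_of_nonneg (Filter.Eventually.of_forall fun ω => sq_nonneg _)
    ((integrable_const _).add ((integrable_const _).indicator hbadm)) hpt).trans ?_
  rw [integral_add (integrable_const _) ((integrable_const _).indicator hbadm),
    integral_indicator hbadm, setIntegral_const, smul_eq_mul, integral_const, probReal_univ, one_smul]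
  refine add_le_add le_rfl ((mul_le_mul_of_nonneg_right hbadp (sq_nonneg _)).trans ?_)
  have hk : (M : ℝ) ^ 2 * (1 / 4) ^ M ≤ 1 := by
    have hk2 : (M : ℝ) ≤ 2 ^ M := by exact_mod_cast Nat.lt_two_pow_self.le
    rw [div_pow, one_pow, mul_one_div, div_le_one (by positivity)]
    calc (M : ℝ) ^ 2 ≤ ((2 : ℝ) ^ M) ^ 2 := pow_le_pow_left₀ (Nat.cast_nonneg _) hk2 2
      _ = 4 ^ M := by rw [← pow_mul, mul_comm M 2, pow_mul]; norm_num
  calc (2 * (m : ℝ) + 1) ^ 2 * (2 * (1 / 4) ^ M) * ((M : ℝ) * b) ^ 2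
      = (2 * b ^ 2 * (2 * (m : ℝ) + 1) ^ 2) * ((M : ℝ) ^ 2 * (1 / 4) ^ M) := by ring
    _ ≤ (2 * b ^ 2 * (2 * (m : ℝ) + 1) ^ 2) * 1 := mul_le_mul_of_nonneg_left hk (by positivity)
    _ = _ := mul_one _

end Vale.Agent.P158.Facet
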